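import Claimed.Agent.Lib.Sob.Defs

/-!
# `Lib/Sob/Ck`: toolbox for the predicate `CkLe` (leaf SOB-Ck)

`CkLe U k B Λ` = `ContDiffOn ℝ k B U` and `‖iteratedFDeriv ℝ j B x‖ ≤ Λ` for `j ≤ k`, `x ∈ U`; `U` is open.
KEY FACTS: the recursion `CkLe.fderiv_apply` / `ckLe_succ_of` (same constant!).
For `x ∈ U` open `iteratedFDeriv` is local (`iteratedFDerivWithin_of_isOpen`, `Filter.EventuallyEq.iteratedFDeriv_eq`).
* `fun x => fderiv ℝ B x v = (ContinuousLinearMap.apply ℝ F v) ∘ fderiv ℝ B`;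
  `ContinuousLinearMap.iteratedFDeriv_comp_left` (or the `Within` version), `norm_iteratedFDeriv_fderiv`
  (`norm_iteratedFDerivWithin_fderivWithin`), `ContinuousLinearMap.norm_compContinuousMultilinearMap_le`.
* converse: `iteratedFDeriv_succ_apply_right : iteratedFDeriv (n+1) f x m = iteratedFDeriv n (fderiv f) x (init m) (m (last n))`,
  then `ContinuousMultilinearMap.opNorm_le_bound` and homogeneity in the last vector.
* products: `ContinuousLinearMap.norm_iteratedFDerivWithin_le_of_bilinear` and `∑ choose = 2^n`.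
PLAN: in the order of the file.  Do not change statements; you may add lemmas (prefix `ck_`).
-/

set_option autoImplicit false
set_option maxSynthPendingDepth 6
set_option linter.unusedSectionVars false
set_option linter.unusedVariables false
open scoped ContDiff Topology
open Set Filter Metric

namespace Claimed.Agent.Lib.Sob

variable {E : Type*} [NormedAddCommGroup E] [NormedSpace ℝ E]
variable {F : Type*} [NormedAddCommGroup F] [NormedSpace ℝ F]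
variable {F' : Type*} [NormedAddCommGroup F'] [NormedSpace ℝ F']
variable {F'' : Type*} [NormedAddCommGroup F''] [NormedSpace ℝ F'']
variable {U V : Set E} {B B' : E → F} {Λ Λ' Λ₁ Λ₂ : ℝ} {k k' : ℕ}

theorem CkLe.contDiffOn (h : CkLe U k B Λ) : ContDiffOn ℝ k B U := h.1

theorem CkLe.bound (h : CkLe U k B Λ) {x : E} (hx : x ∈ U) : ‖B x‖ ≤ Λ := by
  have := h.2 0 (Nat.zero_le k) x hx
  rwa [norm_iteratedFDeriv_zero] at this

theorem CkLe.contDiffAt (hU : IsOpen U) (h : CkLe U k B Λ) {x : E} (hx : x ∈ U) {j : ℕ} (hj : j ≤ k) :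
    ContDiffAt ℝ j B x :=
  (h.1.contDiffAt (hU.mem_nhds hx)).of_le (by exact_mod_cast hj)

theorem CkLe.nonneg (h : CkLe U k B Λ) {x : E} (hx : x ∈ U) : 0 ≤ Λ := (norm_nonneg _).trans (h.bound hx)

theorem CkLe.mono (h : CkLe U k B Λ) (hΛ : Λ ≤ Λ') : CkLe U k B Λ' :=
  ⟨h.1, fun j hj x hx => (h.2 j hj x hx).trans hΛ⟩

theorem CkLe.mono_set (h : CkLe U k B Λ) (hV : V ⊆ U) : CkLe V k B Λ :=
  ⟨h.1.mono hV, fun j hj x hx => h.2 j hj x (hV hx)⟩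

theorem CkLe.mono_order (h : CkLe U k B Λ) (hk : k' ≤ k) : CkLe U k' B Λ :=
  ⟨h.1.of_le (by exact_mod_cast hk), fun j hj x hx => h.2 j (hj.trans hk) x hx⟩

theorem CkLe.congr (hU : IsOpen U) (h : CkLe U k B Λ) (hBB' : EqOn B B' U) : CkLe U k B' Λ := by
  refine ⟨h.1.congr fun x hx => (hBB' hx).symm, fun j hj x hx => ?_⟩
  have e : B' =ᶠ[𝓝 x] B := by
    filter_upwards [hU.mem_nhds hx] with y hy
    exact (hBB' hy).symm
  rw [(Filter.EventuallyEq.iteratedFDeriv ℝ e j).eq_of_nhds]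
  exact h.2 j hj x hx

theorem ckLe_zero_iff : CkLe U 0 B Λ ↔ ContinuousOn B U ∧ ∀ x ∈ U, ‖B x‖ ≤ Λ := by
  constructor
  · intro h
    exact ⟨h.1.continuousOn, fun x hx => h.bound hx⟩
  · rintro ⟨h1, h2⟩
    refine ⟨by exact_mod_cast contDiffOn_zero.2 h1, fun j hj x hx => ?_⟩
    obtain rfl : j = 0 := Nat.le_zero.1 hj
    rw [norm_iteratedFDeriv_zero]
    exact h2 x hx

theorem ckLe_const (y : F) (k : ℕ) : CkLe U k (fun _ : E => y) ‖y‖ := by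
  refine ⟨contDiffOn_const, fun j _ x _ => ?_⟩
  rcases Nat.eq_zero_or_pos j with rfl | hj
  · rw [norm_iteratedFDeriv_zero]
  · rw [iteratedFDeriv_const_of_ne hj.ne']
    simp

/-- recursion, downwards. -/
theorem CkLe.fderiv_apply (hU : IsOpen U) (h : CkLe U (k + 1) B Λ) {v : E} (hv : ‖v‖ ≤ 1) :
    CkLe U k (fun x => fderiv ℝ B x v) Λ := by
  have e : ((k + 1 : ℕ) : WithTop ℕ∞) = (k : WithTop ℕ∞) + 1 := by norm_cast
  have hd : ContDiffOn ℝ k (fderiv ℝ B) U := h.1.fderiv_of_isOpen hU (by rw [e])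
  refine ⟨hd.clm_apply contDiffOn_const, fun j hj x hx => ?_⟩
  have hc : ContDiffAt ℝ k (fderiv ℝ B) x := hd.contDiffAt (hU.mem_nhds hx)
  have h1 := (ContinuousLinearMap.apply ℝ F v).norm_iteratedFDeriv_comp_left hc (n := j) (by exact_mod_cast hj)
  have h2 : ‖ContinuousLinearMap.apply ℝ F v‖ ≤ 1 := by
    refine ContinuousLinearMap.opNorm_le_bound _ zero_le_one fun T => ?_
    rw [one_mul]
    calc ‖T v‖ ≤ ‖T‖ * ‖v‖ := T.le_opNorm v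
      _ ≤ ‖T‖ * 1 := mul_le_mul_of_nonneg_left hv (norm_nonneg _)
      _ = ‖T‖ := mul_one _
  rw [norm_iteratedFDeriv_fderiv] at h1
  have h3 := h.2 (j + 1) (by omega) x hx
  calc _ ≤ ‖ContinuousLinearMap.apply ℝ F v‖ * ‖iteratedFDeriv ℝ (j + 1) B x‖ := h1
    _ ≤ 1 * Λ := mul_le_mul h2 h3 (norm_nonneg _) zero_le_one
    _ = Λ := one_mul _

theorem CkLe.ckLe_fderiv (hU : IsOpen U) (h : CkLe U (k + 1) B Λ) : CkLe U k (fderiv ℝ B) Λ := by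
  have e : ((k + 1 : ℕ) : WithTop ℕ∞) = (k : WithTop ℕ∞) + 1 := by norm_cast
  refine ⟨h.1.fderiv_of_isOpen hU (by rw [e]), fun j hj x hx => ?_⟩
  rw [norm_iteratedFDeriv_fderiv]
  exact h.2 (j + 1) (by omega) x hx

theorem ck_succ_of_fderiv_aux (hU : IsOpen U) (h0 : ∀ x ∈ U, ‖B x‖ ≤ Λ) (hd : DifferentiableOn ℝ B U)
    (h : CkLe U k (fderiv ℝ B) Λ) : CkLe U (k + 1) B Λ := by
  have e : ((k + 1 : ℕ) : WithTop ℕ∞) = (k : WithTop ℕ∞) + 1 := by norm_cast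
  refine ⟨?_, fun j hj x hx => ?_⟩
  · rw [e, contDiffOn_succ_iff_fderiv_of_isOpen hU]
    exact ⟨hd, by simp, h.1⟩
  · rcases Nat.eq_zero_or_pos j with rfl | hj0
    · rw [norm_iteratedFDeriv_zero]
      exact h0 x hx
    · obtain ⟨i, rfl⟩ : ∃ i, j = i + 1 := ⟨j - 1, by omega⟩
      rw [← norm_iteratedFDeriv_fderiv]
      exact h.2 i (by omega) x hx

/-- recursion, upwards. -/
theorem ckLe_succ_of (hU : IsOpen U) (h0 : ∀ x ∈ U, ‖B x‖ ≤ Λ) (hd : DifferentiableOn ℝ B U)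
    (h : ∀ v : E, ‖v‖ ≤ 1 → CkLe U k (fun x => fderiv ℝ B x v) Λ) [FiniteDimensional ℝ E] :
    CkLe U (k + 1) B Λ := by
  have hc : ContDiffOn ℝ k (fderiv ℝ B) U := by
    rw [contDiffOn_clm_apply]
    intro y
    rcases eq_or_ne y 0 with rfl | hy
    · simpa using (contDiffOn_const : ContDiffOn ℝ k (fun _ : E => (0 : F)) U)
    · have hy' : ‖y‖ ≠ 0 := norm_ne_zero_iff.2 hy
      have h1 := (h (‖y‖⁻¹ • y) (by rw [norm_smul, norm_inv, norm_norm, inv_mul_cancel₀ hy'])).1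
      have h2 := h1.const_smul ‖y‖
      refine h2.congr fun x _ => ?_
      rw [map_smul, smul_smul, mul_inv_cancel₀ hy', one_smul]
  refine ck_succ_of_fderiv_aux hU h0 hd ⟨hc, fun j hj x hx => ?_⟩
  have hΛ : 0 ≤ Λ := (norm_nonneg _).trans (h0 x hx)
  have hcx : ContDiffAt ℝ k (fderiv ℝ B) x := hc.contDiffAt (hU.mem_nhds hx)
  refine ContinuousMultilinearMap.opNorm_le_bound hΛ fun m => ?_
  refine ContinuousLinearMap.opNorm_le_bound _ (by positivity) fun v => ?_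
  have key : ∀ u : E, ‖u‖ ≤ 1 → ‖(iteratedFDeriv ℝ j (fderiv ℝ B) x m) u‖ ≤ Λ * ∏ i, ‖m i‖ := by
    intro u hu
    have h1 := (ContinuousLinearMap.apply ℝ F u).iteratedFDeriv_comp_left hcx (i := j) (by exact_mod_cast hj)
    have h2 : (iteratedFDeriv ℝ j (fderiv ℝ B) x m) u
        = iteratedFDeriv ℝ j (fun x => fderiv ℝ B x u) x m := by
      have : (fun x => fderiv ℝ B x u) = (ContinuousLinearMap.apply ℝ F u) ∘ fderiv ℝ B := rfl
      rw [this, h1]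
      rfl
    rw [h2]
    refine (ContinuousMultilinearMap.le_opNorm _ m).trans ?_
    exact mul_le_mul_of_nonneg_right ((h u hu).2 j hj x hx) (by positivity)
  rcases eq_or_ne v 0 with rfl | hv
  · simp
  · have hv' : ‖v‖ ≠ 0 := norm_ne_zero_iff.2 hv
    have h1 := key (‖v‖⁻¹ • v) (by rw [norm_smul, norm_inv, norm_norm, inv_mul_cancel₀ hv'])
    have h2 : (iteratedFDeriv ℝ j (fderiv ℝ B) x m) v
        = ‖v‖ • (iteratedFDeriv ℝ j (fderiv ℝ B) x m) (‖v‖⁻¹ • v) := by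
      rw [map_smul, smul_smul, mul_inv_cancel₀ hv', one_smul]
    rw [h2, norm_smul, norm_norm, mul_comm]
    exact mul_le_mul_of_nonneg_right h1 (norm_nonneg v)

theorem ckLe_succ_of_fderiv (hU : IsOpen U) (h0 : ∀ x ∈ U, ‖B x‖ ≤ Λ) (hd : DifferentiableOn ℝ B U)
    (h : CkLe U k (fderiv ℝ B) Λ) : CkLe U (k + 1) B Λ :=
  ck_succ_of_fderiv_aux hU h0 hd h

theorem CkLe.add (hU : IsOpen U) (h₁ : CkLe U k B Λ₁) (h₂ : CkLe U k B' Λ₂) :
    CkLe U k (fun x => B x + B' x) (Λ₁ + Λ₂) := by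
  refine ⟨h₁.1.add h₂.1, fun j hj x hx => ?_⟩
  rw [fun_iteratedFDeriv_add_apply (h₁.contDiffAt hU hx hj) (h₂.contDiffAt hU hx hj)]
  exact (norm_add_le _ _).trans (add_le_add (h₁.2 j hj x hx) (h₂.2 j hj x hx))

theorem CkLe.sub (hU : IsOpen U) (h₁ : CkLe U k B Λ₁) (h₂ : CkLe U k B' Λ₂) :
    CkLe U k (fun x => B x - B' x) (Λ₁ + Λ₂) := by
  refine ⟨h₁.1.sub h₂.1, fun j hj x hx => ?_⟩
  rw [fun_iteratedFDeriv_sub_apply (h₁.contDiffAt hU hx hj) (h₂.contDiffAt hU hx hj)]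
  exact (norm_sub_le _ _).trans (add_le_add (h₁.2 j hj x hx) (h₂.2 j hj x hx))

theorem CkLe.neg (hU : IsOpen U) (h : CkLe U k B Λ) : CkLe U k (fun x => - B x) Λ := by
  refine ⟨h.1.neg, fun j hj x hx => ?_⟩
  have := iteratedFDeriv_neg_apply (𝕜 := ℝ) (i := j) (f := B) (x := x)
  rw [show (fun x => - B x) = -B from rfl, this, norm_neg]
  exact h.2 j hj x hx

theorem CkLe.const_smul (hU : IsOpen U) (h : CkLe U k B Λ) (c : ℝ) :
    CkLe U k (fun x => c • B x) (|c| * Λ) := by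
  refine ⟨h.1.const_smul c, fun j hj x hx => ?_⟩
  rw [iteratedFDeriv_const_smul_apply' (h.contDiffAt hU hx hj), norm_smul, Real.norm_eq_abs]
  exact mul_le_mul_of_nonneg_left (h.2 j hj x hx) (abs_nonneg c)

theorem CkLe.clm (hU : IsOpen U) (h : CkLe U k B Λ) (L : F →L[ℝ] F') :
    CkLe U k (fun x => L (B x)) (‖L‖ * Λ) := by
  refine ⟨L.contDiff.comp_contDiffOn h.1, fun j hj x hx => ?_⟩
  have h1 := L.norm_iteratedFDeriv_comp_left (h.contDiffAt hU hx le_rfl) (n := j) (by exact_mod_cast hj)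
  exact h1.trans (mul_le_mul_of_nonneg_left (h.2 j hj x hx) (norm_nonneg L))

/-- general bilinear product. -/
theorem CkLe.bilin (hU : IsOpen U) (L : F →L[ℝ] F' →L[ℝ] F'') {w : E → F'} (h₁ : CkLe U k B Λ₁)
    (h₂ : CkLe U k w Λ₂) (hΛ₁ : 0 ≤ Λ₁) (hΛ₂ : 0 ≤ Λ₂) :
    CkLe U k (fun x => L (B x) (w x)) (‖L‖ * 2 ^ k * Λ₁ * Λ₂) := by
  refine ⟨L.isBoundedBilinearMap.contDiff.comp_contDiffOn (h₁.1.prodMk h₂.1), fun j hj x hx => ?_⟩
  have h1 := L.norm_iteratedFDerivWithin_le_of_bilinear h₁.1 h₂.1 hU.uniqueDiffOn hx (n := j)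
    (by exact_mod_cast hj)
  rw [iteratedFDerivWithin_of_isOpen j hU hx] at h1
  refine h1.trans ?_
  have h2 : ∑ i ∈ Finset.range (j + 1), (j.choose i : ℝ) * ‖iteratedFDerivWithin ℝ i B U x‖ *
        ‖iteratedFDerivWithin ℝ (j - i) w U x‖ ≤ ∑ i ∈ Finset.range (j + 1), (j.choose i : ℝ) * Λ₁ * Λ₂ := by
    refine Finset.sum_le_sum fun i hi => ?_
    have hi' : i ≤ j := Nat.lt_succ_iff.1 (Finset.mem_range.1 hi)
    rw [iteratedFDerivWithin_of_isOpen i hU hx, iteratedFDerivWithin_of_isOpen (j - i) hU hx]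
    have a1 := h₁.2 i (hi'.trans hj) x hx
    have a2 := h₂.2 (j - i) ((Nat.sub_le _ _).trans hj) x hx
    have c0 : (0 : ℝ) ≤ (j.choose i : ℝ) := Nat.cast_nonneg _
    exact mul_le_mul (mul_le_mul_of_nonneg_left a1 c0) a2 (norm_nonneg _) (mul_nonneg c0 hΛ₁)
  have h3 : ∑ i ∈ Finset.range (j + 1), (j.choose i : ℝ) * Λ₁ * Λ₂ = 2 ^ j * Λ₁ * Λ₂ := by
    simp_rw [mul_assoc]
    rw [← Finset.sum_mul]
    congr 1
    exact_mod_cast Nat.sum_range_choose j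
  have h4 : (2 : ℝ) ^ j ≤ 2 ^ k := pow_le_pow_right₀ one_le_two hj
  calc ‖L‖ * ∑ i ∈ Finset.range (j + 1), (j.choose i : ℝ) * ‖iteratedFDerivWithin ℝ i B U x‖ *
        ‖iteratedFDerivWithin ℝ (j - i) w U x‖ ≤ ‖L‖ * (2 ^ j * Λ₁ * Λ₂) := by
        rw [← h3]; exact mul_le_mul_of_nonneg_left h2 (norm_nonneg L)
    _ ≤ ‖L‖ * (2 ^ k * Λ₁ * Λ₂) := by
        refine mul_le_mul_of_nonneg_left ?_ (norm_nonneg L)
        exact mul_le_mul_of_nonneg_right (mul_le_mul_of_nonneg_right h4 hΛ₁) hΛ₂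
    _ = ‖L‖ * 2 ^ k * Λ₁ * Λ₂ := by ring

theorem CkLe.clm_apply (hU : IsOpen U) {T : E → F →L[ℝ] F'} (h₁ : CkLe U k T Λ₁) (h₂ : CkLe U k B Λ₂)
    (hΛ₁ : 0 ≤ Λ₁) (hΛ₂ : 0 ≤ Λ₂) : CkLe U k (fun x => T x (B x)) (2 ^ k * Λ₁ * Λ₂) := by
  have h := CkLe.bilin hU (ContinuousLinearMap.id ℝ (F →L[ℝ] F')) h₁ h₂ hΛ₁ hΛ₂
  refine h.mono ?_
  have h1 : ‖ContinuousLinearMap.id ℝ (F →L[ℝ] F')‖ ≤ 1 := ContinuousLinearMap.norm_id_le
  have h2 : (0 : ℝ) ≤ 2 ^ k * Λ₁ * Λ₂ := by positivity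
  calc ‖ContinuousLinearMap.id ℝ (F →L[ℝ] F')‖ * 2 ^ k * Λ₁ * Λ₂
      = ‖ContinuousLinearMap.id ℝ (F →L[ℝ] F')‖ * (2 ^ k * Λ₁ * Λ₂) := by ring
    _ ≤ 1 * (2 ^ k * Λ₁ * Λ₂) := mul_le_mul_of_nonneg_right h1 h2
    _ = _ := one_mul _

theorem CkLe.smul (hU : IsOpen U) {χ : E → ℝ} (h₁ : CkLe U k χ Λ₁) (h₂ : CkLe U k B Λ₂)
    (hΛ₁ : 0 ≤ Λ₁) (hΛ₂ : 0 ≤ Λ₂) : CkLe U k (fun x => χ x • B x) (2 ^ k * Λ₁ * Λ₂) := by
  have h := CkLe.bilin hU (ContinuousLinearMap.lsmul ℝ ℝ : ℝ →L[ℝ] F →L[ℝ] F) h₁ h₂ hΛ₁ hΛ₂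
  refine h.mono ?_
  have h1 : ‖(ContinuousLinearMap.lsmul ℝ ℝ : ℝ →L[ℝ] F →L[ℝ] F)‖ ≤ 1 := ContinuousLinearMap.opNorm_lsmul_le
  have h2 : (0 : ℝ) ≤ 2 ^ k * Λ₁ * Λ₂ := by positivity
  calc ‖(ContinuousLinearMap.lsmul ℝ ℝ : ℝ →L[ℝ] F →L[ℝ] F)‖ * 2 ^ k * Λ₁ * Λ₂
      = ‖(ContinuousLinearMap.lsmul ℝ ℝ : ℝ →L[ℝ] F →L[ℝ] F)‖ * (2 ^ k * Λ₁ * Λ₂) := by ring
    _ ≤ 1 * (2 ^ k * Λ₁ * Λ₂) := mul_le_mul_of_nonneg_right h1 h2
    _ = _ := one_mul _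

theorem CkLe.clm_comp (hU : IsOpen U) {T : E → F' →L[ℝ] F''} {S : E → F →L[ℝ] F'} (h₁ : CkLe U k T Λ₁)
    (h₂ : CkLe U k S Λ₂) (hΛ₁ : 0 ≤ Λ₁) (hΛ₂ : 0 ≤ Λ₂) :
    CkLe U k (fun x => (T x).comp (S x)) (2 ^ k * Λ₁ * Λ₂) := by
  have h := CkLe.bilin hU (ContinuousLinearMap.compL ℝ F F' F'') h₁ h₂ hΛ₁ hΛ₂
  refine h.mono ?_
  have h1 : ‖ContinuousLinearMap.compL ℝ F F' F''‖ ≤ 1 := ContinuousLinearMap.norm_compL_le ℝ F F' F''
  have h2 : (0 : ℝ) ≤ 2 ^ k * Λ₁ * Λ₂ := by positivity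
  calc ‖ContinuousLinearMap.compL ℝ F F' F''‖ * 2 ^ k * Λ₁ * Λ₂
      = ‖ContinuousLinearMap.compL ℝ F F' F''‖ * (2 ^ k * Λ₁ * Λ₂) := by ring
    _ ≤ 1 * (2 ^ k * Λ₁ * Λ₂) := mul_le_mul_of_nonneg_right h1 h2
    _ = _ := one_mul _

/-- smooth functions are bounded with their derivatives on compact subsets. -/
theorem exists_ckLe_of_isCompact (hU : IsOpen U) (hB : ContDiffOn ℝ ∞ B U) {K : Set E} (hK : IsCompact K)
    (hKU : K ⊆ U) (hV : V ⊆ K) (k : ℕ) : ∃ Λ : ℝ, 0 ≤ Λ ∧ CkLe V k B Λ := by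
  have hb : ∀ j : ℕ, ∃ C : ℝ, ∀ x ∈ K, ‖iteratedFDeriv ℝ j B x‖ ≤ C := by
    intro j
    have h1 : ContinuousOn (iteratedFDerivWithin ℝ j B U) U :=
      hB.continuousOn_iteratedFDerivWithin (by exact_mod_cast le_top) hU.uniqueDiffOn
    obtain ⟨C, hC⟩ := hK.exists_bound_of_continuousOn (h1.mono hKU)
    refine ⟨C, fun x hx => ?_⟩
    rw [← iteratedFDerivWithin_of_isOpen j hU (hKU hx)]
    exact hC x hx
  choose C hC using hb
  refine ⟨∑ j ∈ Finset.range (k + 1), |C j|, Finset.sum_nonneg fun _ _ => abs_nonneg _, ?_, ?_⟩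
  · exact (hB.of_le (by exact_mod_cast le_top)).mono (hV.trans hKU)
  · intro j hj x hx
    refine (hC j x (hV hx)).trans ((le_abs_self _).trans ?_)
    exact Finset.single_le_sum (f := fun j => |C j|) (fun _ _ => abs_nonneg _)
      (Finset.mem_range.2 (Nat.lt_succ_of_le hj))

theorem CkLe.translate (h : CkLe univ k B Λ) (a : E) : CkLe univ k (fun x => B (x + a)) Λ := by
  refine ⟨?_, fun j hj x _ => ?_⟩
  · have h1 : ContDiff ℝ k B := contDiffOn_univ.1 h.1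
    exact (h1.comp (contDiff_id.add contDiff_const)).contDiffOn
  · rw [iteratedFDeriv_comp_add_right]
    exact h.2 j hj (x + a) (mem_univ _)

/-- mean value inequality. -/
theorem CkLe.norm_sub_le (h : CkLe univ 1 B Λ) (x y : E) : ‖B x - B y‖ ≤ Λ * ‖x - y‖ := by
  have h1 : ContDiff ℝ 1 B := by exact_mod_cast contDiffOn_univ.1 h.1
  have h2 : Differentiable ℝ B := h1.differentiable (by norm_num)
  have h3 : ∀ z ∈ (univ : Set E), ‖fderiv ℝ B z‖ ≤ Λ := fun z hz => by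
    rw [← norm_iteratedFDeriv_one]
    exact h.2 1 le_rfl z hz
  exact convex_univ.norm_image_sub_le_of_norm_fderiv_le (fun z _ => h2 z) h3 (mem_univ y) (mem_univ x)

end Claimed.Agent.Lib.Sob
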