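import Claimed.Agent.Lib.Sob.Weak
import Claimed.Agent.Lib.Sob.Ck

/-!
# `Lib/Sob/Class`: classical solutions are weak solutions; adapter for inner product spaces (leaf SOB-Class)

All imported statements are black boxes.

PLAN
* `isWeakSol_of_classical'`: `dφ_x = ∑ i, (dφ_x (e i)) • e^i` (`e^i = toContinuousLinearMap (e.coord i)`; `Basis.sum_repr`), hence
  `du (A dφ) = ∑ i, (dφ (e i)) • X i`, `X i y = fderiv ℝ u y (A y e^i)`, which is `C¹` on `U`; `hasWeakDeriv_of_contDiffOn` for `X i` in the direction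
  `e i`: `∫ (dφ (e i)) • X i = - ∫ φ • ∂_{e i} X i`; sum over `i` (`integral_finset_sum`, integrability by `IsTest.integrable_smul`).
* `ofInner`: `gradient φ x = (toDual ℝ W).symm (fderiv ℝ φ x)` by definition; `ξ w = ⟪(toDual).symm ξ, w⟫` (`InnerProductSpace.toDual_symm_apply`);
  `‖(toDual).symm ξ‖ = ‖ξ‖` (`LinearIsometryEquiv.norm_map`); `ofInner A' = L ∘ A'` with the continuous linear map
  `L T = T.comp J`, `J` the isometry, `‖L‖ ≤ 1` (`ContinuousLinearMap.compL … |>.flip J`, `opNorm_comp_le`), `CkLe.clm`, `CkLe.mono`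
  (note `0 ≤ Lam` or `U = ∅`).
~300 lines.  Statements verbatim.
-/

set_option autoImplicit false
set_option maxSynthPendingDepth 6
set_option linter.unusedSectionVars false
set_option linter.unusedVariables false
open scoped ContDiff Topology
open MeasureTheory Set Filter Metric

namespace Claimed.Agent.Lib.Sob

section Classical

variable {E : Type*} [NormedAddCommGroup E] [NormedSpace ℝ E] [FiniteDimensional ℝ E]
  [MeasurableSpace E] [BorelSpace E]
variable {F : Type*} [NormedAddCommGroup F] [NormedSpace ℝ F] [FiniteDimensional ℝ F]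
variable {μ : Measure E} [μ.IsAddHaarMeasure]

/-- the statement `isWeakSol_of_classical` of `Api.lean`. -/
theorem isWeakSol_of_classical' {ι : Type*} [Fintype ι] (e : Module.Basis ι ℝ E) {U : Set E} (hU : IsOpen U)
    {A : E → (E →L[ℝ] ℝ) →L[ℝ] E} {u : E → F} {f : E → F} (hA : ContDiffOn ℝ 1 A U)
    (hu : ContDiffOn ℝ 2 u U) (hf : ContinuousOn f U)
    (h : ∀ x ∈ U, - ∑ i, fderiv ℝ (fun y => fderiv ℝ u y (A y (LinearMap.toContinuousLinearMap (e.coord i)))) x (e i)
      = f x) :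
    IsWeakSol μ U A (fderiv ℝ u) f 0 := by
  classical
  intro φ hφ
  set ec : ι → E →L[ℝ] ℝ := fun i => LinearMap.toContinuousLinearMap (e.coord i) with hec
  set X : ι → E → F := fun i y => fderiv ℝ u y (A y (ec i)) with hX
  have hexp : ∀ ξ : E →L[ℝ] ℝ, ξ = ∑ i, ξ (e i) • ec i := by
    intro ξ
    apply ContinuousLinearMap.coe_injective
    refine e.ext fun j => ?_
    simp only [ContinuousLinearMap.coe_coe, _root_.sum_apply, _root_.smul_apply, hec,
      LinearMap.coe_toContinuousLinearMap', Module.Basis.coord_apply, Module.Basis.repr_self, smul_eq_mul]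
    rw [Finset.sum_eq_single j]
    · simp
    · intro i _ hij
      rw [Finsupp.single_eq_of_ne hij, mul_zero]
    · intro h
      exact absurd (Finset.mem_univ j) h
  have hdu : ContDiffOn ℝ 1 (fderiv ℝ u) U := hu.fderiv_of_isOpen hU (by norm_num)
  have hXc : ∀ i, ContDiffOn ℝ 1 (X i) U := fun i => hdu.clm_apply (hA.clm_apply contDiffOn_const)
  have hw : ∀ i, HasWeakDeriv μ U (e i) (X i) (fun x => fderiv ℝ (X i) x (e i)) := fun i =>
    hasWeakDeriv_of_contDiffOn hU (hXc i) (e i)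
  have h1 : ∀ x, fderiv ℝ u x (A x (fderiv ℝ φ x)) = ∑ i, (fderiv ℝ φ x (e i)) • X i x := by
    intro x
    conv_lhs => rw [hexp (fderiv ℝ φ x)]
    simp only [map_sum, map_smul, hX]
  have h2 : ∀ x, φ x • f x = ∑ i, - (φ x • fderiv ℝ (X i) x (e i)) := by
    intro x
    by_cases hx : x ∈ U
    · rw [← h x hx, Finset.sum_neg_distrib, smul_neg, Finset.smul_sum]
    · rw [hφ.eq_zero_of_notMem hx]
      simp
  simp_rw [h1, h2]
  have hi2 : ∀ i ∈ (Finset.univ : Finset ι), Integrable (fun x => - (φ x • fderiv ℝ (X i) x (e i))) μ :=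
    fun i _ => (weak_integrable_smul hφ (hw i).2.1).neg
  rw [integral_finsetSum _ fun i _ => weak_integrable_fderiv_smul hφ (hw i).1 (e i),
    integral_finsetSum _ hi2]
  simp only [Pi.zero_apply, _root_.zero_apply, integral_zero, add_zero]
  refine Finset.sum_congr rfl fun i _ => ?_
  rw [(hw i).2.2 φ hφ, integral_neg]

end Classical

section Inner

variable {W : Type*} [NormedAddCommGroup W] [InnerProductSpace ℝ W] [FiniteDimensional ℝ W]

theorem ofInner_fderiv' (A' : W → W →L[ℝ] W) (φ : W → ℝ) (x : W) :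
    ofInner A' x (fderiv ℝ φ x) = A' x (gradient φ x) := rfl

theorem elliptic_ofInner' {U : Set W} {A' : W → W →L[ℝ] W} {lam : ℝ}
    (h : ∀ x ∈ U, ∀ w : W, lam * ‖w‖ ^ 2 ≤ inner ℝ (A' x w) w) : Elliptic U (ofInner A') lam := by
  intro x hx ξ
  set w : W := (InnerProductSpace.toDual ℝ W).symm ξ with hw
  have h1 : ofInner A' x ξ = A' x w := rfl
  have h2 : ξ (A' x w) = inner ℝ (A' x w) w := by
    rw [real_inner_comm, hw, InnerProductSpace.toDual_symm_apply]
  have h3 : ‖w‖ = ‖ξ‖ := LinearIsometryEquiv.norm_map _ _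
  rw [h1, h2, ← h3]
  exact h x hx w

theorem contDiffOn_ofInner' {U : Set W} {A' : W → W →L[ℝ] W} {n : WithTop ℕ∞} (h : ContDiffOn ℝ n A' U) :
    ContDiffOn ℝ n (ofInner A') U :=
  h.clm_comp contDiffOn_const

theorem ckLe_ofInner' {U : Set W} (hU : IsOpen U) {A' : W → W →L[ℝ] W} {k : ℕ} {Lam : ℝ}
    (h : CkLe U k A' Lam) : CkLe U k (ofInner A') Lam := by
  rcases U.eq_empty_or_nonempty with rfl | ⟨x₀, hx₀⟩
  · exact ⟨contDiffOn_empty, fun j _ x hx => absurd hx (notMem_empty x)⟩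
  set J : (W →L[ℝ] ℝ) →L[ℝ] W :=
    (InnerProductSpace.toDual ℝ W).symm.toContinuousLinearEquiv.toContinuousLinearMap with hJ
  set L : (W →L[ℝ] W) →L[ℝ] ((W →L[ℝ] ℝ) →L[ℝ] W) := (ContinuousLinearMap.compL ℝ (W →L[ℝ] ℝ) W W).flip J with hL
  have hJ1 : ‖J‖ ≤ 1 := by
    refine ContinuousLinearMap.opNorm_le_bound _ zero_le_one fun ξ => ?_
    rw [one_mul]
    exact (LinearIsometryEquiv.norm_map (InnerProductSpace.toDual ℝ W).symm ξ).le
  have hL1 : ‖L‖ ≤ 1 := by
    refine ContinuousLinearMap.opNorm_le_bound _ zero_le_one fun T => ?_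
    rw [one_mul]
    calc ‖L T‖ = ‖T.comp J‖ := rfl
      _ ≤ ‖T‖ * ‖J‖ := ContinuousLinearMap.opNorm_comp_le _ _
      _ ≤ ‖T‖ * 1 := mul_le_mul_of_nonneg_left hJ1 (norm_nonneg _)
      _ = ‖T‖ := mul_one _
  have hLam : 0 ≤ Lam := h.nonneg hx₀
  exact (h.clm hU L).mono (by nlinarith)

end Inner

end Claimed.Agent.Lib.Sob
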