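import Claimed.Agent.Lib.Sob.Weak

/-!
# `Lib/Sob/Lim`: `L²_loc` limits of smooth functions with convergent / Cauchy derivatives are `H¹_loc` (leaf SOB-Lim)

All imported statements are black boxes.

PLAN
* `hasWeakFDeriv_of_tendsto'`: for a direction `v` apply `hasWeakDeriv_of_tendsto` to `un n`, `gn n = fun x => fderiv ℝ (un n) x v`
  (`hasWeakDeriv_of_contDiffOn`); `‖(fderiv (un n) x - G x) v‖ ≤ ‖v‖ ‖fderiv (un n) x - G x‖` (`eLpNorm_le_mul_eLpNorm_of_ae_le_mul` or `L2Le.clm`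
  with `ContinuousLinearMap.apply ℝ F v`); `L2Loc` of continuous functions: `l2Loc_of_continuousOn`.
* `exists_hasWeakFDeriv_of_cauchy'`: exhaust `U` by compact sets `K j ⊆ interior (K (j+1))`, `⋃ K j = U`
  (`CompactExhaustion` of the locally compact σ-compact subtype, or explicitly
  `K j = closedBall 0 j ∩ {x | 1/(j+1) ≤ infDist x Uᶜ}`).  On each `K j` the sequence `fderiv ℝ (un n)` is Cauchy in `L²(K j)`: limit `G j`
  (`MeasureTheory.cauchy_complete_eLpNorm`, or completeness of `Lp` through `MemLp.toLp`, `cauchySeq_tendsto_of_complete`).  `G (j+1) = G j` a.e. on `K j`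
  (uniqueness of `L²` limits).  Define `G x := G (first j with x ∈ K j) x` (`Nat.find`), `0` off `U`; then `G = G j` a.e. on `K j`, every compact
  `K ⊆ U` lies in some `K j`.
~450 lines.  Statements verbatim.
-/

set_option autoImplicit false
set_option maxSynthPendingDepth 6
set_option linter.unusedSectionVars false
set_option linter.unusedVariables false
open scoped ContDiff Topology
open MeasureTheory Set Filter Metric

namespace Claimed.Agent.Lib.Sob

variable {E : Type*} [NormedAddCommGroup E] [NormedSpace ℝ E] [FiniteDimensional ℝ E]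
  [MeasurableSpace E] [BorelSpace E]
variable {F : Type*} [NormedAddCommGroup F] [NormedSpace ℝ F] [FiniteDimensional ℝ F]
variable {μ : Measure E} [μ.IsAddHaarMeasure]

/-- the statement `hasWeakFDeriv_of_tendsto` of `Api.lean`. -/
theorem hasWeakFDeriv_of_tendsto' {U : Set E} (hU : IsOpen U) {u : E → F} {G : E → E →L[ℝ] F}
    {un : ℕ → E → F} (hun : ∀ n, ContDiffOn ℝ 1 (un n) U) (hu : L2Loc μ U u) (hG : L2Loc μ U G)
    (h1 : ∀ K : Set E, IsCompact K → K ⊆ U →
      Tendsto (fun n => eLpNorm (fun x => un n x - u x) 2 (μ.restrict K)) atTop (𝓝 0))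
    (h2 : ∀ K : Set E, IsCompact K → K ⊆ U →
      Tendsto (fun n => eLpNorm (fun x => fderiv ℝ (un n) x - G x) 2 (μ.restrict K)) atTop (𝓝 0)) :
    HasWeakFDeriv μ U u G := by
  intro v
  have hc : ∀ n, ContinuousOn (fderiv ℝ (un n)) U := fun n => (hun n).continuousOn_fderiv_of_isOpen hU le_rfl
  refine hasWeakDeriv_of_tendsto hU (un := un) (gn := fun n x => fderiv ℝ (un n) x v)
    (fun n => hasWeakDeriv_of_contDiffOn hU (hun n) v) hu (hG.clm (ContinuousLinearMap.apply ℝ F v))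
    (fun n => l2Loc_of_continuousOn (hun n).continuousOn)
    (fun n => l2Loc_of_continuousOn ((hc n).clm_apply continuousOn_const)) h1 fun K hK hKU => ?_
  have h3 : Tendsto (fun n => ENNReal.ofReal ‖v‖ * eLpNorm (fun x => fderiv ℝ (un n) x - G x) 2 (μ.restrict K))
      atTop (𝓝 0) := by
    have := ENNReal.Tendsto.const_mul (a := ENNReal.ofReal ‖v‖) (h2 K hK hKU) (Or.inr ENNReal.ofReal_ne_top)
    rwa [mul_zero] at this
  refine tendsto_of_tendsto_of_tendsto_of_le_of_le tendsto_const_nhds h3 (fun _ => zero_le) fun n => ?_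
  refine eLpNorm_le_mul_eLpNorm_of_ae_le_mul (Eventually.of_forall fun x => ?_) 2
  show ‖fderiv ℝ (un n) x v - G x v‖ ≤ ‖v‖ * ‖fderiv ℝ (un n) x - G x‖
  rw [← _root_.sub_apply, mul_comm]
  exact ContinuousLinearMap.le_opNorm _ _

/-- exhaustion of an open set by compact sets. -/
theorem lim_exists_exhaustion {U : Set E} (hU : IsOpen U) :
    ∃ K : ℕ → Set E, (∀ j, IsCompact (K j)) ∧ (∀ j, K j ⊆ U) ∧ Monotone K ∧
      ∀ L : Set E, IsCompact L → L ⊆ U → ∃ j, L ⊆ K j := by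
  have := FiniteDimensional.proper_real E
  have : LocallyCompactSpace U := hU.locallyCompactSpace
  let K := CompactExhaustion.choice U
  refine ⟨fun j => Subtype.val '' K j, fun j => Subtype.isCompact_iff.1 (K.isCompact j), ?_, ?_, ?_⟩
  · rintro j _ ⟨x, _, rfl⟩
    exact x.2
  · intro i j hij
    exact image_mono (K.subset hij)
  · intro L hL hLU
    have hc : IsCompact (Subtype.val ⁻¹' L : Set U) := by
      rw [Subtype.isCompact_iff, Subtype.image_preimage_coe, inter_eq_self_of_subset_right hLU]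
      exact hL
    obtain ⟨j, hj⟩ := K.exists_superset_of_isCompact hc
    exact ⟨j, fun x hx => ⟨⟨x, hLU hx⟩, hj hx, rfl⟩⟩

/-- completeness of `L²`, in terms of `eLpNorm`. -/
theorem lim_exists_l2_limit {G' : Type*} [NormedAddCommGroup G'] [CompleteSpace G'] {ν : Measure E}
    {T : ℕ → E → G'} (hT : ∀ n, MemLp (T n) 2 ν)
    (hc : ∀ ε : ENNReal, 0 < ε → ∃ N : ℕ, ∀ n m : ℕ, N ≤ n → N ≤ m →
      eLpNorm (fun x => T n x - T m x) 2 ν ≤ ε) :
    ∃ G : E → G', MemLp G 2 ν ∧ Tendsto (fun n => eLpNorm (fun x => T n x - G x) 2 ν) atTop (𝓝 0) := by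
  have : Fact ((1 : ENNReal) ≤ 2) := ⟨by norm_num⟩
  have hcs : CauchySeq (fun n => (hT n).toLp (T n)) := by
    rw [Lp.cauchySeq_Lp_iff_cauchySeq_eLpNorm, ENNReal.tendsto_nhds_zero]
    intro ε hε
    obtain ⟨N, hN⟩ := hc ε hε
    filter_upwards [Filter.eventually_ge_atTop (N, N)] with p hp
    have e : eLpNorm (⇑((hT p.1).toLp (T p.1)) - ⇑((hT p.2).toLp (T p.2))) 2 ν
        = eLpNorm (fun x => T p.1 x - T p.2 x) 2 ν :=
      eLpNorm_congr_ae (((hT p.1).coeFn_toLp).sub ((hT p.2).coeFn_toLp))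
    rw [e]
    exact hN _ _ hp.1 hp.2
  obtain ⟨g, hg⟩ := cauchySeq_tendsto_of_complete hcs
  refine ⟨g, Lp.memLp g, ?_⟩
  rw [Lp.tendsto_Lp_iff_tendsto_eLpNorm'] at hg
  refine hg.congr fun n => eLpNorm_congr_ae ?_
  exact ((hT n).coeFn_toLp).sub (EventuallyEq.refl _ _)

/-- uniqueness of `L²` limits. -/
theorem lim_ae_eq_of_tendsto {G' : Type*} [NormedAddCommGroup G'] {ν : Measure E}
    {T : ℕ → E → G'} {G₁ G₂ : E → G'} (hT : ∀ n, AEStronglyMeasurable (T n) ν)
    (hm₁ : AEStronglyMeasurable G₁ ν) (hm₂ : AEStronglyMeasurable G₂ ν)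
    (h₁ : Tendsto (fun n => eLpNorm (fun x => T n x - G₁ x) 2 ν) atTop (𝓝 0))
    (h₂ : Tendsto (fun n => eLpNorm (fun x => T n x - G₂ x) 2 ν) atTop (𝓝 0)) : G₁ =ᵐ[ν] G₂ := by
  have h3 : ∀ n, eLpNorm (fun x => G₁ x - G₂ x) 2 ν
      ≤ eLpNorm (fun x => T n x - G₂ x) 2 ν + eLpNorm (fun x => T n x - G₁ x) 2 ν := by
    intro n
    have e : (fun x => G₁ x - G₂ x) = (fun x => T n x - G₂ x) - (fun x => T n x - G₁ x) := by
      funext x
      simp
    rw [e]
    exact eLpNorm_sub_le ((hT n).sub hm₂) ((hT n).sub hm₁) (by norm_num)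
  have h4 : eLpNorm (fun x => G₁ x - G₂ x) 2 ν ≤ 0 := by
    have := h₂.add h₁
    rw [add_zero] at this
    exact ge_of_tendsto' this h3
  have h5 : (fun x => G₁ x - G₂ x) =ᵐ[ν] 0 :=
    (eLpNorm_eq_zero_iff (hm₁.sub hm₂) (by norm_num)).1 (le_antisymm h4 zero_le)
  filter_upwards [h5] with x hx
  exact sub_eq_zero.1 hx

/-- the statement `exists_hasWeakFDeriv_of_cauchy` of `Api.lean`. -/
theorem exists_hasWeakFDeriv_of_cauchy' {U : Set E} (hU : IsOpen U) {u : E → F}
    {un : ℕ → E → F} (hun : ∀ n, ContDiffOn ℝ 1 (un n) U) (hu : L2Loc μ U u)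
    (h1 : ∀ K : Set E, IsCompact K → K ⊆ U →
      Tendsto (fun n => eLpNorm (fun x => un n x - u x) 2 (μ.restrict K)) atTop (𝓝 0))
    (h2 : ∀ K : Set E, IsCompact K → K ⊆ U → ∀ ε : ENNReal, 0 < ε → ∃ N : ℕ, ∀ n m : ℕ, N ≤ n → N ≤ m →
      eLpNorm (fun x => fderiv ℝ (un n) x - fderiv ℝ (un m) x) 2 (μ.restrict K) ≤ ε) :
    ∃ G : E → E →L[ℝ] F, HasWeakFDeriv μ U u G ∧ L2Loc μ U G ∧
      ∀ K : Set E, IsCompact K → K ⊆ U →
        Tendsto (fun n => eLpNorm (fun x => fderiv ℝ (un n) x - G x) 2 (μ.restrict K)) atTop (𝓝 0) := by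
  classical
  obtain ⟨K, hKc, hKU, hKm, hKex⟩ := lim_exists_exhaustion hU
  have hc : ∀ n, ContinuousOn (fderiv ℝ (un n)) U := fun n => (hun n).continuousOn_fderiv_of_isOpen hU le_rfl
  have hT : ∀ j n, MemLp (fderiv ℝ (un n)) 2 (μ.restrict (K j)) := fun j n =>
    l2Loc_of_continuousOn (hc n) (K j) (hKc j) (hKU j)
  have hex : ∀ j, ∃ G : E → E →L[ℝ] F, MemLp G 2 (μ.restrict (K j)) ∧
      Tendsto (fun n => eLpNorm (fun x => fderiv ℝ (un n) x - G x) 2 (μ.restrict (K j))) atTop (𝓝 0) :=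
    fun j => lim_exists_l2_limit (hT j) (h2 (K j) (hKc j) (hKU j))
  choose Gj hGm hGt using hex
  set G : E → E →L[ℝ] F := fun x => if h : ∃ j, x ∈ K j then Gj (Nat.find h) x else 0 with hG
  have hmono : ∀ {L L' : Set E} (hLL' : L ⊆ L') (w : E → E →L[ℝ] F),
      eLpNorm w 2 (μ.restrict L) ≤ eLpNorm w 2 (μ.restrict L') := fun hLL' w =>
    eLpNorm_mono_measure _ (Measure.restrict_mono hLL' le_rfl)
  have hij : ∀ i j, i ≤ j → ∀ᵐ x ∂μ, x ∈ K i → Gj i x = Gj j x := by
    intro i j hle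
    rw [← ae_restrict_iff' (hKc i).measurableSet]
    refine lim_ae_eq_of_tendsto (fun n => (hT i n).1) (hGm i).1
      ((hGm j).1.mono_measure (Measure.restrict_mono (hKm hle) le_rfl)) (hGt i) ?_
    exact tendsto_of_tendsto_of_tendsto_of_le_of_le tendsto_const_nhds (hGt j) (fun _ => zero_le)
      fun n => hmono (hKm hle) _
  have hGj : ∀ j, G =ᵐ[μ.restrict (K j)] Gj j := by
    intro j
    have h3 : ∀ᵐ x ∂μ, ∀ i, i ≤ j → x ∈ K i → Gj i x = Gj j x := by
      rw [ae_all_iff]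
      intro i
      by_cases hle : i ≤ j
      · filter_upwards [hij i j hle] with x hx _ using hx
      · exact Eventually.of_forall fun x h => absurd h hle
    show ∀ᵐ x ∂(μ.restrict (K j)), G x = Gj j x
    rw [ae_restrict_iff' (hKc j).measurableSet]
    filter_upwards [h3] with x hx hxj
    have hx' : ∃ j, x ∈ K j := ⟨j, hxj⟩
    rw [hG]
    simp only [dif_pos hx']
    exact hx _ (Nat.find_min' hx' hxj) (Nat.find_spec hx')
  have hL2 : L2Loc μ U G := by
    intro L hL hLU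
    obtain ⟨j, hj⟩ := hKex L hL hLU
    exact ((hGm j).ae_eq (hGj j).symm).mono_measure (Measure.restrict_mono hj le_rfl)
  have hlim : ∀ L : Set E, IsCompact L → L ⊆ U →
      Tendsto (fun n => eLpNorm (fun x => fderiv ℝ (un n) x - G x) 2 (μ.restrict L)) atTop (𝓝 0) := by
    intro L hL hLU
    obtain ⟨j, hj⟩ := hKex L hL hLU
    refine tendsto_of_tendsto_of_tendsto_of_le_of_le tendsto_const_nhds (hGt j) (fun _ => zero_le) fun n => ?_
    refine (hmono hj _).trans (le_of_eq (eLpNorm_congr_ae ?_))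
    filter_upwards [hGj j] with x hx
    rw [hx]
  exact ⟨G, hasWeakFDeriv_of_tendsto' hU hun hu hL2 h1 hlim, hL2, hlim⟩

end Claimed.Agent.Lib.Sob
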