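import Claimed.Agent.Lib.Sob.Final
import Claimed.Agent.Lib.Sob.Lim
import Claimed.Agent.Lib.Sob.Class

/-!
# `Lib/Sob`: the user interface (final statements)

Architect: helper195.  Consumers import THIS file only (and put `set_option maxSynthPendingDepth 6` at the top of their file).
The statements below are frozen; this file has no `sorry` of its own: every statement is the primed statement of one of the
leaf files `Lib/Sob/*.lean` (leaves `SOB-*`).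

Contents
* `hasWeakFDeriv_of_tendsto`, `exists_hasWeakFDeriv_of_cauchy`: `L²_loc` limits of smooth functions whose
  derivatives converge / are Cauchy in `L²_loc` are `H¹_loc`.
* `caccioppoli`: energy estimate under structure conditions (systems with scalar principal part).
* `interior_Hk`: `-div(A du) = f - div H`, `f ∈ H^k`, `H ∈ H^{k+1}` ⟹ `u ∈ H^{k+2}` on smaller balls.
* `interior_Hk_lower`: the same with smooth lower order terms, in terms of `‖u‖_{L²}` only.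
* `embedding_univ`, `embedding_ball`, `exists_smooth_rep`: Sobolev embedding `H^{j+N} ⊂ C^j`, `N = dim E + 1`.
* `smooth_of_weakSol`: weak solutions of smooth elliptic systems with scalar principal part are smooth.
* `interior_Ck`, `interior_Ck_of_continuousOn`: `‖u‖_{C^k(B_r)} ≤ C (‖u‖_{L²(B_R)} + ‖f‖_{C^K(B_R)} + ‖H‖_{C^K(B_R)})`,
  `C, K` depending only on `k, r, R`, the ellipticity constant and the `C^K` bounds of the coefficients.
* `isWeakSol_of_classical`: classical solutions are weak solutions.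
* `ofInner`: adapter for inner product spaces (`A' : W → W →L[ℝ] W` acting on gradients).
-/

set_option autoImplicit false
set_option maxSynthPendingDepth 6
open scoped ContDiff Topology
open MeasureTheory Set Filter Metric

namespace Claimed.Agent.Lib.Sob

variable {E : Type*} [NormedAddCommGroup E] [NormedSpace ℝ E] [FiniteDimensional ℝ E]
  [MeasurableSpace E] [BorelSpace E]
variable {F : Type*} [NormedAddCommGroup F] [NormedSpace ℝ F] [FiniteDimensional ℝ F]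
variable (μ : Measure E) [μ.IsAddHaarMeasure]

/-! ### H¹ as limits of smooth functions -/

theorem hasWeakFDeriv_of_tendsto {U : Set E} (hU : IsOpen U) {u : E → F} {G : E → E →L[ℝ] F}
    {un : ℕ → E → F} (hun : ∀ n, ContDiffOn ℝ 1 (un n) U) (hu : L2Loc μ U u) (hG : L2Loc μ U G)
    (h1 : ∀ K : Set E, IsCompact K → K ⊆ U →
      Tendsto (fun n => eLpNorm (fun x => un n x - u x) 2 (μ.restrict K)) atTop (𝓝 0))
    (h2 : ∀ K : Set E, IsCompact K → K ⊆ U →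
      Tendsto (fun n => eLpNorm (fun x => fderiv ℝ (un n) x - G x) 2 (μ.restrict K)) atTop (𝓝 0)) :
    HasWeakFDeriv μ U u G :=
  hasWeakFDeriv_of_tendsto' hU hun hu hG h1 h2

theorem exists_hasWeakFDeriv_of_cauchy {U : Set E} (hU : IsOpen U) {u : E → F}
    {un : ℕ → E → F} (hun : ∀ n, ContDiffOn ℝ 1 (un n) U) (hu : L2Loc μ U u)
    (h1 : ∀ K : Set E, IsCompact K → K ⊆ U →
      Tendsto (fun n => eLpNorm (fun x => un n x - u x) 2 (μ.restrict K)) atTop (𝓝 0))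
    (h2 : ∀ K : Set E, IsCompact K → K ⊆ U → ∀ ε : ENNReal, 0 < ε → ∃ N : ℕ, ∀ n m : ℕ, N ≤ n → N ≤ m →
      eLpNorm (fun x => fderiv ℝ (un n) x - fderiv ℝ (un m) x) 2 (μ.restrict K) ≤ ε) :
    ∃ G : E → E →L[ℝ] F, HasWeakFDeriv μ U u G ∧ L2Loc μ U G ∧
      ∀ K : Set E, IsCompact K → K ⊆ U →
        Tendsto (fun n => eLpNorm (fun x => fderiv ℝ (un n) x - G x) 2 (μ.restrict K)) atTop (𝓝 0) :=
  exists_hasWeakFDeriv_of_cauchy' hU hun hu h1 h2

/-! ### Energy estimate -/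

theorem caccioppoli (F : Type*) [NormedAddCommGroup F] [NormedSpace ℝ F] [FiniteDimensional ℝ F]
    (x₀ : E) {r R lam Lam κ : ℝ} (hr : 0 < r) (hrR : r < R) (hlam : 0 < lam) :
    ∃ C : ℝ, 0 ≤ C ∧ ∀ (A : E → (E →L[ℝ] ℝ) →L[ℝ] E) (u : E → F) (G : E → E →L[ℝ] F) (f : E → F)
      (H : E → (E →L[ℝ] ℝ) →L[ℝ] F) (ψ : E → ℝ) (M : ℝ), 0 ≤ M →
      ContinuousOn A (ball x₀ R) → (∀ x ∈ ball x₀ R, ‖A x‖ ≤ Lam) → Elliptic (ball x₀ R) A lam →
      HasWeakFDeriv μ (ball x₀ R) u G → L2Loc μ (ball x₀ R) G →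
      L2Le μ (ball x₀ R) u M → L2Le μ (ball x₀ R) ψ M →
      AEStronglyMeasurable f (μ.restrict (ball x₀ R)) → AEStronglyMeasurable H (μ.restrict (ball x₀ R)) →
      (∀ᵐ x ∂(μ.restrict (ball x₀ R)), ‖f x‖ ≤ κ * (‖G x‖ + ‖u x‖) + ψ x) →
      (∀ᵐ x ∂(μ.restrict (ball x₀ R)), ‖H x‖ ≤ κ * ‖u x‖ + ψ x) →
      IsWeakSol μ (ball x₀ R) A G f H →
      L2Le μ (ball x₀ r) G (C * M) :=
  caccioppoli' μ F x₀ hr hrR hlam

/-! ### Interior `H^k` regularity -/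

theorem interior_Hk (F : Type*) [NormedAddCommGroup F] [NormedSpace ℝ F] [FiniteDimensional ℝ F]
    (k : ℕ) (x₀ : E) {r R lam Lam : ℝ} (hr : 0 < r) (hrR : r < R) (hlam : 0 < lam) :
    ∃ C : ℝ, 0 ≤ C ∧ ∀ (A : E → (E →L[ℝ] ℝ) →L[ℝ] E) (u : E → F) (G : E → E →L[ℝ] F) (f : E → F)
      (H : E → (E →L[ℝ] ℝ) →L[ℝ] F) (M : ℝ), 0 ≤ M →
      ContDiffOn ℝ ∞ A (ball x₀ R) → CkLe (ball x₀ R) (k + 1) A Lam → Elliptic (ball x₀ R) A lam →
      HasWeakFDeriv μ (ball x₀ R) u G → L2Le μ (ball x₀ R) u M → L2Le μ (ball x₀ R) G M →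
      HkLe μ (ball x₀ R) k f M → HkLe μ (ball x₀ R) (k + 1) H M →
      IsWeakSol μ (ball x₀ R) A G f H →
      HkLe μ (ball x₀ r) (k + 2) u (C * M) :=
  interior_Hk' μ F k x₀ hr hrR hlam

theorem interior_Hk_lower (F : Type*) [NormedAddCommGroup F] [NormedSpace ℝ F] [FiniteDimensional ℝ F]
    (k : ℕ) (x₀ : E) {r R lam Lam : ℝ} (hr : 0 < r) (hrR : r < R) (hlam : 0 < lam) :
    ∃ C : ℝ, 0 ≤ C ∧ ∀ (A : E → (E →L[ℝ] ℝ) →L[ℝ] E) (b : E → (E →L[ℝ] F) →L[ℝ] F) (c : E → F →L[ℝ] F)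
      (d : E → F →L[ℝ] ((E →L[ℝ] ℝ) →L[ℝ] F)) (u : E → F) (G : E → E →L[ℝ] F) (f : E → F)
      (H : E → (E →L[ℝ] ℝ) →L[ℝ] F) (M : ℝ), 0 ≤ M →
      ContDiffOn ℝ ∞ A (ball x₀ R) → ContDiffOn ℝ ∞ b (ball x₀ R) → ContDiffOn ℝ ∞ c (ball x₀ R) →
      ContDiffOn ℝ ∞ d (ball x₀ R) →
      CkLe (ball x₀ R) (k + 1) A Lam → CkLe (ball x₀ R) k b Lam → CkLe (ball x₀ R) k c Lam →
      CkLe (ball x₀ R) (k + 1) d Lam → Elliptic (ball x₀ R) A lam →
      HasWeakFDeriv μ (ball x₀ R) u G → L2Loc μ (ball x₀ R) G → L2Le μ (ball x₀ R) u M →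
      HkLe μ (ball x₀ R) k f M → HkLe μ (ball x₀ R) (k + 1) H M →
      IsWeakSol μ (ball x₀ R) A G (fun x => f x + b x (G x) + c x (u x)) (fun x => H x + d x (u x)) →
      HkLe μ (ball x₀ r) (k + 2) u (C * M) :=
  interior_Hk_lower' μ F k x₀ hr hrR hlam

/-! ### Sobolev embedding -/

theorem embedding_univ (F : Type*) [NormedAddCommGroup F] [NormedSpace ℝ F] [FiniteDimensional ℝ F]
    (j : ℕ) :
    ∃ C : ℝ, 0 ≤ C ∧ ∀ (u : E → F) (M : ℝ), 0 ≤ M → HkLe μ univ (j + sobN E) u M →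
      ∃ v : E → F, (∀ᵐ x ∂μ, u x = v x) ∧ CkLe univ j v (C * M) :=
  embedding_univ' μ F j

theorem embedding_ball (F : Type*) [NormedAddCommGroup F] [NormedSpace ℝ F] [FiniteDimensional ℝ F]
    (j : ℕ) (x₀ : E) {r R : ℝ} (hr : 0 < r) (hrR : r < R) :
    ∃ C : ℝ, 0 ≤ C ∧ ∀ (u : E → F) (M : ℝ), 0 ≤ M → HkLe μ (ball x₀ R) (j + sobN E) u M →
      ∃ v : E → F, (∀ᵐ x ∂(μ.restrict (ball x₀ r)), u x = v x) ∧ CkLe (ball x₀ r) j v (C * M) :=
  embedding_ball' μ F j x₀ hr hrR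

theorem exists_smooth_rep {U : Set E} (hU : IsOpen U) {u : E → F} (hu : ∀ k : ℕ, HkLoc μ U k u) :
    ∃ v : E → F, ContDiffOn ℝ ∞ v U ∧ ∀ᵐ x ∂(μ.restrict U), u x = v x :=
  exists_smooth_rep' hU hu

/-! ### Regularity of weak solutions -/

/-- **Interior regularity**: an `H¹_loc` weak solution of a linear system with smooth coefficients and scalar
elliptic principal part is smooth. -/
theorem smooth_of_weakSol {U : Set E} (hU : IsOpen U) {A : E → (E →L[ℝ] ℝ) →L[ℝ] E}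
    {b : E → (E →L[ℝ] F) →L[ℝ] F} {c : E → F →L[ℝ] F} {d : E → F →L[ℝ] ((E →L[ℝ] ℝ) →L[ℝ] F)}
    {u : E → F} {G : E → E →L[ℝ] F} {f : E → F} {H : E → (E →L[ℝ] ℝ) →L[ℝ] F}
    (hA : ContDiffOn ℝ ∞ A U) (hb : ContDiffOn ℝ ∞ b U) (hc : ContDiffOn ℝ ∞ c U) (hd : ContDiffOn ℝ ∞ d U)
    (hf : ContDiffOn ℝ ∞ f U) (hH : ContDiffOn ℝ ∞ H U)
    (hell : ∀ x ∈ U, ∀ ξ : E →L[ℝ] ℝ, ξ ≠ 0 → 0 < ξ (A x ξ))
    (hG : HasWeakFDeriv μ U u G) (hu2 : L2Loc μ U u) (hG2 : L2Loc μ U G)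
    (hsol : IsWeakSol μ U A G (fun x => f x + b x (G x) + c x (u x)) (fun x => H x + d x (u x))) :
    ∃ v : E → F, ContDiffOn ℝ ∞ v U ∧ ∀ᵐ x ∂(μ.restrict U), u x = v x :=
  smooth_of_weakSol' hU hA hb hc hd hf hH hell hG hu2 hG2 hsol

/-- **Interior `C^k` estimate** with constants depending only on the bounds. -/
theorem interior_Ck (F : Type*) [NormedAddCommGroup F] [NormedSpace ℝ F] [FiniteDimensional ℝ F]
    (k : ℕ) (x₀ : E) {r R lam Lam : ℝ} (hr : 0 < r) (hrR : r < R) (hlam : 0 < lam) :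
    ∃ (K : ℕ) (C : ℝ), 0 ≤ C ∧ ∀ (A : E → (E →L[ℝ] ℝ) →L[ℝ] E) (b : E → (E →L[ℝ] F) →L[ℝ] F)
      (c : E → F →L[ℝ] F) (d : E → F →L[ℝ] ((E →L[ℝ] ℝ) →L[ℝ] F)) (u : E → F) (G : E → E →L[ℝ] F)
      (f : E → F) (H : E → (E →L[ℝ] ℝ) →L[ℝ] F) (M : ℝ), 0 ≤ M →
      ContDiffOn ℝ ∞ A (ball x₀ R) → ContDiffOn ℝ ∞ b (ball x₀ R) → ContDiffOn ℝ ∞ c (ball x₀ R) →
      ContDiffOn ℝ ∞ d (ball x₀ R) → ContDiffOn ℝ ∞ f (ball x₀ R) → ContDiffOn ℝ ∞ H (ball x₀ R) →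
      CkLe (ball x₀ R) K A Lam → CkLe (ball x₀ R) K b Lam → CkLe (ball x₀ R) K c Lam →
      CkLe (ball x₀ R) K d Lam → Elliptic (ball x₀ R) A lam →
      CkLe (ball x₀ R) K f M → CkLe (ball x₀ R) K H M →
      HasWeakFDeriv μ (ball x₀ R) u G → L2Loc μ (ball x₀ R) G → L2Le μ (ball x₀ R) u M →
      IsWeakSol μ (ball x₀ R) A G (fun x => f x + b x (G x) + c x (u x)) (fun x => H x + d x (u x)) →
      ∃ v : E → F, ContDiffOn ℝ ∞ v (ball x₀ R) ∧ (∀ᵐ x ∂(μ.restrict (ball x₀ R)), u x = v x) ∧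
        CkLe (ball x₀ r) k v (C * M) :=
  interior_Ck' μ F k x₀ hr hrR hlam

/-- two functions which are continuous on an open set and agree a.e. there agree there
(to identify a continuous solution with its smooth representative). -/
theorem eqOn_of_ae_eq {U : Set E} (hU : IsOpen U) {u v : E → F} (hu : ContinuousOn u U)
    (hv : ContinuousOn v U) (h : ∀ᵐ x ∂(μ.restrict U), u x = v x) : EqOn u v U :=
  eqOn_of_ae_eq' (μ := μ) hU hu hv h

/-! ### Classical solutions -/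

/-- a `C¹` function has its classical derivative as weak derivative. -/
theorem hasWeakFDeriv_of_contDiffOn {U : Set E} (hU : IsOpen U) {u : E → F} (hu : ContDiffOn ℝ 1 u U) :
    HasWeakFDeriv μ U u (fderiv ℝ u) :=
  hasWeakFDeriv_of_contDiffOn' hU hu

/-- classical solutions of `- Σ_i ∂_i (du (A e^i)) = f` (any basis `e_i`, dual basis `e^i`) are weak solutions. -/
theorem isWeakSol_of_classical {ι : Type*} [Fintype ι] (e : Module.Basis ι ℝ E) {U : Set E} (hU : IsOpen U)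
    {A : E → (E →L[ℝ] ℝ) →L[ℝ] E} {u : E → F} {f : E → F} (hA : ContDiffOn ℝ 1 A U)
    (hu : ContDiffOn ℝ 2 u U) (hf : ContinuousOn f U)
    (h : ∀ x ∈ U, - ∑ i, fderiv ℝ (fun y => fderiv ℝ u y (A y (LinearMap.toContinuousLinearMap (e.coord i)))) x (e i)
      = f x) :
    IsWeakSol μ U A (fderiv ℝ u) f 0 :=
  isWeakSol_of_classical' e hU hA hu hf h

/-! ### Adapter for inner product spaces -/

section Inner

variable {W : Type*} [NormedAddCommGroup W] [InnerProductSpace ℝ W] [FiniteDimensional ℝ W]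

theorem ofInner_fderiv (A' : W → W →L[ℝ] W) (φ : W → ℝ) (x : W) :
    ofInner A' x (fderiv ℝ φ x) = A' x (gradient φ x) :=
  ofInner_fderiv' A' φ x

theorem elliptic_ofInner {U : Set W} {A' : W → W →L[ℝ] W} {lam : ℝ}
    (h : ∀ x ∈ U, ∀ w : W, lam * ‖w‖ ^ 2 ≤ inner ℝ (A' x w) w) : Elliptic U (ofInner A') lam :=
  elliptic_ofInner' h

theorem contDiffOn_ofInner {U : Set W} {A' : W → W →L[ℝ] W} {n : WithTop ℕ∞} (h : ContDiffOn ℝ n A' U) :
    ContDiffOn ℝ n (ofInner A') U :=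
  contDiffOn_ofInner' h

theorem ckLe_ofInner {U : Set W} (hU : IsOpen U) {A' : W → W →L[ℝ] W} {k : ℕ} {Lam : ℝ}
    (h : CkLe U k A' Lam) : CkLe U k (ofInner A') Lam :=
  ckLe_ofInner' hU h

end Inner

end Claimed.Agent.Lib.Sob
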