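import Claimed.Agent.Lib.Sob.Hk

/-!
# `Lib/Sob/Sol`: formal manipulations of the weak equation (leaf SOB-Sol)

`IsWeakSol μ U A G f H`: `∫ G (A dφ) = ∫ φ • f + ∫ H (dφ)` for all tests `φ` on `U`.
All statements of `L2, Test, Weak, Ck, Hk` are black boxes.

PLAN
* `mono`, `congr_coeff`, `congr_ae`, `clm`, `of_div`: direct.  (For `congr_coeff`: `fderiv ℝ φ x = 0` off `tsupport φ ⊆ U`, so the
  integrands agree everywhere.  For `clm`: `ContinuousLinearMap.integral_comp_comm`, integrability from the `L2Loc`/local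
  integrability hypotheses and `IsTestV.integrable_apply_clm`.)
* `cutoff`: for a test `φ` on `univ`, `χ φ` is a test on `U`, `d(χφ) = χ dφ + φ dχ`, hence
  `(dχ ⊗ u + χ G)(A dφ) = (dχ (A dφ)) • u + G (A d(χφ)) - φ • G (A dχ)`; integrate and use the equation for `χ φ`.
* `deriv` (differentiated equation): for a test `φ` put `ψ = ∂_v φ` (`IsTest.fderiv_apply`), `X x = A x (dφ x)`
  (`IsTestV.clm_apply_of_contDiffOn` applied to `IsTest.isTestV_fderiv`).  Symmetry of the second derivative: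
  `fderiv ℝ ψ x = fderiv ℝ (fderiv ℝ φ) x v`.  On `U`: `fderiv ℝ X x v = (fderiv ℝ A x v) (dφ x) + A x (fderiv ℝ ψ x)`.
  `HasWeakDeriv.test_apply` for `(G, G', X)` and for `(H, H', dφ)`:
  `∫ G (∂_v X) = - ∫ G' X`, `∫ H (dψ) = - ∫ H' (dφ)`.  The equation for `ψ` then reads
  `- ∫ G' (A dφ) - ∫ G ((∂_v A) dφ) = ∫ (dφ v) • f - ∫ H' (dφ)`.
~500 lines.  Statements verbatim.
-/

set_option autoImplicit false
set_option maxSynthPendingDepth 6
open scoped ContDiff Topology
open MeasureTheory Set Filter Metric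

namespace Claimed.Agent.Lib.Sob

variable {E : Type*} [NormedAddCommGroup E] [NormedSpace ℝ E] [FiniteDimensional ℝ E]
  [MeasurableSpace E] [BorelSpace E]
variable {F : Type*} [NormedAddCommGroup F] [NormedSpace ℝ F] [FiniteDimensional ℝ F]
variable {F' : Type*} [NormedAddCommGroup F'] [NormedSpace ℝ F'] [FiniteDimensional ℝ F']
variable {μ : Measure E} [μ.IsAddHaarMeasure]
variable {U V : Set E} {A A' : E → (E →L[ℝ] ℝ) →L[ℝ] E} {u : E → F} {G G' : E → E →L[ℝ] F} {f f' : E → F}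
  {H H' : E → (E →L[ℝ] ℝ) →L[ℝ] F}

theorem evSmul_apply (v : E) (y : F) (ξ : E →L[ℝ] ℝ) : evSmul v y ξ = ξ v • y := by
  rfl

/-- `y ↦ evSmul v y` as a continuous linear map. -/
noncomputable def solEvL (F : Type*) [NormedAddCommGroup F] [NormedSpace ℝ F] (v : E) :
    F →L[ℝ] (E →L[ℝ] ℝ) →L[ℝ] F :=
  ContinuousLinearMap.smulRightL ℝ (E →L[ℝ] ℝ) F (ContinuousLinearMap.apply ℝ ℝ v)

theorem solEvL_apply (v : E) (y : F) : solEvL F v y = evSmul v y := rfl

theorem norm_solEvL_le (v : E) : ‖solEvL F v‖ ≤ ‖v‖ := by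
  refine ContinuousLinearMap.opNorm_le_bound _ (norm_nonneg _) fun y => ?_
  refine ContinuousLinearMap.opNorm_le_bound _ (by positivity) fun ξ => ?_
  rw [solEvL_apply, evSmul_apply, norm_smul]
  calc ‖ξ v‖ * ‖y‖ ≤ (‖ξ‖ * ‖v‖) * ‖y‖ := mul_le_mul_of_nonneg_right (ξ.le_opNorm v) (norm_nonneg _)
    _ = ‖v‖ * ‖y‖ * ‖ξ‖ := by ring

theorem hkLe_evSmul {k : ℕ} {C : ℝ} {v : E} (hv : ‖v‖ ≤ 1) (hC : 0 ≤ C) (h : HkLe μ U k f C) :
    HkLe μ U k (fun x => evSmul v (f x)) C := by
  have h1 := h.clm (solEvL F v)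
  refine h1.mono ?_
  exact mul_le_of_le_one_left hC ((norm_solEvL_le v).trans hv)

theorem IsWeakSol.mono (h : IsWeakSol μ U A G f H) (hV : V ⊆ U) : IsWeakSol μ V A G f H := by
  exact fun φ hφ => h φ (hφ.mono hV)

theorem IsWeakSol.congr_coeff (h : IsWeakSol μ U A G f H) (hA : ∀ x ∈ U, A' x = A x) :
    IsWeakSol μ U A' G f H := by
  intro φ hφ
  rw [← h φ hφ]
  refine integral_congr_ae (Eventually.of_forall fun x => ?_)
  by_cases hx : x ∈ U
  · simp only [hA x hx]
  · simp only [hφ.isTestV_fderiv.eq_zero_of_notMem hx, map_zero]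

theorem IsWeakSol.congr_ae (hU : IsOpen U) (h : IsWeakSol μ U A G f H)
    (hG : ∀ᵐ x ∂(μ.restrict U), G x = G' x) (hf : ∀ᵐ x ∂(μ.restrict U), f x = f' x)
    (hH : ∀ᵐ x ∂(μ.restrict U), H x = H' x) : IsWeakSol μ U A G' f' H' := by
  intro φ hφ
  rw [ae_restrict_iff' hU.measurableSet] at hG hf hH
  have e1 : ∫ x, G' x (A x (fderiv ℝ φ x)) ∂μ = ∫ x, G x (A x (fderiv ℝ φ x)) ∂μ := by
    refine integral_congr_ae ?_
    filter_upwards [hG] with x hx
    by_cases hxU : x ∈ U
    · rw [hx hxU]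
    · simp only [hφ.isTestV_fderiv.eq_zero_of_notMem hxU, map_zero]
  have e2 : ∫ x, φ x • f' x ∂μ = ∫ x, φ x • f x ∂μ := by
    refine integral_congr_ae ?_
    filter_upwards [hf] with x hx
    by_cases hxU : x ∈ U
    · rw [hx hxU]
    · simp only [hφ.eq_zero_of_notMem hxU, zero_smul]
  have e3 : ∫ x, H' x (fderiv ℝ φ x) ∂μ = ∫ x, H x (fderiv ℝ φ x) ∂μ := by
    refine integral_congr_ae ?_
    filter_upwards [hH] with x hx
    by_cases hxU : x ∈ U
    · rw [hx hxU]
    · simp only [hφ.isTestV_fderiv.eq_zero_of_notMem hxU, map_zero]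
  rw [e1, e2, e3]
  exact h φ hφ

/-- `G ∘ A` is locally integrable. -/
theorem sol_locInt_comp (hU : IsOpen U) (hA : ContinuousOn A U) (hG : LocallyIntegrableOn G U μ) :
    LocallyIntegrableOn (fun x => (G x).comp (A x)) U μ := by
  have hB : ContinuousOn (fun x => (ContinuousLinearMap.compL ℝ (E →L[ℝ] ℝ) E F).flip (A x)) U :=
    (ContinuousLinearMap.compL ℝ (E →L[ℝ] ℝ) E F).flip.continuous.comp_continuousOn hA
  exact weak_locInt_clm_apply hU hB hG

theorem sol_integrable (hU : IsOpen U) (hA : ContinuousOn A U) (hG : LocallyIntegrableOn G U μ)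
    {Ψ : E → E →L[ℝ] ℝ} (hΨ : IsTestV U Ψ) : Integrable (fun x => G x (A x (Ψ x))) μ :=
  hΨ.integrable_apply_clm hU (sol_locInt_comp hU hA hG)

/-- components of a system. -/
theorem IsWeakSol.clm (hU : IsOpen U) (hA : ContinuousOn A U) (hG : LocallyIntegrableOn G U μ)
    (hf : LocallyIntegrableOn f U μ) (hH : LocallyIntegrableOn H U μ) (h : IsWeakSol μ U A G f H)
    (L : F →L[ℝ] F') :
    IsWeakSol μ U A (fun x => L.comp (G x)) (fun x => L (f x)) (fun x => L.comp (H x)) := by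
  intro φ hφ
  have i1 := sol_integrable hU hA hG hφ.isTestV_fderiv
  have i2 := hφ.integrable_smul hU hf
  have i3 := hφ.isTestV_fderiv.integrable_apply_clm hU hH
  have key := congrArg L (h φ hφ)
  rw [map_add, ← L.integral_comp_comm i1, ← L.integral_comp_comm i2, ← L.integral_comp_comm i3] at key
  simpa only [ContinuousLinearMap.comp_apply, map_smul] using key

/-- a divergence term with an `L²` divergence is a right hand side. -/
theorem IsWeakSol.of_div (hU : IsOpen U) (hf : LocallyIntegrableOn f U μ) {h : E → F}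
    (hh : LocallyIntegrableOn h U μ) (hsol : IsWeakSol μ U A G f H)
    (hdiv : ∀ φ : E → ℝ, IsTest U φ → ∫ x, H x (fderiv ℝ φ x) ∂μ = - ∫ x, φ x • h x ∂μ) :
    IsWeakSol μ U A G (fun x => f x - h x) 0 := by
  intro φ hφ
  rw [hsol φ hφ, hdiv φ hφ]
  simp only [smul_sub, Pi.zero_apply, _root_.zero_apply, integral_zero, add_zero]
  rw [integral_sub (hφ.integrable_smul hU hf) (hφ.integrable_smul hU hh), sub_eq_add_neg]

/-- a continuous coefficient vanishing off a compact subset of `U` times a locally integrable function. -/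
theorem sol_integrable_of_compact (hU : IsOpen U) {K : Set E} (hK : IsCompact K) (hKU : K ⊆ U)
    {B : E → F →L[ℝ] F'} (hB : ContinuousOn B U) (hB0 : ∀ x ∉ K, B x = 0) (hu : LocallyIntegrableOn u U μ) :
    Integrable (fun x => B x (u x)) μ := by
  have h1 : IntegrableOn (fun x => B x (u x)) K μ :=
    (weak_locInt_clm_apply hU hB hu).integrableOn_compact_subset hKU hK
  refine (integrableOn_iff_integrable_of_support_subset fun x hx => ?_).1 h1
  by_contra hxK
  exact hx (by simp only [hB0 x hxK, _root_.zero_apply])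

/-- the equation satisfied by `χ u`. -/
theorem IsWeakSol.cutoff (hU : IsOpen U) (hA : ContinuousOn A U) (hu : HasWeakFDeriv μ U u G)
    (hf : LocallyIntegrableOn f U μ) (hsol : IsWeakSol μ U A G f 0) {χ : E → ℝ} (hχ : IsTest U χ) :
    IsWeakSol μ univ A (fun x => (fderiv ℝ χ x).smulRight (u x) + χ x • G x)
      (fun x => χ x • f x - G x (A x (fderiv ℝ χ x)))
      (fun x => ((fderiv ℝ χ x).comp (A x)).smulRight (u x)) := by
  intro φ hφ
  have hG : LocallyIntegrableOn G U μ := hu.locInt_fderiv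
  have hul : LocallyIntegrableOn u U μ := hu.locInt
  have hψ : IsTest U (fun x => χ x * φ x) := hχ.mul hφ.smooth
  have hdψ : ∀ x, fderiv ℝ (fun y => χ y * φ y) x = χ x • fderiv ℝ φ x + φ x • fderiv ℝ χ x := fun x =>
    fderiv_fun_mul ((hχ.smooth.differentiable (by simp)) x) ((hφ.smooth.differentiable (by simp)) x)
  have t1 : IsTestV U (fun x => χ x • fderiv ℝ φ x) :=
    hχ.smul_of_contDiffOn hU hφ.isTestV_fderiv.smooth.contDiffOn
  have t2 : IsTestV U (fun x => φ x • fderiv ℝ χ x) := hχ.isTestV_fderiv.smul hφ.smooth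
  have i2 := sol_integrable hU hA hG t1
  have i3 := sol_integrable hU hA hG t2
  have i4 := hψ.integrable_smul hU hf
  -- the term with `u`
  have hS : Integrable (fun x => ((fderiv ℝ χ x).comp (A x)).smulRight (u x)) μ := by
    have hB : ContinuousOn (fun x => ContinuousLinearMap.smulRightL ℝ (E →L[ℝ] ℝ) F ((fderiv ℝ χ x).comp (A x))) U :=
      (ContinuousLinearMap.smulRightL ℝ (E →L[ℝ] ℝ) F).continuous.comp_continuousOn
        (hχ.isTestV_fderiv.smooth.continuous.continuousOn.clm_comp hA)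
    refine sol_integrable_of_compact hU hχ.compact hχ.supp hB (fun x hx => ?_) hul
    have h0 : fderiv ℝ χ x = 0 := by
      by_contra hne
      exact hx (support_fderiv_subset ℝ hne)
    simp only [h0, ContinuousLinearMap.zero_comp, map_zero]
  have i1 : Integrable (fun x => (((fderiv ℝ χ x).comp (A x)).smulRight (u x)) (fderiv ℝ φ x)) μ :=
    hφ.isTestV_fderiv.integrable_apply_clm isOpen_univ (hS.locallyIntegrable.locallyIntegrableOn univ)
  have key := hsol _ hψ
  simp only [hdψ, map_add, map_smul, Pi.zero_apply, _root_.zero_apply, smul_zero, integral_zero, add_zero] at key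
  simp only [map_smul] at i2 i3
  rw [integral_add i2 i3] at key
  have e1 : ∫ x, ((fderiv ℝ χ x).smulRight (u x) + χ x • G x) (A x (fderiv ℝ φ x)) ∂μ
      = ∫ x, (((fderiv ℝ χ x).comp (A x)).smulRight (u x)) (fderiv ℝ φ x) ∂μ
        + ∫ x, χ x • G x (A x (fderiv ℝ φ x)) ∂μ := by
    rw [← integral_add i1 i2]
    rfl
  have e2 : ∫ x, φ x • (χ x • f x - G x (A x (fderiv ℝ χ x))) ∂μ
      = ∫ x, (χ x * φ x) • f x ∂μ - ∫ x, φ x • G x (A x (fderiv ℝ χ x)) ∂μ := by
    rw [← integral_sub i4 i3]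
    refine integral_congr_ae (Eventually.of_forall fun x => ?_)
    simp only [smul_sub, smul_smul, mul_comm]
  rw [e1, e2, ← key]
  simp only
  abel

/-- **the differentiated equation.** -/
theorem IsWeakSol.deriv (hU : IsOpen U) (hA : ContDiffOn ℝ ∞ A U) {v : E} (hG' : HasWeakDeriv μ U v G G')
    (hH' : HasWeakDeriv μ U v H H') (hf : LocallyIntegrableOn f U μ) (hsol : IsWeakSol μ U A G f H) :
    IsWeakSol μ U A G' (fun _ => 0)
      (fun x => H' x - (G x).comp (fderiv ℝ A x v) - evSmul v (f x)) := by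
  intro φ hφ
  have hψ : IsTest U (fun x => fderiv ℝ φ x v) := hφ.fderiv_apply v
  have hdφ : IsTestV U (fderiv ℝ φ) := hφ.isTestV_fderiv
  have hX : IsTestV U (fun x => A x (fderiv ℝ φ x)) := hdφ.clm_apply_of_contDiffOn hU hA
  have hd : ∀ x, DifferentiableAt ℝ (fderiv ℝ φ) x := fun x => (hdφ.smooth.differentiable (by simp)) x
  -- symmetry of the second derivative
  have hsym : ∀ x, fderiv ℝ (fun y => fderiv ℝ φ y v) x = fderiv ℝ (fderiv ℝ φ) x v := by
    intro x
    ext w
    have e1 : fderiv ℝ (fun y => fderiv ℝ φ y v) x w = fderiv ℝ (fderiv ℝ φ) x w v := by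
      rw [fderiv_clm_apply (hd x) (differentiableAt_const v)]
      simp
    rw [e1]
    exact (hφ.smooth.contDiffAt.isSymmSndFDerivAt (by
      rw [minSmoothness_of_isRCLikeNormedField]
      exact WithTop.coe_le_coe.2 le_top)) w v
  have hprod : ∀ x ∈ U, fderiv ℝ (fun y => A y (fderiv ℝ φ y)) x v
      = (fderiv ℝ A x v) (fderiv ℝ φ x) + A x (fderiv ℝ (fderiv ℝ φ) x v) := by
    intro x hx
    have hAd : DifferentiableAt ℝ A x := (hA.contDiffAt (hU.mem_nhds hx)).differentiableAt (by simp)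
    rw [fderiv_clm_apply hAd (hd x)]
    simp [add_comm]
  have hA' : ContDiffOn ℝ ∞ (fun x => fderiv ℝ A x v) U :=
    (hA.fderiv_of_isOpen hU (by simp)).clm_apply contDiffOn_const
  have hY : IsTestV U (fun x => (fderiv ℝ A x v) (fderiv ℝ φ x)) := hdφ.clm_apply_of_contDiffOn hU hA'
  have a1 : Integrable (fun x => G x ((fderiv ℝ A x v) (fderiv ℝ φ x))) μ :=
    hY.integrable_apply_clm hU hG'.locInt_left
  have a2 : Integrable (fun x => G x (A x (fderiv ℝ (fun y => fderiv ℝ φ y v) x))) μ :=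
    sol_integrable hU hA.continuousOn hG'.locInt_left hψ.isTestV_fderiv
  have a3 : Integrable (fun x => H' x (fderiv ℝ φ x)) μ := hdφ.integrable_apply_clm hU hH'.locInt_right
  have a4 : Integrable (fun x => (fderiv ℝ φ x v) • f x) μ := hψ.integrable_smul hU hf
  have K1 := hG'.test_apply hU hX
  have K2 := hH'.test_apply hU hdφ
  have K3 := hsol _ hψ
  have e1 : ∫ x, G x (fderiv ℝ (fun y => A y (fderiv ℝ φ y)) x v) ∂μ
      = ∫ x, G x ((fderiv ℝ A x v) (fderiv ℝ φ x)) ∂μ
        + ∫ x, G x (A x (fderiv ℝ (fun y => fderiv ℝ φ y v) x)) ∂μ := by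
    rw [← integral_add a1 a2]
    refine integral_congr_ae (Eventually.of_forall fun x => ?_)
    by_cases hx : x ∈ U
    · simp only [hprod x hx, hsym, map_add]
    · simp only [(hX.fderiv_apply v).eq_zero_of_notMem hx, hdφ.eq_zero_of_notMem hx,
        hψ.isTestV_fderiv.eq_zero_of_notMem hx, map_zero, add_zero]
  have e2 : ∫ x, (H' x - (G x).comp (fderiv ℝ A x v) - evSmul v (f x)) (fderiv ℝ φ x) ∂μ
      = ∫ x, H' x (fderiv ℝ φ x) ∂μ - ∫ x, G x ((fderiv ℝ A x v) (fderiv ℝ φ x)) ∂μ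
        - ∫ x, (fderiv ℝ φ x v) • f x ∂μ := by
    have a5 : Integrable (fun x => H' x (fderiv ℝ φ x) - G x ((fderiv ℝ A x v) (fderiv ℝ φ x))) μ := a3.sub a1
    rw [← integral_sub a3 a1, ← integral_sub a5 a4]
    rfl
  simp only [hsym] at K3 e1
  simp only [smul_zero, integral_zero, zero_add]
  rw [e2]
  rw [e1, K3, K2] at K1
  have K4 := congrArg Neg.neg K1
  rw [neg_neg] at K4
  rw [← K4]
  abel

end Claimed.Agent.Lib.Sob
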