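import Claimed.Agent.Lib.Sob.Dens
import Claimed.Agent.Lib.Sob.Sol

/-!
# `Lib/Sob/Cacc`: Caccioppoli's inequality (leaf SOB-Cacc)

All statements of the imported files are black boxes.

PLAN
1. `cacc_identity` (scalar equation).  `χ² := fun x => χ x * χ x` is a test function on `U` (`IsTest.mul`),
   `d(χ²) = 2 χ dχ`; `w = χ² u` vanishes off `K = tsupport χ`, has the weak derivative `Gw = d(χ²) ⊗ u + χ² G` on `univ`
   (`HasWeakFDeriv.smul_test_univ`), `w, Gw ∈ L²` (they vanish off `K`, and `u, G ∈ L²(K)`).  `IsWeakSol.test_H1` and expansion.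
2. `cacc_scalar`: ellipticity `lam χ² ‖G‖² ≤ χ² G (A G)` and the POINTWISE Young inequalities
   `χ² ‖H‖ ‖G‖ ≤ lam/4 χ² ‖G‖² + ‖H‖² / lam`, `2 χ |u| Lam Λχ ‖G‖ ≤ lam/4 χ² ‖G‖² + 4 Lam² Λχ² |u|² / lam`,
   `2 χ |u| Λχ ‖H‖ ≤ Λχ² |u|² + ‖H‖²`; integrate over `K` (everything is integrable on `K`: products of `L²(K)` functions).
3. `caccioppoli'`.  BEFORE THE DATA: `χ` = `exists_cutoff_ball x₀ (r < R)`, `Λχ` its `C¹` bound, a basis `e α` of `F` with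
   coordinates `ℓ α`, `N = card`, `cℓ = ∑ ‖ℓ α‖`, `ce = ∑ ‖e α‖`.
   DATA: the components `u_α = ℓ α ∘ u`, `G_α = (ℓ α).comp G`, ... solve scalar equations (`IsWeakSol.clm`,
   `HasWeakFDeriv.clm`); `f, H ∈ L²_loc` by the structure conditions (`L2Le.of_norm_le`-type domination);
   sum `cacc_scalar` over `α`.  With `I = ∑_α ∫_K χ² ‖G_α‖²`: `‖G‖² ≤ ce² N ∑ ‖G_α‖²` pointwise, and a.e. on `K`
   `χ² |u_α| |f_α| ≤ cℓ² χ² ‖u‖ (κ' (‖G‖ + ‖u‖) + |ψ|) ≤ δ χ² ‖G‖² + C_δ (‖u‖² + ψ²)` (`κ' = |κ|`), with `δ` so small that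
   `N δ ce² N ≤ lam / 4`; `‖H_α‖² ≤ 2 cℓ² (κ'² ‖u‖² + ψ²)`.  Absorb: `lam/4 I ≤ C (∫_K ‖u‖² + ∫_K ψ²) ≤ 2 C M²`.
   On `B_r`: `χ = 1`, so `∫_{B_r} ‖G‖² ≤ ce² N I`; conclude with `l2Le_iff_integral`.
~700 lines; steps 1-2 and step 3 can be done by two provers.  Statements verbatim.
-/

set_option autoImplicit false
set_option maxSynthPendingDepth 6
open scoped ContDiff Topology
open MeasureTheory Set Filter Metric

namespace Claimed.Agent.Lib.Sob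

variable {E : Type*} [NormedAddCommGroup E] [NormedSpace ℝ E] [FiniteDimensional ℝ E]
  [MeasurableSpace E] [BorelSpace E]
variable {μ : Measure E} [μ.IsAddHaarMeasure]

/-- a continuous coefficient vanishing off the compact `K` applied to an `L²(K)` function is in `L²`. -/
theorem cacc_memLp_clm {F : Type*} [NormedAddCommGroup F] [NormedSpace ℝ F]
    {F' : Type*} [NormedAddCommGroup F'] [NormedSpace ℝ F'] {K : Set E} (hK : IsCompact K) {B : E → F →L[ℝ] F'} (hB : Continuous B)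
    (hB0 : ∀ x ∉ K, B x = 0) {u : E → F} (hu : MemLp u 2 (μ.restrict K)) :
    MemLp (fun x => B x (u x)) 2 μ := by
  obtain ⟨Λ, hΛ⟩ := hK.exists_bound_of_continuousOn hB.continuousOn
  have h1 : MemLp (fun x => B x (u x)) 2 (μ.restrict K) :=
    ((l2Le_l2n hu).clm_apply (Λ := |Λ|) (abs_nonneg _) hB.aestronglyMeasurable
      (ae_restrict_of_forall_mem hK.measurableSet fun x hx => (hΛ x hx).trans (le_abs_self _))).1
  have h2 := (memLp_indicator_iff_restrict hK.measurableSet).2 h1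
  have h3 : K.indicator (fun x => B x (u x)) = fun x => B x (u x) := by
    refine Set.indicator_eq_self.2 fun x hx => ?_
    by_contra hxK
    exact hx (by simp only [hB0 x hxK, _root_.zero_apply])
  rwa [h3] at h2

theorem cacc_int_GAZ {U K : Set E} (hK : IsCompact K) (hKU : K ⊆ U) {A : E → (E →L[ℝ] ℝ) →L[ℝ] E}
    (hA : ContinuousOn A U) {G : E → E →L[ℝ] ℝ} (hG2 : L2Loc μ U G) {Z : E → E →L[ℝ] ℝ}
    (hZ : MemLp Z 2 (μ.restrict K)) : IntegrableOn (fun x => G x (A x (Z x))) K μ := by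
  have h1 : MemLp (fun x => A x (Z x)) 2 (μ.restrict K) :=
    (memLp_l2Loc hZ).clm_apply (hA.mono hKU) K hK subset_rfl
  exact (l2Le_l2n (hG2 K hK hKU)).integrableOn_clm_apply (l2Le_l2n h1)

theorem cacc_int_HZ {U K : Set E} (hK : IsCompact K) (hKU : K ⊆ U)
    {H : E → (E →L[ℝ] ℝ) →L[ℝ] ℝ} (hH2 : L2Loc μ U H) {Z : E → E →L[ℝ] ℝ}
    (hZ : MemLp Z 2 (μ.restrict K)) : IntegrableOn (fun x => H x (Z x)) K μ :=
  (l2Le_l2n (hH2 K hK hKU)).integrableOn_clm_apply (l2Le_l2n hZ)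

theorem cacc_fderiv_sq {χ : E → ℝ} (hχ : ContDiff ℝ ∞ χ) (x : E) :
    fderiv ℝ (fun y => χ y * χ y) x = (2 * χ x) • fderiv ℝ χ x := by
  have hd : DifferentiableAt ℝ χ x := (hχ.differentiable (by simp)) x
  rw [fderiv_fun_mul hd hd, two_mul, add_smul]

theorem cacc_young {lam : ℝ} (hlam : 0 < lam) (p q : ℝ) : p * q ≤ lam / 4 * p ^ 2 + q ^ 2 / lam := by
  have h : lam / 4 * p ^ 2 + q ^ 2 / lam - p * q = (lam * p / 2 - q) ^ 2 / lam := by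
    field_simp
    ring
  have h2 : 0 ≤ (lam * p / 2 - q) ^ 2 / lam := by positivity
  linarith

theorem cacc_pointwise {lam c u f g h t1 t2 t3 L Λ : ℝ} (hlam : 0 < lam) (hc0 : 0 ≤ c) (hc1 : c ≤ 1)
    (h1 : |t1| ≤ h * g) (h2 : |t2| ≤ h * Λ) (h3 : |t3| ≤ g * (L * Λ)) :
    c ^ 2 * u * f + c ^ 2 * t1 + 2 * c * u * (t2 - t3)
      ≤ c ^ 2 * |u| * |f| + lam / 2 * (c ^ 2 * g ^ 2) + (1 / lam + 1) * h ^ 2
        + (4 * L ^ 2 * Λ ^ 2 / lam + Λ ^ 2) * |u| ^ 2 := by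
  have hc2 : c ^ 2 ≤ 1 := pow_le_one₀ hc0 hc1
  have hc20 : 0 ≤ c ^ 2 := sq_nonneg c
  have hu0 : 0 ≤ |u| := abs_nonneg u
  have s1 : c ^ 2 * u * f ≤ c ^ 2 * |u| * |f| := by
    have : u * f ≤ |u| * |f| := by rw [← abs_mul]; exact le_abs_self _
    calc c ^ 2 * u * f = c ^ 2 * (u * f) := by ring
      _ ≤ c ^ 2 * (|u| * |f|) := mul_le_mul_of_nonneg_left this hc20
      _ = _ := by ring
  have hch : (c * h) ^ 2 ≤ h ^ 2 := by
    rw [mul_pow]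
    exact mul_le_of_le_one_left (sq_nonneg h) hc2
  have s2 : c ^ 2 * t1 ≤ lam / 4 * (c ^ 2 * g ^ 2) + h ^ 2 / lam := by
    have a1 : c ^ 2 * t1 ≤ c ^ 2 * (h * g) := mul_le_mul_of_nonneg_left ((le_abs_self _).trans h1) hc20
    have a2 := cacc_young hlam (c * g) (c * h)
    have a3 : (c * h) ^ 2 / lam ≤ h ^ 2 / lam := div_le_div_of_nonneg_right hch hlam.le
    have a4 : c ^ 2 * (h * g) = c * g * (c * h) := by ring
    have a5 : (c * g) ^ 2 = c ^ 2 * g ^ 2 := by ring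
    rw [a5] at a2
    linarith
  have s3 : 2 * c * u * t2 ≤ Λ ^ 2 * |u| ^ 2 + h ^ 2 := by
    have a1 : 2 * c * u * t2 ≤ 2 * c * (|u| * (h * Λ)) := by
      have : u * t2 ≤ |u| * (h * Λ) := by
        calc u * t2 ≤ |u * t2| := le_abs_self _
          _ = |u| * |t2| := abs_mul _ _
          _ ≤ |u| * (h * Λ) := mul_le_mul_of_nonneg_left h2 hu0
      calc 2 * c * u * t2 = 2 * c * (u * t2) := by ring
        _ ≤ 2 * c * (|u| * (h * Λ)) := mul_le_mul_of_nonneg_left this (by positivity)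
    have a2 : 0 ≤ (Λ * |u| - c * h) ^ 2 := sq_nonneg _
    nlinarith
  have s4 : -(2 * c * u * t3) ≤ lam / 4 * (c ^ 2 * g ^ 2) + 4 * L ^ 2 * Λ ^ 2 / lam * |u| ^ 2 := by
    have a1 : -(2 * c * u * t3) ≤ 2 * c * (|u| * (g * (L * Λ))) := by
      have : -(u * t3) ≤ |u| * (g * (L * Λ)) := by
        calc -(u * t3) ≤ |u * t3| := neg_le_abs _
          _ = |u| * |t3| := abs_mul _ _
          _ ≤ |u| * (g * (L * Λ)) := mul_le_mul_of_nonneg_left h3 hu0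
      calc -(2 * c * u * t3) = 2 * c * (-(u * t3)) := by ring
        _ ≤ 2 * c * (|u| * (g * (L * Λ))) := mul_le_mul_of_nonneg_left this (by positivity)
    have a2 := cacc_young hlam (c * g) (2 * |u| * (L * Λ))
    have a3 : (2 * |u| * (L * Λ)) ^ 2 / lam = 4 * L ^ 2 * Λ ^ 2 / lam * |u| ^ 2 := by
      field_simp
      ring
    have a5 : (c * g) ^ 2 = c ^ 2 * g ^ 2 := by ring
    rw [a3, a5] at a2
    have a6 : 2 * c * (|u| * (g * (L * Λ))) = c * g * (2 * |u| * (L * Λ)) := by ring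
    linarith
  have e : (1 / lam + 1) * h ^ 2 = h ^ 2 / lam + h ^ 2 := by ring
  have e' : (4 * L ^ 2 * Λ ^ 2 / lam + Λ ^ 2) * |u| ^ 2 = 4 * L ^ 2 * Λ ^ 2 / lam * |u| ^ 2 + Λ ^ 2 * |u| ^ 2 := by
    ring
  have e'' : 2 * c * u * (t2 - t3) = 2 * c * u * t2 + -(2 * c * u * t3) := by ring
  rw [e, e', e'']
  linarith

theorem cacc_identity_aux {U : Set E} (hU : IsOpen U) {χ : E → ℝ} (hχ : IsTest U χ)
    {A : E → (E →L[ℝ] ℝ) →L[ℝ] E} (hA : ContinuousOn A U) {u : E → ℝ} {G : E → E →L[ℝ] ℝ} {f : E → ℝ}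
    {H : E → (E →L[ℝ] ℝ) →L[ℝ] ℝ} (hu : HasWeakFDeriv μ U u G) (hu2 : L2Loc μ U u) (hG2 : L2Loc μ U G)
    (hf2 : L2Loc μ U f) (hH2 : L2Loc μ U H) (hsol : IsWeakSol μ U A G f H) :
    IntegrableOn (fun x => (χ x) ^ 2 * G x (A x (G x))) (tsupport χ) μ ∧
    IntegrableOn (fun x => (χ x) ^ 2 * u x * f x + (χ x) ^ 2 * H x (G x)
        + 2 * χ x * u x * (H x (fderiv ℝ χ x) - G x (A x (fderiv ℝ χ x)))) (tsupport χ) μ ∧
    ∫ x in tsupport χ, (χ x) ^ 2 * G x (A x (G x)) ∂μ =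
      ∫ x in tsupport χ, ((χ x) ^ 2 * u x * f x + (χ x) ^ 2 * H x (G x)
        + 2 * χ x * u x * (H x (fderiv ℝ χ x) - G x (A x (fderiv ℝ χ x)))) ∂μ := by
  have hK : IsCompact (tsupport χ) := hχ.compact
  have hKU : tsupport χ ⊆ U := hχ.supp
  have hχ0 : ∀ x ∉ tsupport χ, χ x = 0 := fun x hx => image_eq_zero_of_notMem_tsupport hx
  have hdχ0 : ∀ x ∉ tsupport χ, fderiv ℝ χ x = 0 := fun x hx => by
    by_contra hne
    exact hx (support_fderiv_subset ℝ hne)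
  have hχ2 : IsTest U (fun x => χ x * χ x) := hχ.mul hχ.smooth
  have hw := hu.smul_test_univ hU hχ2
  have hcχ : Continuous χ := hχ.smooth.continuous
  have hcdχ : Continuous (fderiv ℝ χ) := hχ.isTestV_fderiv.smooth.continuous
  -- the three `L²` functions
  have m0 : MemLp (fun x => (χ x * χ x) • u x) 2 μ :=
    cacc_memLp_clm (B := fun x => (χ x * χ x) • ContinuousLinearMap.id ℝ ℝ) hK
      ((hcχ.mul hcχ).smul continuous_const) (fun x hx => by simp only [hχ0 x hx, mul_zero, zero_smul])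
      (hu2 _ hK hKU)
  have m1 : MemLp (fun x => (fderiv ℝ (fun y => χ y * χ y) x).smulRight (u x)) 2 μ := by
    simp only [cacc_fderiv_sq hχ.smooth]
    exact cacc_memLp_clm (B := fun x => ContinuousLinearMap.smulRightL ℝ E ℝ ((2 * χ x) • fderiv ℝ χ x)) hK
      ((ContinuousLinearMap.smulRightL ℝ E ℝ).continuous.comp ((continuous_const.mul hcχ).smul hcdχ))
      (fun x hx => by simp only [hχ0 x hx, mul_zero, zero_smul, map_zero]) (hu2 _ hK hKU)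
  have m2 : MemLp (fun x => (χ x * χ x) • G x) 2 μ :=
    cacc_memLp_clm (B := fun x => (χ x * χ x) • ContinuousLinearMap.id ℝ (E →L[ℝ] ℝ)) hK
      ((hcχ.mul hcχ).smul continuous_const) (fun x hx => by simp only [hχ0 x hx, mul_zero, zero_smul])
      (hG2 _ hK hKU)
  have key := IsWeakSol.test_H1 hU hA hG2 hf2 hH2 hsol hK hKU
    (w := fun x => (χ x * χ x) • u x) (fun x hx => by simp only [hχ0 x hx, mul_zero, zero_smul]) hw m0 (m1.add m2)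
  have a1 := cacc_int_GAZ hK hKU hA hG2 (m1.restrict _)
  have a2 := cacc_int_GAZ hK hKU hA hG2 (m2.restrict _)
  have b1 := cacc_int_HZ hK hKU hH2 (m1.restrict _)
  have b2 := cacc_int_HZ hK hKU hH2 (m2.restrict _)
  have c0 : IntegrableOn (fun x => ((χ x * χ x) • u x) • f x) (tsupport χ) μ :=
    (l2Le_l2n (m0.restrict _)).integrableOn_smul (l2Le_l2n (hf2 _ hK hKU))
  simp only [map_add] at key
  rw [integral_add a1 a2, integral_add b1 b2] at key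
  have p1 : ∀ x, (χ x) ^ 2 * G x (A x (G x)) = G x (A x ((χ x * χ x) • G x)) := fun x => by
    simp only [map_smul, smul_eq_mul, sq]
  have e1 : ∫ x in tsupport χ, (χ x) ^ 2 * G x (A x (G x)) ∂μ
      = ∫ x in tsupport χ, G x (A x ((χ x * χ x) • G x)) ∂μ :=
    integral_congr_ae (Eventually.of_forall p1)
  have d1 : IntegrableOn (fun x => ((χ x * χ x) • u x) • f x + H x ((χ x * χ x) • G x)) (tsupport χ) μ :=
    c0.add b2
  have d2 : IntegrableOn (fun x => H x ((fderiv ℝ (fun y => χ y * χ y) x).smulRight (u x))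
      - G x (A x ((fderiv ℝ (fun y => χ y * χ y) x).smulRight (u x)))) (tsupport χ) μ := b1.sub a1
  have p2 : ∀ x, (χ x) ^ 2 * u x * f x + (χ x) ^ 2 * H x (G x)
        + 2 * χ x * u x * (H x (fderiv ℝ χ x) - G x (A x (fderiv ℝ χ x)))
      = (((χ x * χ x) • u x) • f x + H x ((χ x * χ x) • G x))
        + (H x ((fderiv ℝ (fun y => χ y * χ y) x).smulRight (u x))
          - G x (A x ((fderiv ℝ (fun y => χ y * χ y) x).smulRight (u x)))) := fun x => by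
    have e3 : (fderiv ℝ (fun y => χ y * χ y) x).smulRight (u x) = (2 * χ x * u x) • fderiv ℝ χ x := by
      rw [cacc_fderiv_sq hχ.smooth]
      ext v
      simp only [ContinuousLinearMap.smulRight_apply, _root_.smul_apply, smul_eq_mul]
      ring
    simp only [e3, map_smul, smul_eq_mul]
    ring
  have e2 : ∫ x in tsupport χ, ((χ x) ^ 2 * u x * f x + (χ x) ^ 2 * H x (G x)
        + 2 * χ x * u x * (H x (fderiv ℝ χ x) - G x (A x (fderiv ℝ χ x)))) ∂μ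
      = ∫ x in tsupport χ, ((χ x * χ x) • u x) • f x ∂μ
        + ∫ x in tsupport χ, H x ((χ x * χ x) • G x) ∂μ
        + (∫ x in tsupport χ, H x ((fderiv ℝ (fun y => χ y * χ y) x).smulRight (u x)) ∂μ
          - ∫ x in tsupport χ, G x (A x ((fderiv ℝ (fun y => χ y * χ y) x).smulRight (u x))) ∂μ) := by
    rw [← integral_sub b1 a1, ← integral_add c0 b2, ← integral_add d1 d2]
    exact integral_congr_ae (Eventually.of_forall p2)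
  refine ⟨a2.congr (Eventually.of_forall fun x => (p1 x).symm),
    (d1.add d2).congr (Eventually.of_forall fun x => (p2 x).symm), ?_⟩
  rw [e1, e2]
  linarith

theorem cacc_identity {U : Set E} (hU : IsOpen U) {χ : E → ℝ} (hχ : IsTest U χ)
    {A : E → (E →L[ℝ] ℝ) →L[ℝ] E} (hA : ContinuousOn A U) {u : E → ℝ} {G : E → E →L[ℝ] ℝ} {f : E → ℝ}
    {H : E → (E →L[ℝ] ℝ) →L[ℝ] ℝ} (hu : HasWeakFDeriv μ U u G) (hu2 : L2Loc μ U u) (hG2 : L2Loc μ U G)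
    (hf2 : L2Loc μ U f) (hH2 : L2Loc μ U H) (hsol : IsWeakSol μ U A G f H) :
    ∫ x in tsupport χ, (χ x) ^ 2 * G x (A x (G x)) ∂μ =
      ∫ x in tsupport χ, ((χ x) ^ 2 * u x * f x + (χ x) ^ 2 * H x (G x)
        + 2 * χ x * u x * (H x (fderiv ℝ χ x) - G x (A x (fderiv ℝ χ x)))) ∂μ := by
  exact (cacc_identity_aux hU hχ hA hu hu2 hG2 hf2 hH2 hsol).2.2

theorem cacc_int_sq_mul {K : Set E} (hK : IsCompact K) {χ : E → ℝ} (hχc : Continuous χ)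
    (hχ01 : ∀ x, 0 ≤ χ x ∧ χ x ≤ 1) {a : E → ℝ} (ha : IntegrableOn a K μ) (ha0 : ∀ x, 0 ≤ a x) :
    IntegrableOn (fun x => (χ x) ^ 2 * a x) K μ := by
  refine Integrable.mono' ha ((hχc.pow 2).aestronglyMeasurable.mul ha.aestronglyMeasurable)
    (Eventually.of_forall fun x => ?_)
  rw [Real.norm_of_nonneg (mul_nonneg (sq_nonneg _) (ha0 x))]
  exact mul_le_of_le_one_left (ha0 x) (pow_le_one₀ (hχ01 x).1 (hχ01 x).2)

theorem cacc_scalar {U : Set E} (hU : IsOpen U) {χ : E → ℝ} (hχ : IsTest U χ)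
    (hχ01 : ∀ x, 0 ≤ χ x ∧ χ x ≤ 1) {Λχ lam Lam : ℝ} (hΛχ : ∀ x, ‖fderiv ℝ χ x‖ ≤ Λχ) (hlam : 0 < lam)
    {A : E → (E →L[ℝ] ℝ) →L[ℝ] E} (hA : ContinuousOn A U) (hAb : ∀ x ∈ U, ‖A x‖ ≤ Lam)
    (hell : Elliptic U A lam) {u : E → ℝ} {G : E → E →L[ℝ] ℝ} {f : E → ℝ}
    {H : E → (E →L[ℝ] ℝ) →L[ℝ] ℝ} (hu : HasWeakFDeriv μ U u G) (hu2 : L2Loc μ U u) (hG2 : L2Loc μ U G)
    (hf2 : L2Loc μ U f) (hH2 : L2Loc μ U H) (hsol : IsWeakSol μ U A G f H) :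
    lam / 2 * ∫ x in tsupport χ, (χ x) ^ 2 * ‖G x‖ ^ 2 ∂μ ≤
      ∫ x in tsupport χ, (χ x) ^ 2 * |u x| * |f x| ∂μ
        + (1 / lam + 1) * ∫ x in tsupport χ, ‖H x‖ ^ 2 ∂μ
        + (4 * Lam ^ 2 * Λχ ^ 2 / lam + Λχ ^ 2) * ∫ x in tsupport χ, |u x| ^ 2 ∂μ := by
  have hK : IsCompact (tsupport χ) := hχ.compact
  have hKU : tsupport χ ⊆ U := hχ.supp
  have hcχ : Continuous χ := hχ.smooth.continuous
  obtain ⟨iL, iR, hid⟩ := cacc_identity_aux hU hχ hA hu hu2 hG2 hf2 hH2 hsol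
  have iG : IntegrableOn (fun x => (χ x) ^ 2 * ‖G x‖ ^ 2) (tsupport χ) μ :=
    cacc_int_sq_mul hK hcχ hχ01 (MemLp_two_integrable_sq (hG2 _ hK hKU)) fun x => sq_nonneg _
  have iH : IntegrableOn (fun x => ‖H x‖ ^ 2) (tsupport χ) μ := MemLp_two_integrable_sq (hH2 _ hK hKU)
  have iu : IntegrableOn (fun x => |u x| ^ 2) (tsupport χ) μ := MemLp_two_integrable_sq (hu2 _ hK hKU)
  have iuf : IntegrableOn (fun x => (χ x) ^ 2 * |u x| * |f x|) (tsupport χ) μ := by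
    have h1 : IntegrableOn (fun x => |u x| * |f x|) (tsupport χ) μ :=
      (l2Le_l2n (hu2 _ hK hKU)).integrableOn_norm_mul (l2Le_l2n (hf2 _ hK hKU))
    have h2 := cacc_int_sq_mul hK hcχ hχ01 h1 fun x => mul_nonneg (abs_nonneg _) (abs_nonneg _)
    simpa only [mul_assoc] using h2
  have sA : lam * ∫ x in tsupport χ, (χ x) ^ 2 * ‖G x‖ ^ 2 ∂μ
      ≤ ∫ x in tsupport χ, (χ x) ^ 2 * G x (A x (G x)) ∂μ := by
    rw [← integral_const_mul]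
    refine setIntegral_mono_on (iG.const_mul lam) iL hK.measurableSet fun x hx => ?_
    have h1 := hell x (hKU hx) (G x)
    calc lam * ((χ x) ^ 2 * ‖G x‖ ^ 2) = (χ x) ^ 2 * (lam * ‖G x‖ ^ 2) := by ring
      _ ≤ (χ x) ^ 2 * G x (A x (G x)) := mul_le_mul_of_nonneg_left h1 (sq_nonneg _)
  have j1 : IntegrableOn (fun x => (χ x) ^ 2 * |u x| * |f x| + lam / 2 * ((χ x) ^ 2 * ‖G x‖ ^ 2)) (tsupport χ) μ :=
    iuf.add (iG.const_mul _)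
  have j2 : IntegrableOn (fun x => (χ x) ^ 2 * |u x| * |f x| + lam / 2 * ((χ x) ^ 2 * ‖G x‖ ^ 2)
      + (1 / lam + 1) * ‖H x‖ ^ 2) (tsupport χ) μ := j1.add (iH.const_mul _)
  have j3 : IntegrableOn (fun x => (χ x) ^ 2 * |u x| * |f x| + lam / 2 * ((χ x) ^ 2 * ‖G x‖ ^ 2)
      + (1 / lam + 1) * ‖H x‖ ^ 2 + (4 * Lam ^ 2 * Λχ ^ 2 / lam + Λχ ^ 2) * |u x| ^ 2) (tsupport χ) μ :=
    j2.add (iu.const_mul _)
  have sB : ∫ x in tsupport χ, ((χ x) ^ 2 * u x * f x + (χ x) ^ 2 * H x (G x)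
        + 2 * χ x * u x * (H x (fderiv ℝ χ x) - G x (A x (fderiv ℝ χ x)))) ∂μ
      ≤ ∫ x in tsupport χ, ((χ x) ^ 2 * |u x| * |f x| + lam / 2 * ((χ x) ^ 2 * ‖G x‖ ^ 2)
      + (1 / lam + 1) * ‖H x‖ ^ 2 + (4 * Lam ^ 2 * Λχ ^ 2 / lam + Λχ ^ 2) * |u x| ^ 2) ∂μ := by
    refine setIntegral_mono_on iR j3 hK.measurableSet fun x hx => ?_
    refine cacc_pointwise hlam (hχ01 x).1 (hχ01 x).2 ?_ ?_ ?_
    · exact (H x).le_opNorm (G x)
    · exact ((H x).le_opNorm _).trans (mul_le_mul_of_nonneg_left (hΛχ x) (norm_nonneg _))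
    · refine ((G x).le_opNorm _).trans (mul_le_mul_of_nonneg_left ?_ (norm_nonneg _))
      refine ((A x).le_opNorm _).trans ?_
      exact mul_le_mul (hAb x (hKU hx)) (hΛχ x) (norm_nonneg _) ((norm_nonneg _).trans (hAb x (hKU hx)))
  rw [integral_add j2 (iu.const_mul _), integral_add j1 (iH.const_mul _), integral_add iuf (iG.const_mul _),
    integral_const_mul, integral_const_mul, integral_const_mul] at sB
  rw [← hid] at sB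
  linarith

theorem cacc_pointwise2 {c a g s κ' δ : ℝ} (hc0 : 0 ≤ c) (hc1 : c ≤ 1) (ha : 0 ≤ a) (hs : 0 ≤ s)
    (hκ : 0 ≤ κ') (hδ : 0 < δ) :
    c ^ 2 * (a * (κ' * (g + a) + s)) ≤ δ * (c ^ 2 * g ^ 2) + (κ' ^ 2 / (4 * δ) + κ' + 1 / 2) * a ^ 2 + 1 / 2 * s ^ 2 := by
  have hc2 : c ^ 2 ≤ 1 := pow_le_one₀ hc0 hc1
  have hc20 : 0 ≤ c ^ 2 := sq_nonneg c
  have y := cacc_young (lam := 4 * δ) (by positivity) (c * g) (c * (κ' * a))
  have e1 : 4 * δ / 4 * (c * g) ^ 2 = δ * (c ^ 2 * g ^ 2) := by ring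
  have e2 : (c * (κ' * a)) ^ 2 / (4 * δ) = c ^ 2 * (κ' ^ 2 / (4 * δ) * a ^ 2) := by ring
  rw [e1, e2] at y
  have b1 : c ^ 2 * (κ' ^ 2 / (4 * δ) * a ^ 2) ≤ κ' ^ 2 / (4 * δ) * a ^ 2 :=
    mul_le_of_le_one_left (by positivity) hc2
  have b2 : c ^ 2 * (κ' * a ^ 2) ≤ κ' * a ^ 2 := mul_le_of_le_one_left (by positivity) hc2
  have b3 : c ^ 2 * (a * s) ≤ a * s := mul_le_of_le_one_left (by positivity) hc2
  have b4 : a * s ≤ 1 / 2 * a ^ 2 + 1 / 2 * s ^ 2 := by nlinarith [sq_nonneg (a - s)]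
  have e3 : c ^ 2 * (a * (κ' * (g + a) + s)) = c * g * (c * (κ' * a)) + c ^ 2 * (κ' * a ^ 2) + c ^ 2 * (a * s) := by
    ring
  rw [e3]
  have e4 : (κ' ^ 2 / (4 * δ) + κ' + 1 / 2) * a ^ 2 = κ' ^ 2 / (4 * δ) * a ^ 2 + κ' * a ^ 2 + 1 / 2 * a ^ 2 := by ring
  rw [e4]
  linarith

theorem cacc_basis (E : Type*) [NormedAddCommGroup E] [NormedSpace ℝ E]
    (F : Type*) [NormedAddCommGroup F] [NormedSpace ℝ F] [FiniteDimensional ℝ F] :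
    ∃ (N : ℕ) (ℓ : Fin N → F →L[ℝ] ℝ) (cℓ ce : ℝ), 0 ≤ cℓ ∧ 0 ≤ ce ∧ (∀ α, ‖ℓ α‖ ≤ cℓ) ∧
      ∀ T : E →L[ℝ] F, ‖T‖ ^ 2 ≤ ce * ∑ α, ‖(ℓ α).comp T‖ ^ 2 := by
  let b := Module.finBasis ℝ F
  refine ⟨Module.finrank ℝ F, fun α => LinearMap.toContinuousLinearMap (b.coord α),
    ∑ α, ‖LinearMap.toContinuousLinearMap (b.coord α)‖, ∑ α, ‖b α‖ ^ 2,
    Finset.sum_nonneg fun _ _ => norm_nonneg _, Finset.sum_nonneg fun _ _ => sq_nonneg _, fun α => ?_, fun T => ?_⟩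
  · exact Finset.single_le_sum (f := fun α => ‖LinearMap.toContinuousLinearMap (b.coord α)‖)
      (fun _ _ => norm_nonneg _) (Finset.mem_univ α)
  · have h1 : ‖T‖ ≤ ∑ α, ‖(LinearMap.toContinuousLinearMap (b.coord α)).comp T‖ * ‖b α‖ := by
      refine T.opNorm_le_bound (Finset.sum_nonneg fun _ _ => by positivity) fun v => ?_
      have e : T v = ∑ α, ((LinearMap.toContinuousLinearMap (b.coord α)).comp T) v • b α := by
        conv_lhs => rw [← b.sum_repr (T v)]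
        rfl
      rw [e, Finset.sum_mul]
      refine (norm_sum_le _ _).trans (Finset.sum_le_sum fun α _ => ?_)
      rw [norm_smul]
      calc ‖((LinearMap.toContinuousLinearMap (b.coord α)).comp T) v‖ * ‖b α‖
          ≤ (‖(LinearMap.toContinuousLinearMap (b.coord α)).comp T‖ * ‖v‖) * ‖b α‖ :=
            mul_le_mul_of_nonneg_right (ContinuousLinearMap.le_opNorm _ _) (norm_nonneg _)
        _ = _ := by ring
    have h2 := Finset.sum_mul_sq_le_sq_mul_sq Finset.univ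
      (fun α => ‖(LinearMap.toContinuousLinearMap (b.coord α)).comp T‖) (fun α => ‖b α‖)
    calc ‖T‖ ^ 2 ≤ (∑ α, ‖(LinearMap.toContinuousLinearMap (b.coord α)).comp T‖ * ‖b α‖) ^ 2 :=
          pow_le_pow_left₀ (norm_nonneg _) h1 2
      _ ≤ _ := h2
      _ = _ := mul_comm _ _

theorem cacc_l2Loc_of_le {F : Type*} [NormedAddCommGroup F] {U : Set E} {f : E → F}
    (hf : AEStronglyMeasurable f (μ.restrict U)) {d : E → ℝ} (hd : L2Loc μ U d)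
    (h : ∀ᵐ x ∂(μ.restrict U), ‖f x‖ ≤ d x) : L2Loc μ U f := by
  intro K hK hKU
  refine (hd K hK hKU).mono (hf.mono_measure (Measure.restrict_mono hKU le_rfl)) ?_
  filter_upwards [ae_restrict_of_ae_restrict_of_subset hKU h] with x hx
  exact hx.trans (le_abs_self _)

theorem cacc_component {F : Type*} [NormedAddCommGroup F] [NormedSpace ℝ F] [FiniteDimensional ℝ F]
    {U : Set E} (hU : IsOpen U) {χ : E → ℝ} (hχ : IsTest U χ)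
    (hχ01 : ∀ x, 0 ≤ χ x ∧ χ x ≤ 1) {Λχ lam Lam κ' δ cℓ M : ℝ} (hΛχ : ∀ x, ‖fderiv ℝ χ x‖ ≤ Λχ) (hlam : 0 < lam)
    (hκ' : 0 ≤ κ') (hδ : 0 < δ) (hM : 0 ≤ M)
    {A : E → (E →L[ℝ] ℝ) →L[ℝ] E} (hA : ContinuousOn A U) (hAb : ∀ x ∈ U, ‖A x‖ ≤ Lam)
    (hell : Elliptic U A lam) {u : E → F} {G : E → E →L[ℝ] F} {f : E → F}
    {H : E → (E →L[ℝ] ℝ) →L[ℝ] F} {ψ : E → ℝ} (hu : HasWeakFDeriv μ U u G) (hG2 : L2Loc μ U G)
    (huM : L2Le μ U u M) (hψM : L2Le μ U ψ M) (hf2 : L2Loc μ U f) (hH2 : L2Loc μ U H)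
    (hfb : ∀ᵐ x ∂(μ.restrict U), ‖f x‖ ≤ κ' * (‖G x‖ + ‖u x‖) + |ψ x|)
    (hHb : ∀ᵐ x ∂(μ.restrict U), ‖H x‖ ≤ κ' * ‖u x‖ + |ψ x|)
    (hsol : IsWeakSol μ U A G f H) (ℓ : F →L[ℝ] ℝ) (hℓ : ‖ℓ‖ ≤ cℓ) :
    lam / 2 * ∫ x in tsupport χ, (χ x) ^ 2 * ‖ℓ.comp (G x)‖ ^ 2 ∂μ ≤
      cℓ ^ 2 * δ * (∫ x in tsupport χ, (χ x) ^ 2 * ‖G x‖ ^ 2 ∂μ)
        + (cℓ ^ 2 * (κ' ^ 2 / (4 * δ) + κ' + 1 / 2 + 1 / 2) + (1 / lam + 1) * (2 * cℓ ^ 2 * (κ' ^ 2 + 1))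
          + (4 * Lam ^ 2 * Λχ ^ 2 / lam + Λχ ^ 2) * cℓ ^ 2) * M ^ 2 := by
  have hK : IsCompact (tsupport χ) := hχ.compact
  have hKU : tsupport χ ⊆ U := hχ.supp
  have hcχ : Continuous χ := hχ.smooth.continuous
  have hcℓ : 0 ≤ cℓ := (norm_nonneg _).trans hℓ
  have hu2 : L2Loc μ U u := huM.l2Loc
  have hψ2 : L2Loc μ U ψ := hψM.l2Loc
  -- the scalar inequality
  have hGα : L2Loc μ U (fun x => ℓ.comp (G x)) := hG2.clm (ContinuousLinearMap.compL ℝ E F ℝ ℓ)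
  have hHα : L2Loc μ U (fun x => ℓ.comp (H x)) := hH2.clm (ContinuousLinearMap.compL ℝ (E →L[ℝ] ℝ) F ℝ ℓ)
  have key := cacc_scalar hU hχ hχ01 hΛχ hlam hA hAb hell (hu.clm ℓ) (hu2.clm ℓ) hGα (hf2.clm ℓ) hHα
    (hsol.clm hU hA (hG2.locallyIntegrableOn hU) (hf2.locallyIntegrableOn hU) (hH2.locallyIntegrableOn hU) ℓ)
  -- integrals of the data
  have iG : IntegrableOn (fun x => (χ x) ^ 2 * ‖G x‖ ^ 2) (tsupport χ) μ :=
    cacc_int_sq_mul hK hcχ hχ01 (MemLp_two_integrable_sq (hG2 _ hK hKU)) fun x => sq_nonneg _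
  have iu : IntegrableOn (fun x => ‖u x‖ ^ 2) (tsupport χ) μ := MemLp_two_integrable_sq (hu2 _ hK hKU)
  have iψ : IntegrableOn (fun x => |ψ x| ^ 2) (tsupport χ) μ := MemLp_two_integrable_sq (hψ2 _ hK hKU)
  have hX : ∫ x in tsupport χ, ‖u x‖ ^ 2 ∂μ ≤ M ^ 2 := ((l2Le_iff_integral hM).1 (huM.mono_set hKU)).2
  have hY : ∫ x in tsupport χ, |ψ x| ^ 2 ∂μ ≤ M ^ 2 := ((l2Le_iff_integral hM).1 (hψM.mono_set hKU)).2
  have hX0 : 0 ≤ ∫ x in tsupport χ, ‖u x‖ ^ 2 ∂μ := integral_nonneg fun x => sq_nonneg _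
  have hY0 : 0 ≤ ∫ x in tsupport χ, |ψ x| ^ 2 ∂μ := integral_nonneg fun x => sq_nonneg _
  have hfbK := ae_restrict_of_ae_restrict_of_subset hKU hfb
  have hHbK := ae_restrict_of_ae_restrict_of_subset hKU hHb
  have hℓa : ∀ y : F, |ℓ y| ≤ cℓ * ‖y‖ := fun y =>
    (ℓ.le_opNorm y).trans (mul_le_mul_of_nonneg_right hℓ (norm_nonneg _))
  -- the term with `f`
  have iuf : IntegrableOn (fun x => (χ x) ^ 2 * |ℓ (u x)| * |ℓ (f x)|) (tsupport χ) μ := by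
    have h1 : IntegrableOn (fun x => |ℓ (u x)| * |ℓ (f x)|) (tsupport χ) μ :=
      (l2Le_l2n ((hu2.clm ℓ) _ hK hKU)).integrableOn_norm_mul (l2Le_l2n ((hf2.clm ℓ) _ hK hKU))
    have h2 := cacc_int_sq_mul hK hcχ hχ01 h1 fun x => mul_nonneg (abs_nonneg _) (abs_nonneg _)
    simpa only [mul_assoc] using h2
  have j1 : IntegrableOn (fun x => δ * ((χ x) ^ 2 * ‖G x‖ ^ 2) + (κ' ^ 2 / (4 * δ) + κ' + 1 / 2) * ‖u x‖ ^ 2)
      (tsupport χ) μ := (iG.const_mul _).add (iu.const_mul _)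
  have j2 : IntegrableOn (fun x => δ * ((χ x) ^ 2 * ‖G x‖ ^ 2) + (κ' ^ 2 / (4 * δ) + κ' + 1 / 2) * ‖u x‖ ^ 2
      + 1 / 2 * |ψ x| ^ 2) (tsupport χ) μ := j1.add (iψ.const_mul _)
  have P : ∫ x in tsupport χ, (χ x) ^ 2 * |ℓ (u x)| * |ℓ (f x)| ∂μ
      ≤ cℓ ^ 2 * (δ * (∫ x in tsupport χ, (χ x) ^ 2 * ‖G x‖ ^ 2 ∂μ)
        + (κ' ^ 2 / (4 * δ) + κ' + 1 / 2) * (∫ x in tsupport χ, ‖u x‖ ^ 2 ∂μ)
        + 1 / 2 * ∫ x in tsupport χ, |ψ x| ^ 2 ∂μ) := by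
    rw [← integral_const_mul, ← integral_const_mul, ← integral_const_mul,
      ← integral_add (iG.const_mul _) (iu.const_mul _), ← integral_add j1 (iψ.const_mul _), ← integral_const_mul]
    refine integral_mono_ae iuf (j2.const_mul _) ?_
    filter_upwards [hfbK] with x hx
    have h1 := cacc_pointwise2 (g := ‖G x‖) (hχ01 x).1 (hχ01 x).2 (norm_nonneg (u x)) (abs_nonneg (ψ x)) hκ' hδ
    have h2 : |ℓ (u x)| * |ℓ (f x)| ≤ cℓ ^ 2 * (‖u x‖ * (κ' * (‖G x‖ + ‖u x‖) + |ψ x|)) := by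
      calc |ℓ (u x)| * |ℓ (f x)| ≤ (cℓ * ‖u x‖) * (cℓ * ‖f x‖) :=
            mul_le_mul (hℓa _) (hℓa _) (abs_nonneg _) (by positivity)
        _ = cℓ ^ 2 * (‖u x‖ * ‖f x‖) := by ring
        _ ≤ _ := mul_le_mul_of_nonneg_left (mul_le_mul_of_nonneg_left hx (norm_nonneg _)) (sq_nonneg _)
    calc (χ x) ^ 2 * |ℓ (u x)| * |ℓ (f x)| = (χ x) ^ 2 * (|ℓ (u x)| * |ℓ (f x)|) := by ring
      _ ≤ (χ x) ^ 2 * (cℓ ^ 2 * (‖u x‖ * (κ' * (‖G x‖ + ‖u x‖) + |ψ x|))) :=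
          mul_le_mul_of_nonneg_left h2 (sq_nonneg _)
      _ = cℓ ^ 2 * ((χ x) ^ 2 * (‖u x‖ * (κ' * (‖G x‖ + ‖u x‖) + |ψ x|))) := by ring
      _ ≤ _ := mul_le_mul_of_nonneg_left h1 (sq_nonneg _)
  -- the term with `H`
  have iHα : IntegrableOn (fun x => ‖ℓ.comp (H x)‖ ^ 2) (tsupport χ) μ := MemLp_two_integrable_sq (hHα _ hK hKU)
  have Q : ∫ x in tsupport χ, ‖ℓ.comp (H x)‖ ^ 2 ∂μ
      ≤ 2 * cℓ ^ 2 * (κ' ^ 2 * (∫ x in tsupport χ, ‖u x‖ ^ 2 ∂μ) + ∫ x in tsupport χ, |ψ x| ^ 2 ∂μ) := by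
    rw [← integral_const_mul, ← integral_add (iu.const_mul _) iψ, ← integral_const_mul]
    refine integral_mono_ae iHα (((iu.const_mul _).add iψ).const_mul _) ?_
    filter_upwards [hHbK] with x hx
    have h1 : ‖ℓ.comp (H x)‖ ≤ cℓ * (κ' * ‖u x‖ + |ψ x|) :=
      (ContinuousLinearMap.opNorm_comp_le _ _).trans (mul_le_mul hℓ hx (norm_nonneg _) hcℓ)
    have h2 : ‖ℓ.comp (H x)‖ ^ 2 ≤ (cℓ * (κ' * ‖u x‖ + |ψ x|)) ^ 2 := pow_le_pow_left₀ (norm_nonneg _) h1 2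
    have h3 : (κ' * ‖u x‖ + |ψ x|) ^ 2 ≤ 2 * (κ' ^ 2 * ‖u x‖ ^ 2 + |ψ x| ^ 2) := by
      nlinarith [sq_nonneg (κ' * ‖u x‖ - |ψ x|)]
    calc ‖ℓ.comp (H x)‖ ^ 2 ≤ cℓ ^ 2 * (κ' * ‖u x‖ + |ψ x|) ^ 2 := by rw [← mul_pow]; exact h2
      _ ≤ cℓ ^ 2 * (2 * (κ' ^ 2 * ‖u x‖ ^ 2 + |ψ x| ^ 2)) := mul_le_mul_of_nonneg_left h3 (sq_nonneg _)
      _ = _ := by ring
  -- the term with `u`
  have iuα : IntegrableOn (fun x => |ℓ (u x)| ^ 2) (tsupport χ) μ :=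
    MemLp_two_integrable_sq ((hu2.clm ℓ) _ hK hKU)
  have Rr : ∫ x in tsupport χ, |ℓ (u x)| ^ 2 ∂μ ≤ cℓ ^ 2 * ∫ x in tsupport χ, ‖u x‖ ^ 2 ∂μ := by
    rw [← integral_const_mul]
    refine integral_mono_ae iuα (iu.const_mul _) (Eventually.of_forall fun x => ?_)
    calc |ℓ (u x)| ^ 2 ≤ (cℓ * ‖u x‖) ^ 2 := pow_le_pow_left₀ (abs_nonneg _) (hℓa _) 2
      _ = _ := by ring
  -- arithmetic
  have hcH : 0 ≤ 1 / lam + 1 := by positivity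
  have hc1 : 0 ≤ 4 * Lam ^ 2 * Λχ ^ 2 / lam + Λχ ^ 2 := by positivity
  have hc3 : 0 ≤ κ' ^ 2 / (4 * δ) + κ' + 1 / 2 := by positivity
  have hcℓ2 : 0 ≤ cℓ ^ 2 := sq_nonneg _
  have P' : cℓ ^ 2 * (δ * (∫ x in tsupport χ, (χ x) ^ 2 * ‖G x‖ ^ 2 ∂μ)
        + (κ' ^ 2 / (4 * δ) + κ' + 1 / 2) * (∫ x in tsupport χ, ‖u x‖ ^ 2 ∂μ)
        + 1 / 2 * ∫ x in tsupport χ, |ψ x| ^ 2 ∂μ)
      ≤ cℓ ^ 2 * (δ * (∫ x in tsupport χ, (χ x) ^ 2 * ‖G x‖ ^ 2 ∂μ)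
        + (κ' ^ 2 / (4 * δ) + κ' + 1 / 2) * M ^ 2 + 1 / 2 * M ^ 2) := by
    refine mul_le_mul_of_nonneg_left ?_ hcℓ2
    have := mul_le_mul_of_nonneg_left hX hc3
    linarith
  have Q' : (1 / lam + 1) * ∫ x in tsupport χ, ‖ℓ.comp (H x)‖ ^ 2 ∂μ
      ≤ (1 / lam + 1) * (2 * cℓ ^ 2 * (κ' ^ 2 * M ^ 2 + M ^ 2)) := by
    refine mul_le_mul_of_nonneg_left (Q.trans ?_) hcH
    refine mul_le_mul_of_nonneg_left ?_ (by positivity)
    have := mul_le_mul_of_nonneg_left hX (sq_nonneg κ')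
    linarith
  have R' : (4 * Lam ^ 2 * Λχ ^ 2 / lam + Λχ ^ 2) * ∫ x in tsupport χ, |ℓ (u x)| ^ 2 ∂μ
      ≤ (4 * Lam ^ 2 * Λχ ^ 2 / lam + Λχ ^ 2) * (cℓ ^ 2 * M ^ 2) :=
    mul_le_mul_of_nonneg_left (Rr.trans (mul_le_mul_of_nonneg_left hX hcℓ2)) hc1
  calc lam / 2 * ∫ x in tsupport χ, (χ x) ^ 2 * ‖ℓ.comp (G x)‖ ^ 2 ∂μ
      ≤ _ := key
    _ ≤ cℓ ^ 2 * (δ * (∫ x in tsupport χ, (χ x) ^ 2 * ‖G x‖ ^ 2 ∂μ)
        + (κ' ^ 2 / (4 * δ) + κ' + 1 / 2) * M ^ 2 + 1 / 2 * M ^ 2)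
        + (1 / lam + 1) * (2 * cℓ ^ 2 * (κ' ^ 2 * M ^ 2 + M ^ 2))
        + (4 * Lam ^ 2 * Λχ ^ 2 / lam + Λχ ^ 2) * (cℓ ^ 2 * M ^ 2) :=
        add_le_add (add_le_add (P.trans P') Q') R'
    _ = _ := by ring

/-- the statement `caccioppoli` of `Api.lean`. -/
theorem caccioppoli' (μ : Measure E) [μ.IsAddHaarMeasure]
    (F : Type*) [NormedAddCommGroup F] [NormedSpace ℝ F] [FiniteDimensional ℝ F]
    (x₀ : E) {r R lam Lam κ : ℝ} (hr : 0 < r) (hrR : r < R) (hlam : 0 < lam) :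
    ∃ C : ℝ, 0 ≤ C ∧ ∀ (A : E → (E →L[ℝ] ℝ) →L[ℝ] E) (u : E → F) (G : E → E →L[ℝ] F) (f : E → F)
      (H : E → (E →L[ℝ] ℝ) →L[ℝ] F) (ψ : E → ℝ) (M : ℝ), 0 ≤ M →
      ContinuousOn A (ball x₀ R) → (∀ x ∈ ball x₀ R, ‖A x‖ ≤ Lam) → Elliptic (ball x₀ R) A lam →
      HasWeakFDeriv μ (ball x₀ R) u G → L2Loc μ (ball x₀ R) G →
      L2Le μ (ball x₀ R) u M → L2Le μ (ball x₀ R) ψ M →
      AEStronglyMeasurable f (μ.restrict (ball x₀ R)) → AEStronglyMeasurable H (μ.restrict (ball x₀ R)) →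
      (∀ᵐ x ∂(μ.restrict (ball x₀ R)), ‖f x‖ ≤ κ * (‖G x‖ + ‖u x‖) + ψ x) →
      (∀ᵐ x ∂(μ.restrict (ball x₀ R)), ‖H x‖ ≤ κ * ‖u x‖ + ψ x) →
      IsWeakSol μ (ball x₀ R) A G f H →
      L2Le μ (ball x₀ r) G (C * M) := by
  obtain ⟨χ, hχ, hχ1, hχ01, -⟩ := exists_cutoff_ball x₀ hr hrR
  obtain ⟨Λχ, -, hΛχ⟩ := hχ.isTestV_fderiv.exists_bound
  obtain ⟨N, ℓ, cℓ, ce, hcℓ, hce, hℓ, hT⟩ := cacc_basis E F
  obtain ⟨δ, hδdef⟩ : ∃ δ : ℝ, δ = lam / (4 * (ce * N * cℓ ^ 2 + 1)) := ⟨_, rfl⟩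
  have hden : 0 < ce * N * cℓ ^ 2 + 1 := by positivity
  have hδ : 0 < δ := by rw [hδdef]; positivity
  have hδ' : ce * N * cℓ ^ 2 * δ ≤ lam / 4 := by
    rw [hδdef]
    have : ce * N * cℓ ^ 2 * (lam / (4 * (ce * N * cℓ ^ 2 + 1)))
        = lam / 4 * (ce * N * cℓ ^ 2 / (ce * N * cℓ ^ 2 + 1)) := by
      field_simp
    rw [this]
    refine mul_le_of_le_one_right (by positivity) ?_
    rw [div_le_one hden]
    linarith
  obtain ⟨B, hBdef⟩ : ∃ B : ℝ, B = cℓ ^ 2 * (|κ| ^ 2 / (4 * δ) + |κ| + 1 / 2 + 1 / 2)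
      + (1 / lam + 1) * (2 * cℓ ^ 2 * (|κ| ^ 2 + 1)) + (4 * Lam ^ 2 * Λχ ^ 2 / lam + Λχ ^ 2) * cℓ ^ 2 := ⟨_, rfl⟩
  have hB : 0 ≤ B := by rw [hBdef]; positivity
  refine ⟨Real.sqrt (4 / lam * (ce * N * B)), Real.sqrt_nonneg _, ?_⟩
  intro A u G f H ψ M hM hA hAb hell hu hG2 huM hψM hfm hHm hfb hHb hsol
  have hU : IsOpen (ball x₀ R) := isOpen_ball
  have hK : IsCompact (tsupport χ) := hχ.compact
  have hKU : tsupport χ ⊆ ball x₀ R := hχ.supp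
  have hcχ : Continuous χ := hχ.smooth.continuous
  have hκ' : 0 ≤ |κ| := abs_nonneg κ
  have hfb' : ∀ᵐ x ∂(μ.restrict (ball x₀ R)), ‖f x‖ ≤ |κ| * (‖G x‖ + ‖u x‖) + |ψ x| := by
    filter_upwards [hfb] with x hx
    refine hx.trans (add_le_add ?_ (le_abs_self _))
    exact mul_le_mul_of_nonneg_right (le_abs_self _) (by positivity)
  have hHb' : ∀ᵐ x ∂(μ.restrict (ball x₀ R)), ‖H x‖ ≤ |κ| * ‖u x‖ + |ψ x| := by
    filter_upwards [hHb] with x hx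
    refine hx.trans (add_le_add ?_ (le_abs_self _))
    exact mul_le_mul_of_nonneg_right (le_abs_self _) (norm_nonneg _)
  have hu2 : L2Loc μ (ball x₀ R) u := huM.l2Loc
  have hψ2 : L2Loc μ (ball x₀ R) ψ := hψM.l2Loc
  have hf2 : L2Loc μ (ball x₀ R) f := by
    refine cacc_l2Loc_of_le hfm (d := fun x => |κ| * (‖G x‖ + ‖u x‖) + |ψ x|) (fun K' hK' hK'U => ?_) hfb'
    exact (((hG2 K' hK' hK'U).norm.add (hu2 K' hK' hK'U).norm).const_mul |κ|).add (hψ2 K' hK' hK'U).norm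
  have hH2 : L2Loc μ (ball x₀ R) H := by
    refine cacc_l2Loc_of_le hHm (d := fun x => |κ| * ‖u x‖ + |ψ x|) (fun K' hK' hK'U => ?_) hHb'
    exact ((hu2 K' hK' hK'U).norm.const_mul |κ|).add (hψ2 K' hK' hK'U).norm
  have comp := fun α => cacc_component hU hχ hχ01 hΛχ hlam hκ' hδ hM hA hAb hell hu hG2 huM hψM hf2 hH2 hfb' hHb'
    hsol (ℓ α) (hℓ α)
  rw [← hBdef] at comp
  obtain ⟨J, hJ⟩ : ∃ J : ℝ, J = ∫ x in tsupport χ, (χ x) ^ 2 * ‖G x‖ ^ 2 ∂μ := ⟨_, rfl⟩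
  rw [← hJ] at comp
  have hJ0 : 0 ≤ J := by
    rw [hJ]; exact integral_nonneg fun x => mul_nonneg (sq_nonneg _) (sq_nonneg _)
  have iG : IntegrableOn (fun x => (χ x) ^ 2 * ‖G x‖ ^ 2) (tsupport χ) μ :=
    cacc_int_sq_mul hK hcχ hχ01 (MemLp_two_integrable_sq (hG2 _ hK hKU)) fun x => sq_nonneg _
  have iGα : ∀ α, IntegrableOn (fun x => (χ x) ^ 2 * ‖(ℓ α).comp (G x)‖ ^ 2) (tsupport χ) μ := fun α =>
    cacc_int_sq_mul hK hcχ hχ01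
      (MemLp_two_integrable_sq ((hG2.clm (ContinuousLinearMap.compL ℝ E F ℝ (ℓ α))) _ hK hKU)) fun x => sq_nonneg _
  have hJle : J ≤ ce * ∑ α, ∫ x in tsupport χ, (χ x) ^ 2 * ‖(ℓ α).comp (G x)‖ ^ 2 ∂μ := by
    rw [hJ, ← integral_finsetSum _ fun α _ => iGα α, ← integral_const_mul]
    refine integral_mono_ae iG ((integrable_finsetSum _ fun α _ => iGα α).const_mul _)
      (Eventually.of_forall fun x => ?_)
    calc (χ x) ^ 2 * ‖G x‖ ^ 2 ≤ (χ x) ^ 2 * (ce * ∑ α, ‖(ℓ α).comp (G x)‖ ^ 2) :=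
          mul_le_mul_of_nonneg_left (hT (G x)) (sq_nonneg _)
      _ = ce * ∑ α, (χ x) ^ 2 * ‖(ℓ α).comp (G x)‖ ^ 2 := by rw [Finset.mul_sum, Finset.mul_sum, Finset.mul_sum]; exact Finset.sum_congr rfl fun α _ => by ring
  have hsum : lam / 2 * ∑ α, ∫ x in tsupport χ, (χ x) ^ 2 * ‖(ℓ α).comp (G x)‖ ^ 2 ∂μ
      ≤ N * (cℓ ^ 2 * δ * J + B * M ^ 2) := by
    rw [Finset.mul_sum]
    calc ∑ α, lam / 2 * ∫ x in tsupport χ, (χ x) ^ 2 * ‖(ℓ α).comp (G x)‖ ^ 2 ∂μ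
        ≤ ∑ _α : Fin N, (cℓ ^ 2 * δ * J + B * M ^ 2) := Finset.sum_le_sum fun α _ => comp α
      _ = _ := by rw [Finset.sum_const, Finset.card_univ, Fintype.card_fin, nsmul_eq_mul]
  have hfin : J ≤ 4 / lam * (ce * N * B) * M ^ 2 := by
    have h1 : lam / 2 * J ≤ ce * (N * (cℓ ^ 2 * δ * J + B * M ^ 2)) := by
      calc lam / 2 * J ≤ lam / 2 * (ce * ∑ α, ∫ x in tsupport χ, (χ x) ^ 2 * ‖(ℓ α).comp (G x)‖ ^ 2 ∂μ) :=
            mul_le_mul_of_nonneg_left hJle (by positivity)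
        _ = ce * (lam / 2 * ∑ α, ∫ x in tsupport χ, (χ x) ^ 2 * ‖(ℓ α).comp (G x)‖ ^ 2 ∂μ) := by ring
        _ ≤ _ := mul_le_mul_of_nonneg_left hsum hce
    have h2 : ce * N * cℓ ^ 2 * δ * J ≤ lam / 4 * J := mul_le_mul_of_nonneg_right hδ' hJ0
    have h3 : lam / 4 * J ≤ ce * N * B * M ^ 2 := by nlinarith
    have h4 : J = 4 / lam * (lam / 4 * J) := by field_simp
    rw [h4]
    calc 4 / lam * (lam / 4 * J) ≤ 4 / lam * (ce * N * B * M ^ 2) :=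
          mul_le_mul_of_nonneg_left h3 (by positivity)
      _ = _ := by ring
  -- conclusion
  have hsub : ball x₀ r ⊆ tsupport χ := fun x hx =>
    subset_tsupport _ (by
      rw [Function.mem_support, hχ1 x (ball_subset_closedBall hx)]
      exact one_ne_zero)
  rw [l2Le_iff_integral (by positivity)]
  refine ⟨(hG2 _ hK hKU).mono_measure (Measure.restrict_mono hsub le_rfl), ?_⟩
  have e1 : ∫ x in ball x₀ r, ‖G x‖ ^ 2 ∂μ = ∫ x in ball x₀ r, (χ x) ^ 2 * ‖G x‖ ^ 2 ∂μ := by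
    refine setIntegral_congr_fun measurableSet_ball fun x hx => ?_
    simp only [hχ1 x (ball_subset_closedBall hx), one_pow, one_mul]
  have e2 : ∫ x in ball x₀ r, (χ x) ^ 2 * ‖G x‖ ^ 2 ∂μ ≤ J := by
    rw [hJ]
    exact setIntegral_mono_set iG (Eventually.of_forall fun x => mul_nonneg (sq_nonneg _) (sq_nonneg _))
      (LE.le.eventuallyLE hsub)
  rw [e1, mul_pow, Real.sq_sqrt (by positivity)]
  exact e2.trans hfin

end Claimed.Agent.Lib.Sob
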