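import Claimed.Agent.Lib.Sob.Weak
import Claimed.Agent.Lib.Sob.Ck

/-!
# `Lib/Sob/Hk`: toolbox for the predicate `HkLe` (leaf SOB-Hk)

`HkLe μ U 0 u C = L2Le μ U u C`,
`HkLe μ U (k+1) u C = L2Le μ U u C ∧ ∀ v, ‖v‖ ≤ 1 → ∃ g, HasWeakDeriv μ U v u g ∧ HkLe μ U k g C`.
Every proof is an induction on `k` (generalizing the function and the constant) which uses the corresponding statement of
`L2.lean` for the `L²` part and of `Weak.lean` for the weak derivative.  All statements of `L2, Test, Weak, Ck` are black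
boxes.

HINTS
* `weakDeriv`: the `g'` given by the definition agrees a.e. with `g` (`HasWeakDeriv.unique`), then `congr_ae`.
* `weakDeriv'`, `exists_weakDeriv`: rescale `v` (`HasWeakDeriv.smul_dir`); `v = 0` separately.
* `exists_const_fderiv`: take a basis `b` of `E` with `‖b i‖ ≤ 1` (normalise `Module.finBasis ℝ E`); a.e.
  `G x = ∑ i, L i (G x (b i))` with `L i : F →L[ℝ] (E →L[ℝ] F)`, `L i y = (coord i).smulRight y`; this is an identity
  (no a.e.), so `HkLe.sum` + `HkLe.clm` + `HkLe.weakDeriv` give `c = ∑ i ‖L i‖`.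
* `of_fderiv`: `fun x => G x v = (ContinuousLinearMap.apply ℝ F v) ∘ G`, norm `≤ ‖v‖ ≤ 1`.
* `clm_apply`: derivative `(∂_v B) u + B g` (`HasWeakDeriv.clm_apply`), `CkLe.fderiv_apply`, constants `2^k Λ C + 2^k Λ C`.
* `exists_const_dual`: basis of `F`, `u = ∑ i, (coord i ∘ u) • e i`.
* `exists_const_div`: basis `b i` of `E` with dual basis `b^i`: `dφ = ∑ i (dφ (b i)) • b^i`, hence
  `H (dφ) = ∑ i (dφ (b i)) • H (b^i)`, `h := ∑ i ∂_{b i} (H · b^i)`.
Do not change statements; you may add lemmas (prefix `hk_`).  ~600 lines.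
-/

set_option autoImplicit false
set_option maxSynthPendingDepth 6
open scoped ContDiff Topology
open MeasureTheory Set Filter Metric

namespace Claimed.Agent.Lib.Sob

variable {E : Type*} [NormedAddCommGroup E] [NormedSpace ℝ E] [FiniteDimensional ℝ E]
  [MeasurableSpace E] [BorelSpace E]
variable {F : Type*} [NormedAddCommGroup F] [NormedSpace ℝ F] [FiniteDimensional ℝ F]
variable {F' : Type*} [NormedAddCommGroup F'] [NormedSpace ℝ F'] [FiniteDimensional ℝ F']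
variable {μ : Measure E} [μ.IsAddHaarMeasure]
variable {U V : Set E} {v : E} {u u' g : E → F} {C C' C₁ C₂ Λ : ℝ} {k k' : ℕ}

theorem hkLe_zero : HkLe μ U 0 u C ↔ L2Le μ U u C := Iff.rfl

theorem hkLe_succ : HkLe μ U (k + 1) u C ↔ L2Le μ U u C ∧
    ∀ v : E, ‖v‖ ≤ 1 → ∃ g : E → F, HasWeakDeriv μ U v u g ∧ HkLe μ U k g C := Iff.rfl

theorem HkLe.l2Le (h : HkLe μ U k u C) : L2Le μ U u C := by
  cases k with
  | zero => exact h
  | succ k => exact h.1

theorem HkLe.mono (h : HkLe μ U k u C) (hC : C ≤ C') : HkLe μ U k u C' := by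
  induction k generalizing u with
  | zero => exact L2Le.mono h hC
  | succ k ih =>
    refine ⟨h.1.mono hC, fun v hv => ?_⟩
    obtain ⟨g, hg, hk⟩ := h.2 v hv
    exact ⟨g, hg, ih hk⟩

theorem HkLe.mono_set (h : HkLe μ U k u C) (hV : V ⊆ U) : HkLe μ V k u C := by
  induction k generalizing u with
  | zero => exact L2Le.mono_set h hV
  | succ k ih =>
    refine ⟨h.1.mono_set hV, fun v hv => ?_⟩
    obtain ⟨g, hg, hk⟩ := h.2 v hv
    exact ⟨g, hg.mono hV, ih hk⟩

theorem HkLe.mono_order (h : HkLe μ U k u C) (hk : k' ≤ k) : HkLe μ U k' u C := by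
  induction k generalizing u k' with
  | zero =>
    obtain rfl : k' = 0 := Nat.le_zero.1 hk
    exact h
  | succ k ih =>
    cases k' with
    | zero => exact h.1
    | succ j =>
      refine ⟨h.1, fun v hv => ?_⟩
      obtain ⟨g, hg, hk'⟩ := h.2 v hv
      exact ⟨g, hg, ih hk' (Nat.le_of_succ_le_succ hk)⟩

theorem HkLe.congr_ae (hU : IsOpen U) (h : HkLe μ U k u C) (huv : ∀ᵐ x ∂(μ.restrict U), u x = u' x) :
    HkLe μ U k u' C := by
  cases k with
  | zero => exact L2Le.congr_ae h huv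
  | succ k =>
    refine ⟨h.1.congr_ae huv, fun v hv => ?_⟩
    obtain ⟨g, hg, hk⟩ := h.2 v hv
    exact ⟨g, hg.congr_ae hU huv (Filter.Eventually.of_forall fun _ => rfl), hk⟩

theorem hkLe_zero_fun (hC : 0 ≤ C) : HkLe μ U k (fun _ => (0 : F)) C := by
  induction k with
  | zero => exact l2Le_zero hC
  | succ k ih => exact ⟨l2Le_zero hC, fun v _ => ⟨fun _ => 0, hasWeakDeriv_zero, ih⟩⟩

theorem HkLe.add (hU : IsOpen U) (h₁ : HkLe μ U k u C₁) (h₂ : HkLe μ U k u' C₂) (hC₁ : 0 ≤ C₁)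
    (hC₂ : 0 ≤ C₂) : HkLe μ U k (fun x => u x + u' x) (C₁ + C₂) := by
  induction k generalizing u u' with
  | zero => exact L2Le.add h₁ h₂ hC₁ hC₂
  | succ k ih =>
    refine ⟨h₁.1.add h₂.1 hC₁ hC₂, fun v hv => ?_⟩
    obtain ⟨g, hg, hk⟩ := h₁.2 v hv
    obtain ⟨g', hg', hk'⟩ := h₂.2 v hv
    exact ⟨_, hg.add hU hg', ih hk hk'⟩

theorem HkLe.sub (hU : IsOpen U) (h₁ : HkLe μ U k u C₁) (h₂ : HkLe μ U k u' C₂) (hC₁ : 0 ≤ C₁)
    (hC₂ : 0 ≤ C₂) : HkLe μ U k (fun x => u x - u' x) (C₁ + C₂) := by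
  induction k generalizing u u' with
  | zero => exact L2Le.sub h₁ h₂ hC₁ hC₂
  | succ k ih =>
    refine ⟨h₁.1.sub h₂.1 hC₁ hC₂, fun v hv => ?_⟩
    obtain ⟨g, hg, hk⟩ := h₁.2 v hv
    obtain ⟨g', hg', hk'⟩ := h₂.2 v hv
    exact ⟨_, hg.sub hU hg', ih hk hk'⟩

theorem HkLe.neg (h : HkLe μ U k u C) : HkLe μ U k (fun x => - u x) C := by
  induction k generalizing u with
  | zero => exact L2Le.neg h
  | succ k ih =>
    refine ⟨h.1.neg, fun v hv => ?_⟩
    obtain ⟨g, hg, hk⟩ := h.2 v hv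
    exact ⟨_, hg.neg, ih hk⟩

theorem HkLe.const_smul (h : HkLe μ U k u C) (c : ℝ) : HkLe μ U k (fun x => c • u x) (|c| * C) := by
  induction k generalizing u with
  | zero => exact L2Le.const_smul h c
  | succ k ih =>
    refine ⟨h.1.const_smul c, fun v hv => ?_⟩
    obtain ⟨g, hg, hk⟩ := h.2 v hv
    exact ⟨_, hg.const_smul c, ih hk⟩

theorem HkLe.sum (hU : IsOpen U) {ι : Type*} (s : Finset ι) {w : ι → E → F} {D : ι → ℝ}
    (h : ∀ i ∈ s, HkLe μ U k (w i) (D i)) (hD : ∀ i ∈ s, 0 ≤ D i) :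
    HkLe μ U k (fun x => ∑ i ∈ s, w i x) (∑ i ∈ s, D i) := by
  classical
  induction s using Finset.induction_on with
  | empty => simpa using hkLe_zero_fun (μ := μ) (U := U) (F := F) (k := k) (le_refl (0 : ℝ))
  | insert i s hi ih =>
    simp only [Finset.sum_insert hi]
    exact (h i (Finset.mem_insert_self i s)).add hU
      (ih (fun j hj => h j (Finset.mem_insert_of_mem hj)) fun j hj => hD j (Finset.mem_insert_of_mem hj))
      (hD i (Finset.mem_insert_self i s)) (Finset.sum_nonneg fun j hj => hD j (Finset.mem_insert_of_mem hj))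

theorem HkLe.clm (h : HkLe μ U k u C) (L : F →L[ℝ] F') : HkLe μ U k (fun x => L (u x)) (‖L‖ * C) := by
  induction k generalizing u with
  | zero => exact L2Le.clm h L
  | succ k ih =>
    refine ⟨h.1.clm L, fun v hv => ?_⟩
    obtain ⟨g, hg, hk⟩ := h.2 v hv
    exact ⟨_, hg.clm L, ih hk⟩

/-! ### derivatives -/

theorem HkLe.weakDeriv (hU : IsOpen U) (h : HkLe μ U (k + 1) u C) (hv : ‖v‖ ≤ 1)
    (hg : HasWeakDeriv μ U v u g) : HkLe μ U k g C := by
  obtain ⟨g', hg', hk⟩ := h.2 v hv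
  exact hk.congr_ae hU (hg'.unique hU hg)

theorem HkLe.weakDeriv' (hU : IsOpen U) (h : HkLe μ U (k + 1) u C) (hg : HasWeakDeriv μ U v u g) :
    HkLe μ U k g (‖v‖ * C) := by
  by_cases hv : v = 0
  · subst hv
    have h0 : HkLe μ U k (fun _ => (0 : F)) (‖(0 : E)‖ * C) := hkLe_zero_fun (by simp)
    exact h0.congr_ae hU ((hasWeakDeriv_zero_dir hg.1).unique hU hg)
  · have hn : ‖v‖ ≠ 0 := norm_ne_zero_iff.2 hv
    have h1 : HkLe μ U k (fun x => ‖v‖⁻¹ • g x) C :=
      h.weakDeriv hU (by rw [norm_smul, norm_inv, norm_norm, inv_mul_cancel₀ hn]) (hg.smul_dir ‖v‖⁻¹)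
    have h2 := h1.const_smul ‖v‖
    simpa only [smul_smul, mul_inv_cancel₀ hn, one_smul, abs_norm] using h2

theorem HkLe.exists_weakDeriv (h : HkLe μ U (k + 1) u C) (v : E) :
    ∃ g : E → F, HasWeakDeriv μ U v u g ∧ HkLe μ U k g (‖v‖ * C) := by
  by_cases hv : v = 0
  · subst hv
    obtain ⟨g, hg, -⟩ := h.2 0 (by simp)
    exact ⟨fun _ => 0, hasWeakDeriv_zero_dir hg.1, hkLe_zero_fun (by simp)⟩
  · have hn : ‖v‖ ≠ 0 := norm_ne_zero_iff.2 hv
    obtain ⟨g, hg, hk⟩ := h.2 (‖v‖⁻¹ • v) (by rw [norm_smul, norm_inv, norm_norm, inv_mul_cancel₀ hn])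
    refine ⟨fun x => ‖v‖ • g x, ?_, ?_⟩
    · have := hg.smul_dir ‖v‖
      rwa [smul_smul, mul_inv_cancel₀ hn, one_smul] at this
    · simpa only [abs_norm] using hk.const_smul ‖v‖

theorem HkLe.exists_hasWeakFDeriv (hU : IsOpen U) (h : HkLe μ U (k + 1) u C) :
    ∃ G : E → E →L[ℝ] F, HasWeakFDeriv μ U u G := by
  exact Claimed.Agent.Lib.Sob.exists_hasWeakFDeriv hU fun v => by
    obtain ⟨g, hg, -⟩ := h.exists_weakDeriv v
    exact ⟨g, hg⟩

/-- the full weak derivative of an `H^{k+1}` function is `H^k`. -/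
theorem exists_const_fderiv (μ : Measure E) [μ.IsAddHaarMeasure]
    (F : Type*) [NormedAddCommGroup F] [NormedSpace ℝ F] [FiniteDimensional ℝ F] :
    ∃ c : ℝ, 0 ≤ c ∧ ∀ (U : Set E) (k : ℕ) (u : E → F) (G : E → E →L[ℝ] F) (C : ℝ), IsOpen U → 0 ≤ C →
      HkLe μ U (k + 1) u C → HasWeakFDeriv μ U u G → HkLe μ U k G (c * C) := by
  refine ⟨∑ i, ‖(weakL i : F →L[ℝ] E →L[ℝ] F)‖ * ‖Module.finBasis ℝ E i‖,
    Finset.sum_nonneg fun i _ => by positivity, fun U k u G C hU hC h hG => ?_⟩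
  have e : G = fun x => ∑ i, weakL (F := F) i (G x (Module.finBasis ℝ E i)) := by
    funext x
    exact weak_expand (G x)
  rw [e, Finset.sum_mul]
  refine HkLe.sum hU _ (fun i _ => ?_) (fun i _ => by positivity)
  have := (h.weakDeriv' hU (hG (Module.finBasis ℝ E i))).clm (weakL (F := F) i)
  rwa [← mul_assoc] at this

theorem hk_norm_apply_le {X Y : Type*} [NormedAddCommGroup X] [NormedSpace ℝ X] [NormedAddCommGroup Y]
    [NormedSpace ℝ Y] (v : X) : ‖ContinuousLinearMap.apply ℝ Y v‖ ≤ ‖v‖ :=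
  ContinuousLinearMap.opNorm_le_bound _ (norm_nonneg v) fun T => by
    rw [ContinuousLinearMap.apply_apply, mul_comm]
    exact T.le_opNorm v

theorem HkLe.of_fderiv {G : E → E →L[ℝ] F} (hC : 0 ≤ C) (hu : L2Le μ U u C) (hG : HasWeakFDeriv μ U u G)
    (hGk : HkLe μ U k G C) : HkLe μ U (k + 1) u C := by
  refine ⟨hu, fun v hv => ⟨fun x => G x v, hG v, ?_⟩⟩
  refine (hGk.clm (ContinuousLinearMap.apply ℝ F v)).mono ?_
  calc ‖ContinuousLinearMap.apply ℝ F v‖ * C ≤ 1 * C :=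
        mul_le_mul_of_nonneg_right ((hk_norm_apply_le v).trans hv) hC
    _ = C := one_mul C

/-! ### smooth functions -/

theorem hkLe_of_ckLe (hU : IsOpen U) (hμ : μ U ≠ ⊤) (hΛ : 0 ≤ Λ) (h : CkLe U k u Λ) :
    HkLe μ U k u (Λ * Real.sqrt (μ U).toReal) := by
  induction k generalizing u with
  | zero =>
    exact l2Le_of_bound hΛ (aestronglyMeasurable_of_continuousOn hU h.1.continuousOn)
      (ae_restrict_of_forall_mem hU.measurableSet fun x hx => h.bound hx) hμ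
  | succ k ih =>
    refine ⟨l2Le_of_bound hΛ (aestronglyMeasurable_of_continuousOn hU h.1.continuousOn)
      (ae_restrict_of_forall_mem hU.measurableSet fun x hx => h.bound hx) hμ, fun v hv => ?_⟩
    exact ⟨fun x => fderiv ℝ u x v, hasWeakDeriv_of_contDiffOn hU (h.1.of_le (by norm_cast; omega)) v,
      ih (h.fderiv_apply hU hv)⟩

/-! ### products -/

theorem hk_le_pow (hΛ : 0 ≤ Λ) (hC : 0 ≤ C) : Λ * C ≤ 2 ^ k * Λ * C := by
  have h1 : (1 : ℝ) ≤ 2 ^ k := one_le_pow₀ (by norm_num)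
  have h2 : 0 ≤ Λ * C := mul_nonneg hΛ hC
  nlinarith

theorem hk_contDiffOn_fderiv_apply (hU : IsOpen U) {B : E → F} (hB : ContDiffOn ℝ ∞ B U) (v : E) :
    ContDiffOn ℝ ∞ (fun x => fderiv ℝ B x v) U :=
  (hB.fderiv_of_isOpen hU (m := ∞) (by simp)).clm_apply contDiffOn_const

theorem hk_l2Le_univ (hU : MeasurableSet U) (h : L2Le μ U u C) (h0 : ∀ x ∉ U, u x = 0) : L2Le μ univ u C := by
  have e : U.indicator u = u := by
    funext x
    by_cases hx : x ∈ U
    · rw [indicator_of_mem hx]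
    · rw [indicator_of_notMem hx, h0 x hx]
  unfold L2Le
  rw [Measure.restrict_univ, ← e]
  exact ⟨(memLp_indicator_iff_restrict hU).2 h.1, by rw [eLpNorm_indicator_eq_eLpNorm_restrict hU]; exact h.2⟩

theorem HkLe.clm_apply (hU : IsOpen U) (h : HkLe μ U k u C) {B : E → F →L[ℝ] F'}
    (hB : ContDiffOn ℝ ∞ B U) (hBk : CkLe U k B Λ) (hΛ : 0 ≤ Λ) (hC : 0 ≤ C) :
    HkLe μ U k (fun x => B x (u x)) (2 ^ k * Λ * C) := by
  induction k generalizing u B with
  | zero =>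
    have := L2Le.clm_apply (B := B) h hΛ (aestronglyMeasurable_of_continuousOn hU hB.continuousOn)
      (ae_restrict_of_forall_mem hU.measurableSet fun x hx => hBk.bound hx)
    refine hkLe_zero.2 ?_
    simpa using this
  | succ k ih =>
    have h0 := L2Le.clm_apply (B := B) h.1 hΛ (aestronglyMeasurable_of_continuousOn hU hB.continuousOn)
      (ae_restrict_of_forall_mem hU.measurableSet fun x hx => hBk.bound hx)
    refine ⟨h0.mono (hk_le_pow hΛ hC), fun v hv => ?_⟩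
    obtain ⟨g, hg, hk⟩ := h.2 v hv
    refine ⟨_, hg.clm_apply hU hB, ?_⟩
    have a1 := ih (HkLe.mono_order h (Nat.le_succ k)) (hk_contDiffOn_fderiv_apply hU hB v)
      (hBk.fderiv_apply hU hv)
    have a2 := ih hk hB (hBk.mono_order (Nat.le_succ k))
    have a3 := a1.add hU a2 (by positivity) (by positivity)
    have e : 2 ^ k * Λ * C + 2 ^ k * Λ * C = 2 ^ (k + 1) * Λ * C := by ring
    rwa [e] at a3

theorem HkLe.clm_apply_univ (hU : IsOpen U) (h : HkLe μ U k u C) {B : E → F →L[ℝ] F'}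
    (hB : IsTestV U B) (hBk : CkLe univ k B Λ) (hΛ : 0 ≤ Λ) (hC : 0 ≤ C) :
    HkLe μ univ k (fun x => B x (u x)) (2 ^ k * Λ * C) := by
  induction k generalizing u B with
  | zero =>
    have h0 := L2Le.clm_apply (B := B) h hΛ hB.smooth.continuous.aestronglyMeasurable
      (Filter.Eventually.of_forall fun x => hBk.bound (mem_univ x))
    have := hk_l2Le_univ hU.measurableSet h0 fun x hx => by
      rw [hB.eq_zero_of_notMem hx, ContinuousLinearMap.zero_apply]
    refine hkLe_zero.2 ?_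
    simpa using this
  | succ k ih =>
    have h0 := L2Le.clm_apply (B := B) h.1 hΛ hB.smooth.continuous.aestronglyMeasurable
      (Filter.Eventually.of_forall fun x => hBk.bound (mem_univ x))
    have h1 := hk_l2Le_univ hU.measurableSet h0 fun x hx => by
      rw [hB.eq_zero_of_notMem hx, ContinuousLinearMap.zero_apply]
    refine ⟨h1.mono (hk_le_pow hΛ hC), fun v hv => ?_⟩
    obtain ⟨g, hg, hk⟩ := h.2 v hv
    refine ⟨_, hg.clm_apply_univ hU hB, ?_⟩
    have a1 := ih (HkLe.mono_order h (Nat.le_succ k)) (hB.fderiv_apply v) (hBk.fderiv_apply isOpen_univ hv)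
    have a2 := ih hk hB (hBk.mono_order (Nat.le_succ k))
    have a3 := a1.add isOpen_univ a2 (by positivity) (by positivity)
    have e : 2 ^ k * Λ * C + 2 ^ k * Λ * C = 2 ^ (k + 1) * Λ * C := by ring
    rwa [e] at a3

/-- `c ↦ c • id`. -/
noncomputable def hkS : ℝ →L[ℝ] F →L[ℝ] F :=
  (ContinuousLinearMap.id ℝ ℝ).smulRight (ContinuousLinearMap.id ℝ F)

theorem hkS_apply (c : ℝ) (y : F) : hkS c y = c • y := rfl

theorem hk_norm_S_le : ‖(hkS : ℝ →L[ℝ] F →L[ℝ] F)‖ ≤ 1 := by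
  unfold hkS
  rw [ContinuousLinearMap.norm_smulRight_apply]
  calc ‖ContinuousLinearMap.id ℝ ℝ‖ * ‖ContinuousLinearMap.id ℝ F‖ ≤ 1 * 1 :=
        mul_le_mul ContinuousLinearMap.norm_id_le ContinuousLinearMap.norm_id_le (norm_nonneg _) zero_le_one
    _ = 1 := one_mul 1

theorem HkLe.smul_smooth (hU : IsOpen U) (h : HkLe μ U k u C) {χ : E → ℝ}
    (hχ : ContDiffOn ℝ ∞ χ U) (hχk : CkLe U k χ Λ) (hΛ : 0 ≤ Λ) (hC : 0 ≤ C) :
    HkLe μ U k (fun x => χ x • u x) (2 ^ k * Λ * C) := by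
  have hB : ContDiffOn ℝ ∞ (fun x => hkS (F := F) (χ x)) U := (hkS (F := F)).contDiff.comp_contDiffOn hχ
  have hBk : CkLe U k (fun x => hkS (F := F) (χ x)) Λ :=
    (hχk.clm hU (hkS (F := F))).mono (by
      calc ‖hkS (F := F)‖ * Λ ≤ 1 * Λ := mul_le_mul_of_nonneg_right hk_norm_S_le hΛ
        _ = Λ := one_mul Λ)
  exact h.clm_apply hU hB hBk hΛ hC

theorem HkLe.smul_test_univ (hU : IsOpen U) (h : HkLe μ U k u C) {χ : E → ℝ}
    (hχ : IsTest U χ) (hχk : CkLe univ k χ Λ) (hΛ : 0 ≤ Λ) (hC : 0 ≤ C) :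
    HkLe μ univ k (fun x => χ x • u x) (2 ^ k * Λ * C) := by
  have hB : IsTestV U (fun x => hkS (F := F) (χ x)) := (isTest_iff_isTestV.1 hχ).clm (hkS (F := F))
  have hBk : CkLe univ k (fun x => hkS (F := F) (χ x)) Λ :=
    (hχk.clm isOpen_univ (hkS (F := F))).mono (by
      calc ‖hkS (F := F)‖ * Λ ≤ 1 * Λ := mul_le_mul_of_nonneg_right hk_norm_S_le hΛ
        _ = Λ := one_mul Λ)
  exact h.clm_apply_univ hU hB hBk hΛ hC

/-- operator valued `H^k` function applied to a smooth vector valued function. -/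
theorem HkLe.apply_smooth (hU : IsOpen U) {T : E → F →L[ℝ] F'} (h : HkLe μ U k T C) {w : E → F}
    (hw : ContDiffOn ℝ ∞ w U) (hwk : CkLe U k w Λ) (hΛ : 0 ≤ Λ) (hC : 0 ≤ C) :
    HkLe μ U k (fun x => T x (w x)) (2 ^ k * Λ * C) := by
  have hn : ‖ContinuousLinearMap.apply ℝ F' (E := F)‖ ≤ 1 :=
    ContinuousLinearMap.opNorm_le_bound _ zero_le_one fun y => by
      rw [one_mul]; exact hk_norm_apply_le y
  have hB : ContDiffOn ℝ ∞ (fun x => ContinuousLinearMap.apply ℝ F' (w x)) U :=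
    (ContinuousLinearMap.apply ℝ F' (E := F)).contDiff.comp_contDiffOn hw
  have hBk : CkLe U k (fun x => ContinuousLinearMap.apply ℝ F' (w x)) Λ :=
    (hwk.clm hU (ContinuousLinearMap.apply ℝ F')).mono (by
      calc _ ≤ 1 * Λ := mul_le_mul_of_nonneg_right hn hΛ
        _ = Λ := one_mul Λ)
  exact h.clm_apply hU hB hBk hΛ hC

/-- operator valued `H^k` function composed with a smooth operator valued function. -/
theorem HkLe.comp_smooth {F'' : Type*} [NormedAddCommGroup F''] [NormedSpace ℝ F''] [FiniteDimensional ℝ F'']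
    (hU : IsOpen U) {T : E → F' →L[ℝ] F''} (h : HkLe μ U k T C) {S : E → F →L[ℝ] F'}
    (hS : ContDiffOn ℝ ∞ S U) (hSk : CkLe U k S Λ) (hΛ : 0 ≤ Λ) (hC : 0 ≤ C) :
    HkLe μ U k (fun x => (T x).comp (S x)) (2 ^ k * Λ * C) := by
  have hn : ‖(ContinuousLinearMap.compL ℝ F F' F'').flip‖ ≤ 1 := by
    rw [ContinuousLinearMap.opNorm_flip]
    exact ContinuousLinearMap.norm_compL_le ℝ F F' F''
  have hB : ContDiffOn ℝ ∞ (fun x => (ContinuousLinearMap.compL ℝ F F' F'').flip (S x)) U :=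
    ((ContinuousLinearMap.compL ℝ F F' F'').flip).contDiff.comp_contDiffOn hS
  have hBk : CkLe U k (fun x => (ContinuousLinearMap.compL ℝ F F' F'').flip (S x)) Λ :=
    (hSk.clm hU _).mono (by
      calc _ ≤ 1 * Λ := mul_le_mul_of_nonneg_right hn hΛ
        _ = Λ := one_mul Λ)
  exact h.clm_apply hU hB hBk hΛ hC

/-! ### translations -/

theorem hk_l2Le_translate (h : L2Le μ univ u C) (a : E) : L2Le μ univ (fun x => u (x + a)) C := by
  unfold L2Le at h ⊢
  rw [Measure.restrict_univ] at h ⊢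
  have hmp := measurePreserving_add_right μ a
  refine ⟨h.1.comp_measurePreserving hmp, ?_⟩
  have := eLpNorm_comp_measurePreserving (p := 2) h.1.aestronglyMeasurable hmp
  rw [show (fun x => u (x + a)) = u ∘ (fun x => x + a) from rfl, this]
  exact h.2

theorem HkLe.translate (h : HkLe μ univ k u C) (a : E) : HkLe μ univ k (fun x => u (x + a)) C := by
  induction k generalizing u with
  | zero => exact hk_l2Le_translate h a
  | succ k ih =>
    refine ⟨hk_l2Le_translate h.1 a, fun v hv => ?_⟩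
    obtain ⟨g, hg, hk⟩ := h.2 v hv
    exact ⟨_, hg.translate a, ih hk⟩

/-! ### components -/

theorem hk_dual_scale (hC : 0 ≤ C) (h : ∀ ℓ : F →L[ℝ] ℝ, ‖ℓ‖ ≤ 1 → HkLe μ U k (fun x => ℓ (u x)) C)
    (ℓ : F →L[ℝ] ℝ) : HkLe μ U k (fun x => ℓ (u x)) (‖ℓ‖ * C) := by
  by_cases hℓ : ℓ = 0
  · subst hℓ
    simpa using hkLe_zero_fun (μ := μ) (U := U) (F := ℝ) (k := k) (le_refl (0 : ℝ))
  · have hn : ‖ℓ‖ ≠ 0 := norm_ne_zero_iff.2 hℓ
    have h1 := (h (‖ℓ‖⁻¹ • ℓ) (by rw [norm_smul, norm_inv, norm_norm, inv_mul_cancel₀ hn])).const_smul ‖ℓ‖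
    simpa only [ContinuousLinearMap.smul_apply, smul_smul, mul_inv_cancel₀ hn, one_smul, abs_norm] using h1

theorem exists_const_dual (μ : Measure E) [μ.IsAddHaarMeasure]
    (F : Type*) [NormedAddCommGroup F] [NormedSpace ℝ F] [FiniteDimensional ℝ F] :
    ∃ c : ℝ, 0 ≤ c ∧ ∀ (U : Set E) (k : ℕ) (u : E → F) (C : ℝ), IsOpen U → 0 ≤ C →
      (∀ ℓ : F →L[ℝ] ℝ, ‖ℓ‖ ≤ 1 → HkLe μ U k (fun x => ℓ (u x)) C) → HkLe μ U k u (c * C) := by
  classical
  set b := Module.finBasis ℝ F with hb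
  set ℓ : Fin (Module.finrank ℝ F) → F →L[ℝ] ℝ := fun i => LinearMap.toContinuousLinearMap (b.coord i) with hℓ
  refine ⟨∑ i, ‖ContinuousLinearMap.toSpanSingleton ℝ (b i)‖ * ‖ℓ i‖,
    Finset.sum_nonneg fun i _ => by positivity, fun U k u C hU hC h => ?_⟩
  have e : u = fun x => ∑ i, ContinuousLinearMap.toSpanSingleton ℝ (b i) (ℓ i (u x)) := by
    funext x
    simp only [ContinuousLinearMap.toSpanSingleton_apply]
    exact (b.sum_repr (u x)).symm
  rw [e, Finset.sum_mul]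
  refine HkLe.sum hU _ (fun i _ => ?_) (fun i _ => by positivity)
  have := (hk_dual_scale hC h (ℓ i)).clm (ContinuousLinearMap.toSpanSingleton ℝ (b i))
  rwa [← mul_assoc] at this

/-! ### divergence -/

/-- an `H^{k+1}` field `H` has a weak divergence `h ∈ H^k`: `∫ H (dφ) = - ∫ φ h`. -/
theorem exists_const_div (μ : Measure E) [μ.IsAddHaarMeasure]
    (F : Type*) [NormedAddCommGroup F] [NormedSpace ℝ F] [FiniteDimensional ℝ F] :
    ∃ c : ℝ, 0 ≤ c ∧ ∀ (U : Set E) (k : ℕ) (H : E → (E →L[ℝ] ℝ) →L[ℝ] F) (C : ℝ), IsOpen U → 0 ≤ C →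
      HkLe μ U (k + 1) H C → ∃ h : E → F, HkLe μ U k h (c * C) ∧
        ∀ φ : E → ℝ, IsTest U φ → ∫ x, H x (fderiv ℝ φ x) ∂μ = - ∫ x, φ x • h x ∂μ := by
  refine ⟨∑ i, ‖Module.finBasis ℝ E i‖ * ‖ContinuousLinearMap.apply ℝ F (weakCoord (E := E) i)‖,
    Finset.sum_nonneg fun i _ => by positivity, fun U k H C hU hC h => ?_⟩
  have hw : ∀ i, HkLe μ U (k + 1) (fun x => H x (weakCoord i))
      (‖ContinuousLinearMap.apply ℝ F (weakCoord (E := E) i)‖ * C) := fun i =>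
    h.clm (ContinuousLinearMap.apply ℝ F (weakCoord i))
  choose γ hγ hγk using fun i => (hw i).exists_weakDeriv (Module.finBasis ℝ E i)
  refine ⟨fun x => ∑ i, γ i x, ?_, fun φ hφ => ?_⟩
  · rw [Finset.sum_mul]
    refine HkLe.sum hU _ (fun i _ => ?_) (fun i _ => by positivity)
    have := hγk i
    rwa [← mul_assoc] at this
  · have e : ∀ x, H x (fderiv ℝ φ x) = ∑ i, (fderiv ℝ φ x (Module.finBasis ℝ E i)) • H x (weakCoord i) := by
      intro x
      have e1 : fderiv ℝ φ x = ∑ i, (fderiv ℝ φ x (Module.finBasis ℝ E i)) • weakCoord i := by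
        ext v
        conv_lhs => rw [← weak_sum_coord v]
        simp only [map_sum, map_smul, ContinuousLinearMap.sum_apply, ContinuousLinearMap.smul_apply,
          smul_eq_mul, mul_comm]
      conv_lhs => rw [e1]
      simp only [map_sum, map_smul]
    simp only [e, Finset.smul_sum]
    rw [integral_finsetSum _ fun i _ => weak_integrable_fderiv_smul hφ (hγ i).1 _,
      integral_finsetSum _ fun i _ => weak_integrable_smul hφ (hγ i).2.1, ← Finset.sum_neg_distrib]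
    exact Finset.sum_congr rfl fun i _ => (hγ i).2.2 φ hφ

end Claimed.Agent.Lib.Sob
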