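import Claimed.Agent.Lib.Sob.Riesz
import Claimed.Agent.Lib.Sob.Hk

/-!
# `Lib/Sob/DQ`: difference quotients on the whole space (leaf SOB-DQ)

`dq h e u x = h⁻¹ • (u (x + h • e) - u x)`.  All statements of `L2, Test, Weak, Hk, Riesz` are black boxes.

PLAN
* algebra: unfold `dq`.
* `HasWeakDeriv.hasWeakDeriv_dq`: `HasWeakDeriv.translate`, `.sub`, `.const_smul`.
* `integral_smul_dq` (discrete integration by parts): `integral_add_right_eq_self` for `x ↦ φ (x - h•e) • u x`.
* `l2n_dq_test_le`: `dq h e φ x = ∫ t in 0..1, dφ (x + (t h) • e) e` (fundamental theorem along the segment,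
  `intervalIntegral.integral_eq_sub_of_hasDerivAt`), then Jensen/Cauchy-Schwarz in `t`, Tonelli, translation invariance.
* `tendsto_integral_dq_test`: `dq h e φ → dφ e` uniformly as `h → 0` (second derivative bounded: `IsTest.exists_ckLe`), all
  supports in a fixed compact set for `|h| ≤ 1`; dominated convergence against the locally integrable `u`.
* `exists_weakDeriv_of_dq_bound`: for a test `φ`,
  `∫ (dφ e) • u = lim_{h→0+} ∫ dq (-h) e φ • u = - lim ∫ φ • dq h e u`, and `|∫ φ • dq h e u| ≤ K ‖φ‖₂`; conclude with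
  `exists_weakDeriv_of_bound` / `exists_const_weakDeriv_of_bound`.
~550 lines.  Statements verbatim; you may add lemmas (prefix `dq_`).
-/

set_option autoImplicit false
set_option maxSynthPendingDepth 6
set_option linter.unusedSectionVars false
open scoped ContDiff Topology
open MeasureTheory Set Filter Metric

namespace Claimed.Agent.Lib.Sob

variable {E : Type*} [NormedAddCommGroup E] [NormedSpace ℝ E] [FiniteDimensional ℝ E]
  [MeasurableSpace E] [BorelSpace E]
variable {F : Type*} [NormedAddCommGroup F] [NormedSpace ℝ F] [FiniteDimensional ℝ F]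
variable {F' : Type*} [NormedAddCommGroup F'] [NormedSpace ℝ F'] [FiniteDimensional ℝ F']
variable {μ : Measure E} [μ.IsAddHaarMeasure]
variable {u u' g : E → F} {v : E} {C : ℝ}

/-! ### algebra -/

theorem dq_add (h : ℝ) (e : E) (u u' : E → F) (x : E) :
    dq h e (fun y => u y + u' y) x = dq h e u x + dq h e u' x := by
  simp only [dq]
  rw [← smul_add]
  congr 1
  abel

theorem dq_sub (h : ℝ) (e : E) (u u' : E → F) (x : E) :
    dq h e (fun y => u y - u' y) x = dq h e u x - dq h e u' x := by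
  simp only [dq]
  rw [← smul_sub]
  congr 1
  abel

theorem dq_const_smul (h : ℝ) (e : E) (c : ℝ) (u : E → F) (x : E) :
    dq h e (fun y => c • u y) x = c • dq h e u x := by
  simp only [dq]
  rw [← smul_sub, smul_comm]

theorem dq_clm (h : ℝ) (e : E) (L : F →L[ℝ] F') (u : E → F) (x : E) :
    dq h e (fun y => L (u y)) x = L (dq h e u x) := by
  simp only [dq, map_smul, map_sub]

/-- product rule. -/
theorem dq_clm_apply (h : ℝ) (e : E) (T : E → F →L[ℝ] F') (u : E → F) (x : E) :
    dq h e (fun y => T y (u y)) x = (dq h e T x) (u x) + T (x + h • e) (dq h e u x) := by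
  simp only [dq, map_smul, map_sub, FunLike.coe_smul, Pi.smul_apply, sub_apply]
  rw [← smul_add]
  congr 1
  abel

theorem dq_apply (h : ℝ) (e : E) (T : E → F →L[ℝ] F') (y : F) (x : E) :
    dq h e (fun z => T z y) x = dq h e T x y := by
  simp only [dq, FunLike.coe_smul, Pi.smul_apply, sub_apply]

theorem dq_eq_zero_of {K : Set E} (hu : ∀ x ∉ K, u x = 0) (h : ℝ) (e : E) {x : E} (hx : x ∉ K)
    (hx' : x + h • e ∉ K) : dq h e u x = 0 := by
  simp only [dq, hu x hx, hu _ hx', sub_zero, smul_zero]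

theorem exists_compact_dq {K : Set E} (hK : IsCompact K) (h : ℝ) (e : E) :
    ∃ K' : Set E, IsCompact K' ∧ ∀ u : E → F, (∀ x ∉ K, u x = 0) → ∀ x ∉ K', dq h e u x = 0 := by
  refine ⟨K ∪ (fun x => x - h • e) '' K, hK.union (hK.image (by fun_prop)), ?_⟩
  intro u hu x hx
  rw [mem_union, not_or] at hx
  refine dq_eq_zero_of hu h e hx.1 fun hx' => hx.2 ⟨x + h • e, hx', by simp⟩

/-- difference quotients of a Lipschitz coefficient are bounded. -/
theorem norm_dq_le_of_ckLe {B : E → F} {Λ : ℝ} (hB : CkLe univ 1 B Λ) {h : ℝ} (hh : h ≠ 0) {e : E}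
    (he : ‖e‖ ≤ 1) (hΛ : 0 ≤ Λ) (x : E) : ‖dq h e B x‖ ≤ Λ := by
  have h1 := hB.norm_sub_le (x + h • e) x
  rw [add_sub_cancel_left, norm_smul, Real.norm_eq_abs] at h1
  have hh' : 0 < |h| := abs_pos.2 hh
  simp only [dq]
  rw [norm_smul, norm_inv, Real.norm_eq_abs, inv_mul_le_iff₀ hh']
  calc ‖B (x + h • e) - B x‖ ≤ Λ * (|h| * ‖e‖) := h1
    _ ≤ Λ * (|h| * 1) := by gcongr
    _ = |h| * Λ := by ring

/-! ### `L²` and weak derivatives -/

theorem memLp_translate (hu : MemLp u 2 μ) (a : E) : MemLp (fun x => u (x + a)) 2 μ :=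
  hu.comp_measurePreserving (measurePreserving_add_right μ a)

theorem dq_memLp (hu : MemLp u 2 μ) (h : ℝ) (e : E) : MemLp (dq h e u) 2 μ :=
  ((memLp_translate hu (h • e)).sub hu).const_smul h⁻¹

theorem L2Le.translate (hu : L2Le μ univ u C) (a : E) : L2Le μ univ (fun x => u (x + a)) C := by
  unfold L2Le at hu ⊢
  rw [Measure.restrict_univ] at hu ⊢
  refine ⟨memLp_translate hu.1 a, ?_⟩
  have := eLpNorm_comp_measurePreserving (p := 2) hu.1.aestronglyMeasurable
    (measurePreserving_add_right μ a)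
  rw [Function.comp_def] at this
  rw [this]
  exact hu.2

theorem HasWeakDeriv.hasWeakDeriv_dq (hu : HasWeakDeriv μ univ v u g) (h : ℝ) (e : E) :
    HasWeakDeriv μ univ v (dq h e u) (dq h e g) :=
  (((hu.translate (h • e)).sub isOpen_univ hu).const_smul h⁻¹)

theorem HasWeakFDeriv.hasWeakFDeriv_dq {G : E → E →L[ℝ] F} (hu : HasWeakFDeriv μ univ u G) (h : ℝ) (e : E) :
    HasWeakFDeriv μ univ (dq h e u) (dq h e G) := by
  intro v
  have h1 := (hu v).hasWeakDeriv_dq h e
  have e1 : dq h e (fun x => G x v) = fun x => dq h e G x v := by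
    funext x
    exact dq_apply h e G v x
  rw [e1] at h1
  exact h1

theorem dq_integrable_smul {φ : E → ℝ} (hφ : MemLp φ 2 μ) (hu : MemLp u 2 μ) :
    Integrable (fun x => φ x • u x) μ := by
  have h1 : L2Le μ univ φ _ := l2Le_l2n (by rwa [Measure.restrict_univ])
  have h2 : L2Le μ univ u _ := l2Le_l2n (by rwa [Measure.restrict_univ])
  exact integrableOn_univ.1 (h1.integrableOn_smul h2)

/-- discrete integration by parts. -/
theorem integral_smul_dq {φ : E → ℝ} (hφ : MemLp φ 2 μ) (hu : MemLp u 2 μ) (h : ℝ) (e : E) :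
    ∫ x, φ x • dq h e u x ∂μ = - ∫ x, dq (-h) e φ x • u x ∂μ := by
  have i1 := dq_integrable_smul hφ (memLp_translate hu (h • e))
  have i2 := dq_integrable_smul hφ hu
  have i3 := dq_integrable_smul (memLp_translate hφ ((-h) • e)) hu
  have e1 : ∫ x, φ x • dq h e u x ∂μ
      = h⁻¹ • ((∫ x, φ x • u (x + h • e) ∂μ) - ∫ x, φ x • u x ∂μ) := by
    rw [← integral_sub i1 i2, ← integral_smul]
    refine integral_congr_ae (ae_of_all _ fun x => ?_)
    simp only [dq]
    rw [smul_comm, smul_sub]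
  have e2 : ∫ x, dq (-h) e φ x • u x ∂μ
      = (-h)⁻¹ • ((∫ x, φ (x + (-h) • e) • u x ∂μ) - ∫ x, φ x • u x ∂μ) := by
    rw [← integral_sub i3 i2, ← integral_smul]
    refine integral_congr_ae (ae_of_all _ fun x => ?_)
    simp only [dq, smul_eq_mul]
    rw [mul_smul, sub_smul]
  have e3 : ∫ x, φ (x + (-h) • e) • u x ∂μ = ∫ x, φ x • u (x + h • e) ∂μ := by
    rw [← integral_add_right_eq_self (fun x => φ (x + (-h) • e) • u x) (h • e)]
    refine integral_congr_ae (ae_of_all _ fun x => ?_)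
    simp only
    congr 2
    rw [neg_smul]; abel
  rw [e1, e2, e3, inv_neg, neg_smul, neg_neg]

theorem l2n_fderiv_apply_le {φ : E → ℝ} (hφ : IsTest univ φ) {e : E} (he : ‖e‖ ≤ 1) :
    l2n μ univ (fun x => fderiv ℝ φ x e) ≤ l2n μ univ (fderiv ℝ φ) := by
  unfold l2n
  refine ENNReal.toReal_mono ((hφ.memLp_fderiv 2).restrict univ).eLpNorm_ne_top ?_
  refine eLpNorm_mono fun x => ?_
  calc ‖fderiv ℝ φ x e‖ ≤ ‖fderiv ℝ φ x‖ * ‖e‖ := (fderiv ℝ φ x).le_opNorm e
    _ ≤ ‖fderiv ℝ φ x‖ * 1 := by gcongr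
    _ = ‖fderiv ℝ φ x‖ := mul_one _

theorem dq_test_eq_integral {φ : E → ℝ} (hφ : IsTest univ φ) {h : ℝ} (hh : h ≠ 0) (e x : E) :
    dq h e φ x = ∫ t in (0 : ℝ)..1, fderiv ℝ φ (x + (t * h) • e) e := by
  have hd : Differentiable ℝ φ := hφ.smooth.differentiable (by simp)
  have hderiv : ∀ t : ℝ, HasDerivAt (fun t : ℝ => φ (x + (t * h) • e))
      (h * fderiv ℝ φ (x + (t * h) • e) e) t := by
    intro t
    have h1 : HasDerivAt (fun t : ℝ => x + (t * h) • e) (h • e) t := by
      have := (((hasDerivAt_id t).mul_const h).smul_const e).const_add x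
      simpa using this
    have h2 : HasDerivAt (fun t : ℝ => φ (x + (t * h) • e))
        (fderiv ℝ φ (x + (t * h) • e) (h • e)) t :=
      (hd (x + (t * h) • e)).hasFDerivAt.comp_hasDerivAt t h1
    rw [map_smul, smul_eq_mul] at h2
    exact h2
  have hψc : Continuous (fun y => fderiv ℝ φ y e) := (hφ.fderiv_apply e).smooth.continuous
  have hcont : Continuous (fun t : ℝ => h * fderiv ℝ φ (x + (t * h) • e) e) :=
    continuous_const.mul (hψc.comp (by fun_prop))
  have hftc := intervalIntegral.integral_eq_sub_of_hasDerivAt (a := 0) (b := 1)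
    (fun t _ => hderiv t) (hcont.intervalIntegrable _ _)
  rw [intervalIntegral.integral_const_mul] at hftc
  simp only [one_mul, zero_mul, zero_smul, add_zero] at hftc
  simp only [dq]
  rw [← hftc, smul_eq_mul, ← mul_assoc, inv_mul_cancel₀ hh, one_mul]

theorem dq_sq_intervalIntegral_le {f : ℝ → ℝ} (hf : Continuous f) :
    (∫ t in (0 : ℝ)..1, f t) ^ 2 ≤ ∫ t in (0 : ℝ)..1, f t ^ 2 := by
  set c := ∫ t in (0 : ℝ)..1, f t with hc
  have h0 : 0 ≤ ∫ t in (0 : ℝ)..1, (f t - c) ^ 2 :=
    intervalIntegral.integral_nonneg (by norm_num) (fun t _ => sq_nonneg _)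
  have e : ∫ t in (0 : ℝ)..1, (f t - c) ^ 2 = (∫ t in (0 : ℝ)..1, f t ^ 2) - 2 * c * c + c ^ 2 := by
    have h1 : ∀ t, (f t - c) ^ 2 = f t ^ 2 - 2 * c * f t + c ^ 2 := fun t => by ring
    simp_rw [h1]
    have i1 : IntervalIntegrable (fun t => f t ^ 2) volume 0 1 := (hf.pow 2).intervalIntegrable _ _
    have i2 : IntervalIntegrable (fun t => 2 * c * f t) volume 0 1 :=
      (continuous_const.mul hf).intervalIntegrable _ _
    rw [intervalIntegral.integral_add (i1.sub i2) intervalIntegrable_const,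
      intervalIntegral.integral_sub i1 i2, intervalIntegral.integral_const_mul,
      intervalIntegral.integral_const, ← hc]
    simp
  nlinarith

theorem l2n_dq_test_le {φ : E → ℝ} (hφ : IsTest univ φ) {h : ℝ} (hh : h ≠ 0) (e : E) :
    l2n μ univ (dq h e φ) ≤ l2n μ univ (fun x => fderiv ℝ φ x e) := by
  set ψ : E → ℝ := fun x => fderiv ℝ φ x e with hψ
  have hψT : IsTest univ ψ := hφ.fderiv_apply e
  have hψc : Continuous ψ := hψT.smooth.continuous
  unfold l2n
  rw [Measure.restrict_univ]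
  refine ENNReal.toReal_mono (hψT.memLp 2).eLpNorm_ne_top ?_
  rw [eLpNorm_eq_lintegral_rpow_enorm_toReal (by norm_num) (by norm_num),
    eLpNorm_eq_lintegral_rpow_enorm_toReal (by norm_num) (by norm_num)]
  refine ENNReal.rpow_le_rpow ?_ (by positivity)
  simp only [ENNReal.toReal_ofNat]
  have hsq : ∀ a : ℝ, ‖a‖ₑ ^ (2 : ℝ) = ENNReal.ofReal (a ^ 2) := by
    intro a
    rw [Real.enorm_eq_ofReal_abs, ENNReal.ofReal_rpow_of_nonneg (abs_nonneg _) (by norm_num)]
    congr 1
    rw [Real.rpow_two, sq_abs]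
  simp_rw [hsq]
  calc ∫⁻ x, ENNReal.ofReal (dq h e φ x ^ 2) ∂μ
      ≤ ∫⁻ x, (∫⁻ t in Ioc (0 : ℝ) 1, ENNReal.ofReal (ψ (x + (t * h) • e) ^ 2)) ∂μ := by
        refine lintegral_mono fun x => ?_
        rw [dq_test_eq_integral hφ hh e x]
        have hc : Continuous fun t : ℝ => ψ (x + (t * h) • e) := hψc.comp (by fun_prop)
        refine (ENNReal.ofReal_le_ofReal (dq_sq_intervalIntegral_le hc)).trans (le_of_eq ?_)
        rw [intervalIntegral.integral_of_le zero_le_one, ofReal_integral_eq_lintegral_ofReal]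
        · exact ((hc.pow 2).integrableOn_Icc).mono_set Ioc_subset_Icc_self
        · exact ae_of_all _ fun t => sq_nonneg _
    _ = ∫⁻ t in Ioc (0 : ℝ) 1, ∫⁻ x, ENNReal.ofReal (ψ (x + (t * h) • e) ^ 2) ∂μ := by
        rw [lintegral_lintegral_swap]
        have hc : Continuous fun p : E × ℝ => ψ (p.1 + (p.2 * h) • e) ^ 2 :=
          (hψc.comp (by fun_prop)).pow 2
        exact hc.measurable.ennreal_ofReal.aemeasurable
    _ = ∫⁻ _t in Ioc (0 : ℝ) 1, ∫⁻ x, ENNReal.ofReal (ψ x ^ 2) ∂μ := by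
        refine lintegral_congr fun t => ?_
        exact lintegral_add_right_eq_self (fun x => ENNReal.ofReal (ψ x ^ 2)) ((t * h) • e)
    _ = ∫⁻ x, ENNReal.ofReal (ψ x ^ 2) ∂μ := by
        rw [lintegral_const]; simp

theorem tendsto_integral_dq_test {φ : E → ℝ} (hφ : IsTest univ φ) (hu : LocallyIntegrable u μ) (e : E) :
    Tendsto (fun h : ℝ => ∫ x, dq h e φ x • u x ∂μ) (𝓝[≠] 0) (𝓝 (∫ x, (fderiv ℝ φ x e) • u x ∂μ)) := by
  obtain ⟨Λ, hΛ, hck⟩ := hφ.exists_ckLe 1
  set K' : Set E := cthickening ‖e‖ (tsupport φ) with hK'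
  have hK'c : IsCompact K' := hφ.compact.cthickening
  have hφc : Continuous φ := hφ.smooth.continuous
  have hd : Differentiable ℝ φ := hφ.smooth.differentiable (by simp)
  refine tendsto_integral_filter_of_dominated_convergence
    (K'.indicator fun x => Λ * ‖e‖ * ‖u x‖) ?_ ?_ ?_ ?_
  · refine Eventually.of_forall fun h => ?_
    have hc : Continuous (dq h e φ) := by
      unfold dq
      fun_prop
    exact hc.aestronglyMeasurable.smul hu.aestronglyMeasurable
  · have hev : ∀ᶠ h : ℝ in 𝓝[≠] 0, |h| ≤ 1 ∧ h ≠ 0 := by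
      have h1 : ∀ᶠ h : ℝ in 𝓝 0, |h| ≤ 1 := by
        have : Tendsto (fun h : ℝ => |h|) (𝓝 0) (𝓝 0) := by simpa using (continuous_abs.tendsto (0 : ℝ))
        exact this.eventually (eventually_le_nhds (by norm_num))
      filter_upwards [nhdsWithin_le_nhds h1, self_mem_nhdsWithin] with h a b using ⟨a, b⟩
    filter_upwards [hev] with h hh
    refine ae_of_all _ fun x => ?_
    by_cases hx : x ∈ K'
    · rw [indicator_of_mem hx, norm_smul]
      refine mul_le_mul_of_nonneg_right ?_ (norm_nonneg _)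
      have h1 := hck.norm_sub_le (x + h • e) x
      rw [add_sub_cancel_left, norm_smul, Real.norm_eq_abs] at h1
      have hh' : 0 < |h| := abs_pos.2 hh.2
      simp only [dq]
      rw [norm_smul, norm_inv, Real.norm_eq_abs, inv_mul_le_iff₀ hh']
      calc ‖φ (x + h • e) - φ x‖ ≤ Λ * (|h| * ‖e‖) := h1
        _ = |h| * (Λ * ‖e‖) := by ring
    · rw [indicator_of_notMem hx]
      have h1 : x ∉ tsupport φ := fun h' => hx (self_subset_cthickening _ h')
      have h2 : x + h • e ∉ tsupport φ := by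
        intro h'
        apply hx
        refine mem_cthickening_of_dist_le x (x + h • e) _ _ h' ?_
        rw [dist_eq_norm, sub_add_cancel_left, norm_neg, norm_smul, Real.norm_eq_abs]
        exact mul_le_of_le_one_left (norm_nonneg _) hh.1
      have := dq_eq_zero_of (u := φ) (K := tsupport φ)
        (fun y hy => image_eq_zero_of_notMem_tsupport hy) h e h1 h2
      rw [this, zero_smul, norm_zero]
  · rw [integrable_indicator_iff hK'c.measurableSet]
    exact ((hu.integrableOn_isCompact hK'c).norm).const_mul _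
  · refine ae_of_all _ fun x => ?_
    refine Tendsto.smul_const ?_ _
    have h1 : HasDerivAt (fun t : ℝ => φ (x + t • e)) (fderiv ℝ φ x e) 0 := by
      have h2 : HasDerivAt (fun t : ℝ => x + t • e) e 0 := by
        have := ((hasDerivAt_id (0 : ℝ)).smul_const e).const_add x
        simpa using this
      have h3 : HasFDerivAt φ (fderiv ℝ φ x) (x + (0 : ℝ) • e) := by
        rw [zero_smul, add_zero]; exact (hd x).hasFDerivAt
      exact h3.comp_hasDerivAt (0 : ℝ) h2
    have h4 := hasDerivAt_iff_tendsto_slope_zero.1 h1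
    simpa [dq] using h4

theorem dq_bound_key (hu : MemLp u 2 μ) (e : E) {K : ℝ} (hK : 0 ≤ K)
    (h : ∀ h : ℝ, 0 < h → h < 1 → L2Le μ univ (dq h e u) K) {φ : E → ℝ} (hφ : IsTest univ φ) :
    ‖∫ x, (fderiv ℝ φ x e) • u x ∂μ‖ ≤ K * l2n μ univ φ := by
  have hT := tendsto_integral_dq_test hφ (hu.locallyIntegrable (by norm_num)) e
  have hneg : Tendsto (fun h : ℝ => -h) (𝓝[>] 0) (𝓝[≠] 0) := by
    refine tendsto_nhdsWithin_of_tendsto_nhds_of_eventually_within _ ?_ ?_
    · have : Tendsto (fun h : ℝ => -h) (𝓝 0) (𝓝 (-0)) := (continuous_neg.tendsto (0 : ℝ))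
      rw [neg_zero] at this
      exact this.mono_left nhdsWithin_le_nhds
    · filter_upwards [self_mem_nhdsWithin] with h hh
      exact neg_ne_zero.2 (ne_of_gt hh)
  have hT' := (hT.comp hneg).norm
  refine le_of_tendsto hT' ?_
  have hev : ∀ᶠ h : ℝ in 𝓝[>] 0, 0 < h ∧ h < 1 := by
    filter_upwards [Ioo_mem_nhdsGT (show (0 : ℝ) < 1 by norm_num)] with h hh using hh
  filter_upwards [hev] with t ht
  simp only [Function.comp]
  have hφ2 : MemLp φ 2 μ := hφ.memLp 2
  have e1 := integral_smul_dq hφ2 hu t e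
  have e2 : ∫ x, dq (-t) e φ x • u x ∂μ = - ∫ x, φ x • dq t e u x ∂μ := by rw [e1, neg_neg]
  rw [e2, norm_neg]
  have h1 : L2Le μ univ φ (l2n μ univ φ) := l2Le_l2n (by rwa [Measure.restrict_univ])
  have h2 := h1.norm_setIntegral_smul_le (h t ht.1 ht.2) l2n_nonneg hK
  rw [setIntegral_univ] at h2
  linarith

/-! ### the criterion -/

/-- **Difference quotient criterion**, scalar case, sharp constant. -/
theorem exists_weakDeriv_of_dq_bound {u : E → ℝ} (hu : MemLp u 2 μ) (e : E) {K : ℝ} (hK : 0 ≤ K)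
    (h : ∀ h : ℝ, 0 < h → h < 1 → L2Le μ univ (dq h e u) K) :
    ∃ g : E → ℝ, HasWeakDeriv μ univ e u g ∧ L2Le μ univ g K :=
  exists_weakDeriv_of_bound isOpen_univ
    (locallyIntegrableOn_univ.2 (hu.locallyIntegrable (by norm_num))) e hK
    fun _ hφ => dq_bound_key hu e hK h hφ

/-- vector valued case, with a constant depending only on `F`. -/
theorem exists_const_weakDeriv_of_dq_bound (μ : Measure E) [μ.IsAddHaarMeasure]
    (F : Type*) [NormedAddCommGroup F] [NormedSpace ℝ F] [FiniteDimensional ℝ F] :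
    ∃ c : ℝ, 0 ≤ c ∧ ∀ (u : E → F) (e : E) (K : ℝ), MemLp u 2 μ → 0 ≤ K →
      (∀ h : ℝ, 0 < h → h < 1 → L2Le μ univ (dq h e u) K) →
      ∃ g : E → F, HasWeakDeriv μ univ e u g ∧ L2Le μ univ g (c * K) := by
  obtain ⟨c, hc, H⟩ := exists_const_weakDeriv_of_bound μ F
  refine ⟨c, hc, fun u e K hu hK h => ?_⟩
  exact H univ u e K isOpen_univ (locallyIntegrableOn_univ.2 (hu.locallyIntegrable (by norm_num))) hK
    fun _ hφ => dq_bound_key hu e hK h hφ

end Claimed.Agent.Lib.Sob
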