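import Mathlib

/-!
# `Lib/Sob`: L² Sobolev theory and interior elliptic regularity (row-neutral library)

Architect: helper195 (row316 BP-B7, merged with the needs of row315).  DEFINITIONS ONLY.

## Conventions (binding for every file of `Lib/Sob/`)

* The domain space `E` is ANY finite dimensional real normed space with an additive Haar measure `μ`
  (`EuclideanSpace ℝ (Fin m)`, `EuclideanSpace ℂ ι`, `ℝ × EuclideanSpace ℂ ι` with `volume.prod volume`, ...).
  Values are taken in a finite dimensional real normed space `F` (`ℝ`, `ℂ`, `ℂ^N`, spaces of linear maps).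
* No gradients, no coordinates: derivatives are `fderiv`-like objects.  Covectors are `E →L[ℝ] ℝ`.
* All norms are PREDICATES WITH CONSTANTS (`L2Le`, `HkLe`, `CkLe`); no Banach space types, no `sSup`.
  `HkLe μ U k u C` means: all weak derivatives `∂_{v₁}⋯∂_{v_j} u`, `j ≤ k`, `‖v_i‖ ≤ 1`, exist on `U` and have
  `L²(U)`-norm `≤ C`.
* Constants: every estimate has the form `∃ C, ∀ data, ... → ... (C * M)`: the constant is chosen BEFORE the
  functions and the coefficients and depends only on the bounds.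
* The principal part of an operator is `A : E → (E →L[ℝ] ℝ) →L[ℝ] E` (covector ↦ vector, in coordinates
  `(A ξ)^i = a^{ij} ξ_j`; not necessarily symmetric); the weak form of `- ∂_j (a^{ij} ∂_i u) = f - ∂_j H^j` is
  `∫ G_x (A_x dφ_x) = ∫ φ f + ∫ H_x (dφ_x)` for all test functions `φ`, `G` the weak derivative of `u`.
* EVERY file that mentions these nested spaces of continuous linear maps (also the files of the users) must start
  with `set_option maxSynthPendingDepth 6`: Mathlib itself is compiled with depth 3, this package with the default,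
  and then e.g. `NormedAddCommGroup (E →L[ℝ] (E →L[ℝ] ℝ) →L[ℝ] E)` is NOT found.
-/

set_option autoImplicit false
set_option maxSynthPendingDepth 6
open scoped ContDiff Topology
open MeasureTheory Set

namespace Claimed.Agent.Lib.Sob

variable {E : Type*} [NormedAddCommGroup E] [NormedSpace ℝ E] [MeasurableSpace E]
variable {F : Type*} [NormedAddCommGroup F] [NormedSpace ℝ F]

/-- Test functions on `U`: smooth, compactly supported, support inside `U`. -/
structure IsTest (U : Set E) (φ : E → ℝ) : Prop where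
  smooth : ContDiff ℝ ∞ φ
  compact : HasCompactSupport φ
  supp : tsupport φ ⊆ U

/-- `‖u‖_{L²(U)} ≤ C`. -/
def L2Le (μ : Measure E) (U : Set E) (u : E → F) (C : ℝ) : Prop :=
  MemLp u 2 (μ.restrict U) ∧ eLpNorm u 2 (μ.restrict U) ≤ ENNReal.ofReal C

/-- `u ∈ L²_loc(U)`. -/
def L2Loc (μ : Measure E) (U : Set E) (u : E → F) : Prop :=
  ∀ K : Set E, IsCompact K → K ⊆ U → MemLp u 2 (μ.restrict K)

/-- `g` is the weak derivative of `u` in the direction `v` on `U`. -/
def HasWeakDeriv (μ : Measure E) (U : Set E) (v : E) (u g : E → F) : Prop :=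
  LocallyIntegrableOn u U μ ∧ LocallyIntegrableOn g U μ ∧
    ∀ φ : E → ℝ, IsTest U φ → ∫ x, (fderiv ℝ φ x v) • u x ∂μ = - ∫ x, φ x • g x ∂μ

/-- `G` is the (full) weak derivative of `u` on `U`. -/
def HasWeakFDeriv (μ : Measure E) (U : Set E) (u : E → F) (G : E → E →L[ℝ] F) : Prop :=
  ∀ v : E, HasWeakDeriv μ U v u (fun x => G x v)

/-- `‖u‖_{H^k(U)} ≤ C` (max-norm over all iterated weak derivatives in unit directions). -/
def HkLe (μ : Measure E) (U : Set E) : ℕ → (E → F) → ℝ → Prop
  | 0, u, C => L2Le μ U u C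
  | (k + 1), u, C => L2Le μ U u C ∧
      ∀ v : E, ‖v‖ ≤ 1 → ∃ g : E → F, HasWeakDeriv μ U v u g ∧ HkLe μ U k g C

/-- `u ∈ H^k_loc(U)`. -/
def HkLoc (μ : Measure E) (U : Set E) (k : ℕ) (u : E → F) : Prop :=
  ∀ x ∈ U, ∃ r : ℝ, 0 < r ∧ Metric.ball x r ⊆ U ∧ ∃ C : ℝ, HkLe μ (Metric.ball x r) k u C

/-- `‖B‖_{C^k(U)} ≤ Λ` (`U` open in all uses). -/
def CkLe (U : Set E) (k : ℕ) (B : E → F) (Λ : ℝ) : Prop :=
  ContDiffOn ℝ k B U ∧ ∀ j : ℕ, j ≤ k → ∀ x ∈ U, ‖iteratedFDeriv ℝ j B x‖ ≤ Λ

/-- uniform ellipticity on `U` with constant `lam`. -/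
def Elliptic (U : Set E) (A : E → (E →L[ℝ] ℝ) →L[ℝ] E) (lam : ℝ) : Prop :=
  ∀ x ∈ U, ∀ ξ : E →L[ℝ] ℝ, lam * ‖ξ‖ ^ 2 ≤ ξ (A x ξ)

/-- Weak form of `- div (A du) = f - div H` on `U`; `G` is the weak derivative of the solution. -/
def IsWeakSol (μ : Measure E) (U : Set E) (A : E → (E →L[ℝ] ℝ) →L[ℝ] E) (G : E → E →L[ℝ] F)
    (f : E → F) (H : E → (E →L[ℝ] ℝ) →L[ℝ] F) : Prop :=
  ∀ φ : E → ℝ, IsTest U φ →
    ∫ x, G x (A x (fderiv ℝ φ x)) ∂μ = ∫ x, φ x • f x ∂μ + ∫ x, H x (fderiv ℝ φ x) ∂μ

/-- difference quotient in the direction `e` with step `h`. -/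
noncomputable def dq (h : ℝ) (e : E) (u : E → F) (x : E) : F := h⁻¹ • (u (x + h • e) - u x)

/-- the covector-to-`F` map `ξ ↦ ξ v • y`. -/
noncomputable def evSmul (v : E) (y : F) : (E →L[ℝ] ℝ) →L[ℝ] F :=
  (ContinuousLinearMap.apply ℝ ℝ v).smulRight y

section Mollifier

variable [HasContDiffBump E]

/-- the `n`-th standard bump: inner radius `1/(2(n+1))`, outer radius `1/(n+1)`. -/
noncomputable def bumpN (n : ℕ) : ContDiffBump (0 : E) where
  rIn := 1 / (2 * ((n : ℝ) + 1))
  rOut := 1 / ((n : ℝ) + 1)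
  rIn_pos := by positivity
  rIn_lt_rOut := by
    have h : (0 : ℝ) < (n : ℝ) + 1 := by positivity
    rw [div_lt_div_iff₀ (by positivity) h]
    nlinarith

/-- the `n`-th mollification of `u`. -/
noncomputable def mol (μ : Measure E) (n : ℕ) (u : E → F) (x : E) : F :=
  ∫ t, ((bumpN n : ContDiffBump (0 : E)).normed μ t) • u (x - t) ∂μ

end Mollifier

/-- number of extra derivatives in the Sobolev embedding. -/
noncomputable def sobN (E : Type*) [NormedAddCommGroup E] [NormedSpace ℝ E] : ℕ := Module.finrank ℝ E + 1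

/-- adapter for inner product spaces: the principal part attached to `A' : W → W →L[ℝ] W` acting on gradients. -/
noncomputable def ofInner {W : Type*} [NormedAddCommGroup W] [InnerProductSpace ℝ W] [FiniteDimensional ℝ W]
    (A' : W → W →L[ℝ] W) : W → (W →L[ℝ] ℝ) →L[ℝ] W :=
  fun x => (A' x).comp (InnerProductSpace.toDual ℝ W).symm.toContinuousLinearEquiv.toContinuousLinearMap

end Claimed.Agent.Lib.Sob
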