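import Claimed.Agent.Lib.Sob.MollL2

/-!
# `Lib/Sob/Dens`: compactly supported `H¹` functions are admissible test functions (leaf SOB-Dens)

All statements of `L2, Test, Weak, Hk, Moll, MollL2` are black boxes.

PLAN
* `HasWeakFDeriv.ae_eq_zero_of_eq_zero`: on the open set `Kᶜ` the function `w` is `0`, so `0` is a weak derivative there
  (`hasWeakDeriv_zero` + `congr_ae`), uniqueness (`HasWeakFDeriv.unique` after `mono`).
* `exists_test_approx`: `φn n = mol μ (n + n₀) w`, `n₀, K'` from `exists_compact_tsupport_mol`; smooth by `mol_contDiff`;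
  `fderiv (mol w) = mol Gw` (`mol_fderiv`), convergence by `mol_tendsto_l2` (for `w` and for `Gw`).
* `IsWeakSol.test_H1`: write the equation for `φn n`; all integrals are integrals over the compact set `K'` (the integrands
  vanish off `K'`, resp. a.e. off `K`); on `K'`: `x ↦ (G x).comp (A x)`, `f`, `H` are in `L²(K')` (`L2Loc`, `A` continuous, hence
  bounded, on `K'`); pass to the limit with `tendsto_setIntegral_clm_apply`, `tendsto_setIntegral_smul`.
* `bound_test_H1`: same limit + `tendsto_l2n_of_tendsto`.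
~450 lines.  Statements verbatim.
-/

set_option autoImplicit false
set_option maxSynthPendingDepth 6
set_option linter.unusedSectionVars false
open scoped ContDiff Topology
open MeasureTheory Set Filter Metric

namespace Claimed.Agent.Lib.Sob

variable {E : Type*} [NormedAddCommGroup E] [NormedSpace ℝ E] [FiniteDimensional ℝ E]
  [MeasurableSpace E] [BorelSpace E]
variable {F : Type*} [NormedAddCommGroup F] [NormedSpace ℝ F] [FiniteDimensional ℝ F]
variable {μ : Measure E} [μ.IsAddHaarMeasure]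
variable {U : Set E} {K : Set E}

/-- the weak derivative vanishes a.e. where the function vanishes identically (off a closed set). -/
theorem HasWeakFDeriv.ae_eq_zero_of_eq_zero {w : E → F} {Gw : E → E →L[ℝ] F} (hK : IsClosed K)
    (hw : HasWeakFDeriv μ univ w Gw) (hw0 : ∀ x ∉ K, w x = 0) : ∀ᵐ x ∂μ, x ∉ K → Gw x = 0 := by
  have hV : IsOpen Kᶜ := hK.isOpen_compl
  have h1 : HasWeakFDeriv μ Kᶜ w Gw := hw.mono (subset_univ _)
  have h2 : HasWeakFDeriv μ Kᶜ w (fun _ => 0) := by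
    intro v
    refine (hasWeakDeriv_zero (μ := μ) (U := Kᶜ) (v := v) (F := F)).congr_ae hV ?_ ?_
    · exact (ae_restrict_iff' hV.measurableSet).2 (ae_of_all _ fun x hx => (hw0 x hx).symm)
    · exact ae_of_all _ fun x => by simp
  have h3 := HasWeakFDeriv.unique hV h1 h2
  exact (ae_restrict_iff' hV.measurableSet).1 h3

/-- approximation of a compactly supported `H¹` function by test functions. -/
theorem exists_test_approx (hU : IsOpen U) (hK : IsCompact K) (hKU : K ⊆ U) {w : E → ℝ}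
    {Gw : E → E →L[ℝ] ℝ} (hw0 : ∀ x ∉ K, w x = 0) (hw : HasWeakFDeriv μ univ w Gw) (hw2 : MemLp w 2 μ)
    (hG2 : MemLp Gw 2 μ) :
    ∃ (φn : ℕ → E → ℝ) (K' : Set E), IsCompact K' ∧ K ⊆ K' ∧ K' ⊆ U ∧ (∀ n, IsTest U (φn n)) ∧
      (∀ n, tsupport (φn n) ⊆ K') ∧
      Tendsto (fun n => eLpNorm (fun x => φn n x - w x) 2 μ) atTop (𝓝 0) ∧
      Tendsto (fun n => eLpNorm (fun x => fderiv ℝ (φn n) x - Gw x) 2 μ) atTop (𝓝 0) := by
  obtain ⟨K', n₀, hK'c, hKK', hK'U, hsupp⟩ :=
    exists_compact_tsupport_mol (μ := μ) (F := ℝ) hU hK hKU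
  have hs : ∀ n, tsupport (mol μ (n + n₀) w) ⊆ K' := fun n => hsupp w hw0 _ (Nat.le_add_left _ _)
  refine ⟨fun n => mol μ (n + n₀) w, K', hK'c, hKK', hK'U, fun n => ⟨?_, ?_, (hs n).trans hK'U⟩, hs,
    ?_, ?_⟩
  · exact mol_contDiff (hw2.locallyIntegrable (by norm_num)) _
  · exact hK'c.of_isClosed_subset (isClosed_tsupport _) (hs n)
  · exact (mol_tendsto_l2 hw2).comp (tendsto_add_atTop_nat n₀)
  · have h1 := (mol_tendsto_l2 hG2).comp (tendsto_add_atTop_nat n₀)
    refine h1.congr fun n => ?_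
    simp only [Function.comp]
    congr 1
    funext x
    rw [mol_fderiv hw]

theorem dens_tendsto_restrict {F' : Type*} [NormedAddCommGroup F'] {an : ℕ → E → F'} {a : E → F'}
    (h : Tendsto (fun n => eLpNorm (fun x => an n x - a x) 2 μ) atTop (𝓝 0)) (S : Set E) :
    Tendsto (fun n => eLpNorm (fun x => an n x - a x) 2 (μ.restrict S)) atTop (𝓝 0) :=
  tendsto_of_tendsto_of_tendsto_of_le_of_le tendsto_const_nhds h (fun _ => zero_le)
    fun _ => eLpNorm_mono_measure _ Measure.restrict_le_self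

/-- **the weak equation may be tested with compactly supported `H¹` functions.** -/
theorem IsWeakSol.test_H1 (hU : IsOpen U) {A : E → (E →L[ℝ] ℝ) →L[ℝ] E} {G : E → E →L[ℝ] F} {f : E → F}
    {H : E → (E →L[ℝ] ℝ) →L[ℝ] F} (hA : ContinuousOn A U) (hG : L2Loc μ U G) (hf : L2Loc μ U f)
    (hH : L2Loc μ U H) (hsol : IsWeakSol μ U A G f H) (hK : IsCompact K) (hKU : K ⊆ U) {w : E → ℝ}
    {Gw : E → E →L[ℝ] ℝ} (hw0 : ∀ x ∉ K, w x = 0) (hw : HasWeakFDeriv μ univ w Gw) (hw2 : MemLp w 2 μ)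
    (hG2 : MemLp Gw 2 μ) :
    ∫ x in K, G x (A x (Gw x)) ∂μ = ∫ x in K, w x • f x ∂μ + ∫ x in K, H x (Gw x) ∂μ := by
  obtain ⟨φn, K', hK'c, hKK', hK'U, hφT, hφs, hc1, hc2⟩ :=
    exists_test_approx hU hK hKU hw0 hw hw2 hG2
  -- the operator `G ∘ A`
  have hT : L2Loc μ U (fun x => (G x).comp (A x)) := by
    have hB : ContinuousOn
        (fun x => (ContinuousLinearMap.compL ℝ (E →L[ℝ] ℝ) E F).flip (A x)) U :=
      ((ContinuousLinearMap.compL ℝ (E →L[ℝ] ℝ) E F).flip).continuous.comp_continuousOn hA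
    exact hG.clm_apply hB
  have hφ0 : ∀ n x, x ∉ K' → φn n x = 0 := fun n x hx =>
    image_eq_zero_of_notMem_tsupport fun h => hx (hφs n h)
  have hdφ0 : ∀ n x, x ∉ K' → fderiv ℝ (φn n) x = 0 := fun n x hx =>
    image_eq_zero_of_notMem_tsupport fun h => hx (hφs n (tsupport_fderiv_subset ℝ h))
  have heq : ∀ n, ∫ x in K', ((G x).comp (A x)) (fderiv ℝ (φn n) x) ∂μ
      = ∫ x in K', φn n x • f x ∂μ + ∫ x in K', H x (fderiv ℝ (φn n) x) ∂μ := by
    intro n
    have := hsol (φn n) (hφT n)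
    rw [setIntegral_eq_integral_of_forall_compl_eq_zero (fun x hx => by simp [hdφ0 n x hx]),
      setIntegral_eq_integral_of_forall_compl_eq_zero (fun x hx => by simp [hφ0 n x hx]),
      setIntegral_eq_integral_of_forall_compl_eq_zero (fun x hx => by simp [hdφ0 n x hx])]
    exact this
  have mφ : ∀ n, MemLp (φn n) 2 (μ.restrict K') := fun n => ((hφT n).memLp 2).restrict _
  have mdφ : ∀ n, MemLp (fderiv ℝ (φn n)) 2 (μ.restrict K') := fun n =>
    ((hφT n).memLp_fderiv 2).restrict _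
  have l1 := tendsto_setIntegral_clm_apply (hT K' hK'c hK'U) mdφ (hG2.restrict K')
    (dens_tendsto_restrict hc2 K')
  have l2 := tendsto_setIntegral_smul (hf K' hK'c hK'U) mφ (hw2.restrict K')
    (dens_tendsto_restrict hc1 K')
  have l3 := tendsto_setIntegral_clm_apply (hH K' hK'c hK'U) mdφ (hG2.restrict K')
    (dens_tendsto_restrict hc2 K')
  have hlim := tendsto_nhds_unique (l1.congr heq) (l2.add l3)
  have hae := hw.ae_eq_zero_of_eq_zero hK.isClosed hw0
  have r1 : ∫ x in K', ((G x).comp (A x)) (Gw x) ∂μ = ∫ x in K, G x (A x (Gw x)) ∂μ := by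
    refine setIntegral_eq_of_subset_of_ae_sdiff_eq_zero hK'c.measurableSet.nullMeasurableSet hKK' ?_
    filter_upwards [hae] with x hx hx'
    simp [hx hx'.2]
  have r2 : ∫ x in K', w x • f x ∂μ = ∫ x in K, w x • f x ∂μ := by
    refine setIntegral_eq_of_subset_of_ae_sdiff_eq_zero hK'c.measurableSet.nullMeasurableSet hKK' ?_
    exact ae_of_all _ fun x hx' => by simp [hw0 x hx'.2]
  have r3 : ∫ x in K', H x (Gw x) ∂μ = ∫ x in K, H x (Gw x) ∂μ := by
    refine setIntegral_eq_of_subset_of_ae_sdiff_eq_zero hK'c.measurableSet.nullMeasurableSet hKK' ?_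
    filter_upwards [hae] with x hx hx'
    simp [hx hx'.2]
  rw [r1, r2, r3] at hlim
  exact hlim

/-- a bound for all test functions extends to compactly supported `H¹` functions. -/
theorem bound_test_H1 {T : E → (E →L[ℝ] ℝ) →L[ℝ] ℝ} (hT : MemLp T 2 μ) {K₀ : ℝ}
    (h : ∀ φ : E → ℝ, IsTest univ φ → |∫ x, T x (fderiv ℝ φ x) ∂μ| ≤ K₀ * l2n μ univ (fderiv ℝ φ))
    (hK : IsCompact K) {w : E → ℝ} {Gw : E → E →L[ℝ] ℝ} (hw0 : ∀ x ∉ K, w x = 0)
    (hw : HasWeakFDeriv μ univ w Gw) (hw2 : MemLp w 2 μ) (hG2 : MemLp Gw 2 μ) :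
    |∫ x, T x (Gw x) ∂μ| ≤ K₀ * l2n μ univ Gw := by
  obtain ⟨φn, K', -, -, -, hφT, -, -, hc2⟩ :=
    exists_test_approx isOpen_univ hK (subset_univ K) hw0 hw hw2 hG2
  have mdφ : ∀ n, MemLp (fderiv ℝ (φn n)) 2 (μ.restrict univ) := fun n =>
    ((hφT n).memLp_fderiv 2).restrict _
  have l1 := tendsto_setIntegral_clm_apply (hT.restrict univ) mdφ (hG2.restrict univ)
    (dens_tendsto_restrict hc2 univ)
  have l2 := tendsto_l2n_of_tendsto mdφ (hG2.restrict univ) (dens_tendsto_restrict hc2 univ)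
  simp only [setIntegral_univ] at l1
  exact le_of_tendsto_of_tendsto' l1.abs (l2.const_mul K₀) fun n => h _ (hφT n)

end Claimed.Agent.Lib.Sob
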