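import Claimed.Agent.Lib.Sob.Moll
import Claimed.Agent.Lib.Sob.Hk

/-!
# `Lib/Sob/MollL2`: mollification in `L²` and `H^k` (leaf SOB-Moll2)

All statements of `L2, Test, Weak, Hk, Moll` are black boxes.  (`μ.restrict univ = μ`: `Measure.restrict_univ`.)

PLAN
1. `mol_l2Le` (Young/Jensen).  With `ρ = ρ_n ≥ 0`, `∫ ρ = 1`: `‖∫ ρ(t) u(x-t) dt‖² ≤ ∫ ρ(t) ‖u(x-t)‖² dt`
   (Cauchy-Schwarz for `√ρ · √ρ‖u‖`, or Jensen `ConvexOn.map_integral_le` for the probability measure `ρ μ`);
   integrate in `x`, Tonelli (`lintegral_lintegral_swap`), translation invariance (`lintegral_sub_right_eq_self`).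
   Work with `∫⁻`; measurability of `mol μ n u` from `mol_contDiff`.
2. `mol_tendsto_l2`: `MemLp.exists_hasCompactSupport_eLpNorm_sub_le` gives `w` continuous with compact support,
   `‖u - w‖₂ ≤ ε`; `‖mol u - u‖ ≤ ‖mol (u - w)‖ + ‖mol w - w‖ + ‖w - u‖ ≤ 2 ε + ‖mol w - w‖`; `mol w → w` uniformly
   (`mol_tendstoLocallyUniformlyOn` on `univ` + all supports in one compact set `exists_compact_tsupport_mol`), hence in `L²`.
3. `mol_hkLe`: induction on `k` with `mol_hasWeakDeriv`.
4. `mol_tendsto_hk`: induction on `k`.  UNIFORMITY IN THE DIRECTION: take a basis `b i` of `E`, `‖b i‖ ≤ 1`,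
   `g i = ∂_{b i} u`; the induction hypothesis for the finitely many `g i` gives `HkLe k (mol (g i) - g i) (ε / c)` eventually,
   `c = ∑ ‖coord i‖ + 1`; for a unit `v = ∑ v_i b i` take `∑ v_i (mol (g i) - g i)` (`HasWeakDeriv.sum_dir`, `smul_dir`, `HkLe.sum`).
~550 lines.  Statements verbatim.
-/

set_option autoImplicit false
set_option maxSynthPendingDepth 6
open scoped ContDiff Topology
open MeasureTheory Set Filter Metric

namespace Claimed.Agent.Lib.Sob

variable {E : Type*} [NormedAddCommGroup E] [NormedSpace ℝ E] [FiniteDimensional ℝ E]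
  [MeasurableSpace E] [BorelSpace E]
variable {F : Type*} [NormedAddCommGroup F] [NormedSpace ℝ F] [FiniteDimensional ℝ F]
variable {μ : Measure E} [μ.IsAddHaarMeasure]
variable {u : E → F} {C : ℝ} {k : ℕ}

/-- the probability measure `ρ_n μ`. -/
noncomputable def molNu (μ : Measure E) (n : ℕ) : Measure E :=
  μ.withDensity (fun y => ENNReal.ofReal ((bumpN n : ContDiffBump (0 : E)).normed μ y))

theorem molNu_prob (n : ℕ) : IsProbabilityMeasure (molNu μ n) := by
  constructor
  unfold molNu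
  rw [withDensity_apply _ MeasurableSet.univ, Measure.restrict_univ,
    ← ofReal_integral_eq_lintegral_ofReal (ContDiffBump.integrable_normed _)
      (Eventually.of_forall (ContDiffBump.nonneg_normed _)), ContDiffBump.integral_normed, ENNReal.ofReal_one]

theorem mol_enorm_le (n : ℕ) {f : E → F} (hf : StronglyMeasurable f) (x : E) :
    ‖mol μ n f x‖ₑ ≤ ∫⁻ y, ‖f (x - y)‖ₑ ∂(molNu μ n) := by
  unfold mol
  refine (enorm_integral_le_lintegral_enorm _).trans ?_
  unfold molNu
  have hm : Measurable fun y => ‖f (x - y)‖ₑ :=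
    (hf.comp_measurable (measurable_const.sub measurable_id)).enorm
  rw [lintegral_withDensity_eq_lintegral_mul _
    (ContDiffBump.continuous_normed _).measurable.ennreal_ofReal hm]
  refine le_of_eq (lintegral_congr fun y => ?_)
  rw [enorm_smul, Pi.mul_apply, Real.enorm_of_nonneg (ContDiffBump.nonneg_normed _ y)]

theorem mol_enorm_rpow_le (n : ℕ) {p : ℝ} (hp : 1 ≤ p) {f : E → F} (hf : StronglyMeasurable f)
    (x : E) : ‖mol μ n f x‖ₑ ^ p ≤ ∫⁻ y, ‖f (x - y)‖ₑ ^ p ∂(molNu μ n) := by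
  haveI := molNu_prob (μ := μ) n
  have hp0 : 0 < p := lt_of_lt_of_le one_pos hp
  have hm : StronglyMeasurable fun y => f (x - y) :=
    hf.comp_measurable (measurable_const.sub measurable_id)
  have h1 := eLpNorm'_le_eLpNorm'_of_exponent_le (f := fun y => f (x - y)) one_pos hp
    (molNu μ n) hm.aestronglyMeasurable
  simp only [eLpNorm', ENNReal.rpow_one, div_one] at h1
  calc ‖mol μ n f x‖ₑ ^ p ≤ (∫⁻ y, ‖f (x - y)‖ₑ ∂(molNu μ n)) ^ p :=
        ENNReal.rpow_le_rpow (mol_enorm_le n hf x) hp0.le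
    _ ≤ ((∫⁻ y, ‖f (x - y)‖ₑ ^ p ∂(molNu μ n)) ^ (1 / p)) ^ p := ENNReal.rpow_le_rpow h1 hp0.le
    _ = ∫⁻ y, ‖f (x - y)‖ₑ ^ p ∂(molNu μ n) := by
        rw [← ENNReal.rpow_mul, one_div, inv_mul_cancel₀ hp0.ne', ENNReal.rpow_one]

/-- Young's inequality for the mollifier. -/
theorem mol_lintegral_rpow_le (n : ℕ) {p : ℝ} (hp : 1 ≤ p) {f : E → F}
    (hf : AEStronglyMeasurable f μ) :
    ∫⁻ x, ‖mol μ n f x‖ₑ ^ p ∂μ ≤ ∫⁻ x, ‖f x‖ₑ ^ p ∂μ := by
  haveI := molNu_prob (μ := μ) n
  have hp0 : 0 < p := lt_of_lt_of_le one_pos hp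
  set f' := hf.mk f with hf'
  have hsm : StronglyMeasurable f' := hf.stronglyMeasurable_mk
  have hae : f =ᵐ[μ] f' := hf.ae_eq_mk
  have hL : ∀ x, mol μ n f x = mol μ n f' x := fun x => mol_congr_ae hae n x
  simp only [hL]
  have hR : ∫⁻ x, ‖f x‖ₑ ^ p ∂μ = ∫⁻ x, ‖f' x‖ₑ ^ p ∂μ := by
    refine lintegral_congr_ae ?_
    filter_upwards [hae] with x hx
    rw [hx]
  rw [hR]
  have hm2 : Measurable (Function.uncurry fun (x y : E) => ‖f' (x - y)‖ₑ ^ p) := by
    have : StronglyMeasurable fun z : E × E => f' (z.1 - z.2) :=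
      hsm.comp_measurable (measurable_fst.sub measurable_snd)
    exact this.enorm.pow_const p
  calc ∫⁻ x, ‖mol μ n f' x‖ₑ ^ p ∂μ ≤ ∫⁻ x, ∫⁻ y, ‖f' (x - y)‖ₑ ^ p ∂(molNu μ n) ∂μ :=
        lintegral_mono fun x => mol_enorm_rpow_le n hp hsm x
    _ = ∫⁻ y, (∫⁻ x, ‖f' (x - y)‖ₑ ^ p ∂μ) ∂(molNu μ n) := lintegral_lintegral_swap hm2.aemeasurable
    _ = ∫⁻ y, (∫⁻ x, ‖f' x‖ₑ ^ p ∂μ) ∂(molNu μ n) := by
        refine lintegral_congr fun y => ?_
        exact lintegral_sub_right_eq_self (fun x => ‖f' x‖ₑ ^ p) y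
    _ = ∫⁻ x, ‖f' x‖ₑ ^ p ∂μ := by
        rw [lintegral_const, measure_univ, mul_one]

theorem mol_eLpNorm_le (hu : MemLp u 2 μ) (n : ℕ) : eLpNorm (mol μ n u) 2 μ ≤ eLpNorm u 2 μ := by
  rw [eLpNorm_eq_lintegral_rpow_enorm_toReal (by norm_num) (by norm_num),
    eLpNorm_eq_lintegral_rpow_enorm_toReal (by norm_num) (by norm_num)]
  refine ENNReal.rpow_le_rpow (mol_lintegral_rpow_le n ?_ hu.1) (by positivity)
  norm_num

theorem mol_memLp (hu : MemLp u 2 μ) (n : ℕ) : MemLp (mol μ n u) 2 μ := by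
  exact ⟨(mol_contDiff (hu.locallyIntegrable (by norm_num)) n).continuous.aestronglyMeasurable,
    (mol_eLpNorm_le hu n).trans_lt hu.2⟩

theorem mol_l2Le (h : L2Le μ univ u C) (n : ℕ) : L2Le μ univ (mol μ n u) C := by
  unfold L2Le at h ⊢
  rw [Measure.restrict_univ] at h ⊢
  exact ⟨mol_memLp h.1 n, (mol_eLpNorm_le h.1 n).trans h.2⟩

theorem mol_tendstoUniformly {h : E → F} (hl : LocallyIntegrable h μ) (hc : UniformContinuous h) :
    TendstoUniformly (fun n => mol μ n h) h atTop := by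
  rw [Metric.tendstoUniformly_iff]
  intro ε hε
  obtain ⟨δ, hδ, hδu⟩ := Metric.uniformContinuous_iff.1 hc (ε / 2) (by linarith)
  obtain ⟨N, hN⟩ := exists_nat_one_div_lt hδ
  filter_upwards [Filter.eventually_ge_atTop N] with n hn y
  have hle : 1 / ((n : ℝ) + 1) < δ := by
    have h1 : 1 / ((n : ℝ) + 1) ≤ 1 / ((N : ℝ) + 1) := by
      apply one_div_le_one_div_of_le (by positivity)
      have : (N : ℝ) ≤ n := by exact_mod_cast hn
      linarith
    linarith
  have key := (bumpN n : ContDiffBump (0 : E)).dist_normed_convolution_le (μ := μ) (g := h) (x₀ := y)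
    (ε := ε / 2) hl.aestronglyMeasurable (fun z hz => by
      rw [mol_rOut] at hz
      exact (hδu ((mem_ball.1 hz).trans hle)).le)
  rw [← mol_eq_convolution] at key
  rw [dist_comm]
  linarith

/-- mollification of a continuous compactly supported function converges in `L²`. -/
theorem mol_tendsto_l2_of_continuous {h : E → F} (hc : Continuous h) (hs : HasCompactSupport h) :
    Tendsto (fun n => eLpNorm (fun x => mol μ n h x - h x) 2 μ) atTop (𝓝 0) := by
  set K := Metric.cthickening 1 (tsupport h) with hK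
  have hKc : IsCompact K := hs.isCompact.cthickening
  have hsub : ∀ n, Function.support (fun x => mol μ n h x - h x) ⊆ K := by
    intro n x hx
    by_contra hx'
    apply hx
    have h1 : mol μ n h x = 0 := by
      by_contra h0
      have h2 := mol_tsupport_subset (μ := μ) (u := h) (K := tsupport h)
        (fun y hy => image_eq_zero_of_notMem_tsupport hy) n (subset_tsupport _ h0)
      refine hx' (cthickening_mono ?_ _ h2)
      rw [div_le_one (by positivity)]
      have : (0 : ℝ) ≤ n := Nat.cast_nonneg n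
      linarith
    have h2 : h x = 0 := by
      by_contra h0
      exact hx' (Metric.self_subset_cthickening _ (subset_tsupport _ h0))
    simp [h1, h2]
  have hunif := Metric.tendstoUniformly_iff.1
    (mol_tendstoUniformly (μ := μ) hc.locallyIntegrable (hs.uniformContinuous_of_continuous hc))
  have hfin : μ K ^ (2 : ENNReal).toReal⁻¹ ≠ ⊤ :=
    ENNReal.rpow_ne_top_of_nonneg (by positivity) hKc.measure_lt_top.ne
  rw [ENNReal.tendsto_nhds_zero]
  intro ε hε
  obtain ⟨δ, hδ, hδε⟩ : ∃ δ : ℝ, 0 < δ ∧ μ K ^ (2 : ENNReal).toReal⁻¹ * ENNReal.ofReal δ ≤ ε := by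
    have ht : Tendsto (fun δ : ℝ => μ K ^ (2 : ENNReal).toReal⁻¹ * ENNReal.ofReal δ) (𝓝[>] 0) (𝓝 0) := by
      have h1 : Tendsto (fun δ : ℝ => ENNReal.ofReal δ) (𝓝 0) (𝓝 0) := by
        simpa using (ENNReal.continuous_ofReal.tendsto 0)
      have h2 := ENNReal.Tendsto.const_mul (a := μ K ^ (2 : ENNReal).toReal⁻¹) h1 (Or.inr hfin)
      rw [mul_zero] at h2
      exact h2.mono_left nhdsWithin_le_nhds
    have h3 := (ht.eventually (ge_mem_nhds hε)).and self_mem_nhdsWithin
    obtain ⟨δ, h4, h5⟩ := h3.exists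
    exact ⟨δ, h5, h4⟩
  filter_upwards [hunif δ hδ] with n hn
  rw [← eLpNorm_restrict_eq_of_support_subset (hsub n)]
  refine (eLpNorm_le_of_ae_bound (C := δ) (Eventually.of_forall fun x => ?_)).trans ?_
  · have := hn x
    rw [dist_comm, dist_eq_norm] at this
    exact this.le
  · rw [Measure.restrict_apply MeasurableSet.univ, Set.univ_inter]
    exact hδε

theorem mol_tendsto_l2 (hu : MemLp u 2 μ) :
    Tendsto (fun n => eLpNorm (fun x => mol μ n u x - u x) 2 μ) atTop (𝓝 0) := by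
  rw [ENNReal.tendsto_nhds_zero]
  intro ε hε
  have hε3 : ε / 3 ≠ 0 := (ENNReal.div_pos hε.ne' (by simp)).ne'
  obtain ⟨h, hs, hfh, hc, hm⟩ := hu.exists_hasCompactSupport_eLpNorm_sub_le (by norm_num) hε3
  have hfl := hu.locallyIntegrable (by norm_num)
  have hhl := hm.locallyIntegrable (by norm_num)
  have h1 := (ENNReal.tendsto_nhds_zero.1
    (mol_tendsto_l2_of_continuous (μ := μ) hc hs)) (ε / 3) (pos_iff_ne_zero.2 hε3)
  filter_upwards [h1] with n hn
  have hdec : (fun x => mol μ n u x - u x) =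
      (mol μ n (fun x => u x - h x) + (fun x => mol μ n h x - h x)) + (fun x => h x - u x) := by
    funext x
    simp only [Pi.add_apply, mol_sub hfl hhl]
    abel
  have hfh' : eLpNorm (fun x => u x - h x) 2 μ ≤ ε / 3 := hfh
  have hfh'' : eLpNorm (fun x => h x - u x) 2 μ ≤ ε / 3 := by
    have : (fun x => h x - u x) = -(fun x => u x - h x) := by
      funext x; simp
    rw [this, eLpNorm_neg]
    exact hfh'
  have hsubm : MemLp (fun x => u x - h x) 2 μ := hu.sub hm
  have m1 := (mol_memLp hsubm n).1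
  have m2 : AEStronglyMeasurable (fun x => mol μ n h x - h x) μ := (mol_memLp hm n).1.sub hm.1
  rw [hdec]
  calc eLpNorm ((mol μ n (fun x => u x - h x) + (fun x => mol μ n h x - h x))
          + (fun x => h x - u x)) 2 μ
      ≤ eLpNorm (mol μ n (fun x => u x - h x) + (fun x => mol μ n h x - h x)) 2 μ
          + eLpNorm (fun x => h x - u x) 2 μ :=
        eLpNorm_add_le (m1.add m2) (hm.1.sub hu.1) (by norm_num)
    _ ≤ (eLpNorm (mol μ n (fun x => u x - h x)) 2 μ
          + eLpNorm (fun x => mol μ n h x - h x) 2 μ)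
          + eLpNorm (fun x => h x - u x) 2 μ := by
        gcongr
        exact eLpNorm_add_le m1 m2 (by norm_num)
    _ ≤ (ε / 3 + ε / 3) + ε / 3 := by
        gcongr
        exact (mol_eLpNorm_le hsubm n).trans hfh'
    _ = ε := by
        rw [← two_mul, ← add_one_mul]
        norm_num
        exact ENNReal.mul_div_cancel (by simp) (by simp)

theorem mol_hkLe (h : HkLe μ univ k u C) (n : ℕ) : HkLe μ univ k (mol μ n u) C := by
  induction k generalizing u with
  | zero => exact mol_l2Le h n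
  | succ k ih =>
    refine ⟨mol_l2Le h.1 n, fun v hv => ?_⟩
    obtain ⟨g, hg, hk⟩ := h.2 v hv
    exact ⟨_, mol_hasWeakDeriv hg n, ih hk⟩

theorem mol_eventually_l2Le (h : L2Le μ univ u C) {ε : ℝ} (hε : 0 < ε) :
    ∀ᶠ n in atTop, L2Le μ univ (fun x => mol μ n u x - u x) ε := by
  unfold L2Le at h ⊢
  rw [Measure.restrict_univ] at h ⊢
  have h1 := (ENNReal.tendsto_nhds_zero.1 (mol_tendsto_l2 h.1)) (ENNReal.ofReal ε) (ENNReal.ofReal_pos.2 hε)
  filter_upwards [h1] with n hn
  exact ⟨(mol_memLp h.1 n).sub h.1, hn⟩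

theorem mol_tendsto_hk (h : HkLe μ univ k u C) {ε : ℝ} (hε : 0 < ε) :
    ∀ᶠ n in atTop, HkLe μ univ k (fun x => mol μ n u x - u x) ε := by
  induction k generalizing u C ε with
  | zero => exact mol_eventually_l2Le h hε
  | succ k ih =>
    set c : ℝ := ∑ i, ‖weakCoord (E := E) i‖ with hc
    have hc0 : 0 ≤ c := Finset.sum_nonneg fun i _ => norm_nonneg _
    choose γ hγ hγk using fun i => h.exists_weakDeriv (Module.finBasis ℝ E i)
    have hev : ∀ᶠ n in atTop, ∀ i, HkLe μ univ k (fun x => mol μ n (γ i) x - γ i x) (ε / (c + 1)) :=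
      Filter.eventually_all.2 fun i => ih (hγk i) (by positivity)
    filter_upwards [hev, mol_eventually_l2Le h.1 hε] with n hn hn0
    refine ⟨hn0, fun v hv => ?_⟩
    have hl : LocallyIntegrableOn (fun x => mol μ n u x - u x) univ μ :=
      hn0.l2Loc.locallyIntegrableOn isOpen_univ
    have hd := HasWeakDeriv.sum_dir isOpen_univ Finset.univ
      (e := fun i => weakCoord i v • Module.finBasis ℝ E i)
      (b := fun i x => weakCoord i v • (mol μ n (γ i) x - γ i x)) hl
      (fun i _ => ((mol_hasWeakDeriv (hγ i) n).sub isOpen_univ (hγ i)).smul_dir (weakCoord i v))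
    rw [weak_sum_coord] at hd
    refine ⟨_, hd, ?_⟩
    have hε' : 0 ≤ ε / (c + 1) := by positivity
    refine (HkLe.sum isOpen_univ Finset.univ (D := fun i => |weakCoord i v| * (ε / (c + 1)))
      (fun i _ => (hn i).const_smul (weakCoord i v)) (fun i _ => by positivity)).mono ?_
    rw [← Finset.sum_mul]
    have h1 : ∑ i, |weakCoord i v| ≤ c := by
      refine Finset.sum_le_sum fun i _ => ?_
      calc |weakCoord i v| = ‖weakCoord i v‖ := (Real.norm_eq_abs _).symm
        _ ≤ ‖weakCoord (E := E) i‖ * ‖v‖ := (weakCoord i).le_opNorm v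
        _ ≤ ‖weakCoord (E := E) i‖ * 1 := mul_le_mul_of_nonneg_left hv (norm_nonneg _)
        _ = ‖weakCoord (E := E) i‖ := mul_one _
    calc (∑ i, |weakCoord i v|) * (ε / (c + 1)) ≤ c * (ε / (c + 1)) := mul_le_mul_of_nonneg_right h1 hε'
      _ ≤ ε := by
          rw [mul_div_assoc', div_le_iff₀ (by positivity)]
          nlinarith

end Claimed.Agent.Lib.Sob
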