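import Claimed.Agent.Lib.Sob.Sup2
import Claimed.Agent.Lib.Sob.MollL2

/-!
# `Lib/Sob/Emb1`: `H^N(E) ⊂ C⁰_b`, `N = dim E + 1` (leaf SOB-Emb1)

All imported statements are black boxes (`sup_le_of_hkLe`, `mol_contDiff`, `mol_hkLe`, `mol_tendsto_hk`, `mol_tendsto_l2`).

PLAN.  `C` := constant of `sup_le_of_hkLe μ F`.  Given `u` with `HkLe μ univ (sobN E) u M` (lower the order to `finrank` by
`HkLe.mono_order`); `u_n = mol μ n u` is smooth (`u` is locally integrable since it is in `L²`), `‖u_n x‖ ≤ C M`.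
For `ε > 0`, eventually `HkLe (u_n - u) ε`, so eventually in `(n, m)`: `HkLe (u_n - u_m) (2 ε)` (`HkLe.sub`, rewrite
`u_n - u_m = (u_n - u) - (u_m - u)`), and `u_n - u_m` is smooth: `‖u_n x - u_m x‖ ≤ 2 C ε` for all `x`.
So `u_n` is uniformly Cauchy; `F` is complete: the pointwise limit `v x := limUnder atTop (fun n => u_n x)` exists, the convergence
is uniform (`UniformCauchySeqOn.tendstoUniformlyOn_of_tendsto`), `v` is continuous (`TendstoUniformly.continuous`), `‖v x‖ ≤ C M`
(`le_of_tendsto`).  `u_n → u` in `L²` (`mol_tendsto_l2`), hence in measure, hence a subsequence converges a.e.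
(`tendstoInMeasure_of_tendsto_eLpNorm`, `TendstoInMeasure.exists_seq_tendsto_ae`): `u = v` a.e.
~300 lines.  Statements verbatim.
-/

set_option autoImplicit false
set_option maxSynthPendingDepth 6
open scoped ContDiff Topology
open MeasureTheory Set Filter Metric

namespace Claimed.Agent.Lib.Sob

variable {E : Type*} [NormedAddCommGroup E] [NormedSpace ℝ E] [FiniteDimensional ℝ E]
  [MeasurableSpace E] [BorelSpace E]

theorem exists_continuous_rep (μ : Measure E) [μ.IsAddHaarMeasure]
    (F : Type*) [NormedAddCommGroup F] [NormedSpace ℝ F] [FiniteDimensional ℝ F] :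
    ∃ C : ℝ, 0 ≤ C ∧ ∀ (u : E → F) (M : ℝ), 0 ≤ M → HkLe μ univ (sobN E) u M →
      ∃ v : E → F, Continuous v ∧ (∀ᵐ x ∂μ, u x = v x) ∧ ∀ x, ‖v x‖ ≤ C * M := by
  obtain ⟨C, hC, hS⟩ := sup_le_of_hkLe μ F
  refine ⟨C, hC, ?_⟩
  intro u M hM hk
  have : CompleteSpace F := FiniteDimensional.complete ℝ F
  set m := Module.finrank ℝ E with hm
  have hk' : HkLe μ univ m u M := hk.mono_order (by unfold sobN; omega)
  have hL2 : MemLp u 2 μ := by
    have := hk'.l2Le.memLp
    rwa [Measure.restrict_univ] at this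
  have hloc : LocallyIntegrable u μ := hL2.locallyIntegrable (by norm_num)
  set un : ℕ → E → F := fun n => mol μ n u with hun
  have hsm : ∀ n, ContDiff ℝ ∞ (un n) := fun n => mol_contDiff hloc n
  have hbd : ∀ n x, ‖un n x‖ ≤ C * M := fun n x => hS (un n) M hM (hsm n) (mol_hkLe hk' n) x
  -- uniformly Cauchy
  have hCau : ∀ ε > 0, ∃ N, ∀ a ≥ N, ∀ b ≥ N, ∀ x ∈ (univ : Set E), dist (un a x) (un b x) < ε := by
    intro ε hε
    set δ : ℝ := ε / (2 * (C + 1)) with hδ
    have hδ0 : 0 < δ := by positivity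
    obtain ⟨N, hN⟩ := eventually_atTop.1 (mol_tendsto_hk hk' hδ0)
    refine ⟨N, fun a ha b hb x _ => ?_⟩
    have h1 : HkLe μ univ m (fun x => (un a x - u x) - (un b x - u x)) (δ + δ) :=
      (hN a ha).sub isOpen_univ (hN b hb) hδ0.le hδ0.le
    have e : (fun x => (un a x - u x) - (un b x - u x)) = fun x => un a x - un b x := by
      funext x; abel
    rw [e] at h1
    have h2 := hS _ (δ + δ) (by positivity) ((hsm a).sub (hsm b)) h1 x
    rw [dist_eq_norm]
    calc ‖un a x - un b x‖ ≤ C * (δ + δ) := h2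
      _ = C / (C + 1) * ε := by rw [hδ]; field_simp; ring
      _ < 1 * ε := by
          apply mul_lt_mul_of_pos_right _ hε
          rw [div_lt_one (by positivity)]
          linarith
      _ = ε := one_mul ε
  have hcs : ∀ x, CauchySeq (fun n => un n x) := fun x =>
    Metric.cauchySeq_iff.2 (fun ε hε => by
      obtain ⟨N, hN⟩ := hCau ε hε
      exact ⟨N, fun a ha b hb => hN a ha b hb x trivial⟩)
  choose v hv using fun x => cauchySeq_tendsto_of_complete (hcs x)
  have hunif : TendstoUniformly un v atTop := by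
    rw [← tendstoUniformlyOn_univ]
    exact (Metric.uniformCauchySeqOn_iff.2 hCau).tendstoUniformlyOn_of_tendsto (fun x _ => hv x)
  refine ⟨v, hunif.continuous (Frequently.of_forall fun n => (hsm n).continuous), ?_, ?_⟩
  · have hmeas : TendstoInMeasure μ un atTop u :=
      tendstoInMeasure_of_tendsto_eLpNorm (p := 2) (by norm_num)
        (fun n => (hsm n).continuous.aestronglyMeasurable) hL2.1 (mol_tendsto_l2 hL2)
    obtain ⟨ns, hns, hae⟩ := hmeas.exists_seq_tendsto_ae
    filter_upwards [hae] with x hx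
    exact tendsto_nhds_unique hx ((hv x).comp hns.tendsto_atTop)
  · intro x
    exact le_of_tendsto (hv x).norm (Eventually.of_forall fun n => hbd n x)

end Claimed.Agent.Lib.Sob
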