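import Claimed.Agent.Lib.Sob.Moll

/-!
# `Lib/Sob/Emb2`: a continuous function with a continuous weak derivative is `C¹` (leaf SOB-Emb2)

All imported statements are black boxes.

PLAN
1. `hasFDerivAt_of_weak_univ`: `u, G` continuous on `E`, `HasWeakFDeriv μ univ u G`.  `u_n = mol μ n u` is smooth,
   `fderiv ℝ u_n = mol μ n G` (`mol_fderiv`), `u_n → u` and `mol μ n G → G` locally uniformly
   (`mol_tendstoLocallyUniformlyOn` on `univ`); `hasFDerivAt_of_tendstoLocallyUniformlyOn` (open set `univ`).
2. `hasFDerivAt_of_weak`: localisation.  Fix `x₀ ∈ U`, a cutoff `χ` (test on `U`, `= 1` on a neighbourhood `W` of `x₀`: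
   `exists_cutoff_compact` for `K = {x₀}`).  `u₁ = χ u`, `G₁ = dχ ⊗ u + χ G` (`HasWeakFDeriv.smul_test_univ`) are continuous on `E`
   (continuous on `U`, zero on the open set `(tsupport χ)ᶜ`, the two open sets cover `E`).  Step 1 gives `HasFDerivAt u₁ (G₁ x₀) x₀`;
   `u₁ = u` near `x₀`, `G₁ x₀ = G x₀` (`dχ = 0` at `x₀` since `χ` is constant near `x₀`).
3. `contDiffOn_one_of_weak`: `contDiffOn_succ_iff_fderiv_of_isOpen` / `contDiffOn_one_iff_fderiv_of_isOpen`?  (search), with `fderiv ℝ u = G` on `U`.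
~300 lines.  Statements verbatim.
-/

set_option autoImplicit false
set_option maxSynthPendingDepth 6
open scoped ContDiff Topology
open MeasureTheory Set Filter Metric

namespace Claimed.Agent.Lib.Sob

variable {E : Type*} [NormedAddCommGroup E] [NormedSpace ℝ E] [FiniteDimensional ℝ E]
  [MeasurableSpace E] [BorelSpace E]
variable {F : Type*} [NormedAddCommGroup F] [NormedSpace ℝ F] [FiniteDimensional ℝ F]
variable {μ : Measure E} [μ.IsAddHaarMeasure]
variable {U : Set E} {u : E → F} {G : E → E →L[ℝ] F}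

theorem hasFDerivAt_of_weak_univ (hu : Continuous u) (hG : Continuous G) (h : HasWeakFDeriv μ univ u G)
    (x : E) : HasFDerivAt u (G x) x := by
  have hul : LocallyIntegrable u μ := hu.locallyIntegrable
  have hGl : LocallyIntegrable G μ := hG.locallyIntegrable
  refine hasFDerivAt_of_tendstoLocallyUniformlyOn (l := atTop) (f := fun n => mol μ n u)
    (f' := fun n => mol μ n G) isOpen_univ
    (mol_tendstoLocallyUniformlyOn isOpen_univ hGl hG.continuousOn) ?_ ?_ (mem_univ x)
  · intro n y _
    have := (((mol_contDiff hul n).differentiable (by simp)) y).hasFDerivAt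
    rwa [mol_fderiv h n y] at this
  · intro y _
    exact (mol_tendstoLocallyUniformlyOn isOpen_univ hul hu.continuousOn).tendsto_at (mem_univ y)

/-- continuous on an open set, zero off a closed subset of it. -/
theorem emb2_continuous_of {X Y : Type*} [TopologicalSpace X] [TopologicalSpace Y] [Zero Y]
    {f : X → Y} {K U : Set X} (hU : IsOpen U) (hK : IsClosed K) (hKU : K ⊆ U)
    (hf : ContinuousOn f U) (h0 : ∀ x, x ∉ K → f x = 0) : Continuous f := by
  rw [continuous_iff_continuousAt]
  intro x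
  by_cases hx : x ∈ U
  · exact hf.continuousAt (hU.mem_nhds hx)
  · have hxK : x ∈ Kᶜ := fun h => hx (hKU h)
    have : f =ᶠ[𝓝 x] fun _ => (0 : Y) := by
      filter_upwards [hK.isOpen_compl.mem_nhds hxK] with y hy using h0 y hy
    exact continuousAt_const.congr this.symm

theorem hasFDerivAt_of_weak (hU : IsOpen U) (hu : ContinuousOn u U) (hG : ContinuousOn G U)
    (h : HasWeakFDeriv μ U u G) {x : E} (hx : x ∈ U) : HasFDerivAt u (G x) x := by
  obtain ⟨χ, hχ, ⟨Wn, hWo, hKW, hW1⟩, -⟩ :=
    exists_cutoff_compact (isCompact_singleton (x := x)) hU (singleton_subset_iff.2 hx)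
  have hxW : x ∈ Wn := hKW (mem_singleton x)
  have hχc : Continuous χ := hχ.smooth.continuous
  have hdχc : Continuous (fderiv ℝ χ) := hχ.smooth.continuous_fderiv (by simp)
  have h₁ := h.smul_test_univ hU hχ
  have hχ0 : ∀ y, y ∉ tsupport χ → χ y = 0 := fun y hy => image_eq_zero_of_notMem_tsupport hy
  have hdχ0 : ∀ y, y ∉ tsupport χ → fderiv ℝ χ y = 0 := fun y hy => fderiv_of_notMem_tsupport ℝ hy
  have hu₁ : Continuous (fun y => χ y • u y) :=
    emb2_continuous_of hU (isClosed_tsupport χ) hχ.supp (hχc.continuousOn.smul hu)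
      (fun y hy => by rw [hχ0 y hy, zero_smul])
  have hG₁ : Continuous (fun y => (fderiv ℝ χ y).smulRight (u y) + χ y • G y) := by
    apply emb2_continuous_of hU (isClosed_tsupport χ) hχ.supp
    · have hs : ContinuousOn (fun y => (fderiv ℝ χ y).smulRight (u y)) U := by
        have : ContinuousOn (fun y => ContinuousLinearMap.smulRightL ℝ E F (fderiv ℝ χ y) (u y)) U :=
          ((ContinuousLinearMap.smulRightL ℝ E F).continuous.comp_continuousOn
            hdχc.continuousOn).clm_apply hu
        exact this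
      exact hs.add (hχc.continuousOn.smul hG)
    · intro y hy
      rw [hχ0 y hy, hdχ0 y hy]
      simp
  have h2 := hasFDerivAt_of_weak_univ hu₁ hG₁ h₁ x
  have hev : χ =ᶠ[𝓝 x] fun _ => (1 : ℝ) := by
    filter_upwards [hWo.mem_nhds hxW] with y hy using hW1 y hy
  have hd0 : fderiv ℝ χ x = 0 := by rw [hev.fderiv_eq]; simp
  have e : (fderiv ℝ χ x).smulRight (u x) + χ x • G x = G x := by
    rw [hd0, hW1 x hxW]; simp
  rw [e] at h2
  apply h2.congr_of_eventuallyEq
  filter_upwards [hev] with y hy
  rw [hy, one_smul]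

theorem contDiffOn_one_of_weak (hU : IsOpen U) (hu : ContinuousOn u U) (hG : ContinuousOn G U)
    (h : HasWeakFDeriv μ U u G) : ContDiffOn ℝ 1 u U := by
  have hd : ∀ x ∈ U, HasFDerivAt u (G x) x := fun x hx => hasFDerivAt_of_weak hU hu hG h hx
  have e : (1 : WithTop ℕ∞) = 0 + 1 := by simp
  rw [e, contDiffOn_succ_iff_fderiv_of_isOpen hU]
  refine ⟨fun x hx => (hd x hx).differentiableAt.differentiableWithinAt, by simp, ?_⟩
  rw [contDiffOn_zero]
  exact hG.congr (fun x hx => (hd x hx).fderiv)

end Claimed.Agent.Lib.Sob
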