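import Claimed.Agent.Lib.Sob.Emb1
import Claimed.Agent.Lib.Sob.Emb2

/-!
# `Lib/Sob/Emb3`: Sobolev embedding `H^{j+N} ⊂ C^j` (leaf SOB-Emb3)

All imported statements are black boxes.

PLAN for `embedding_univ'`: induction on `j` (`F` fixed!  do not pass to `E →L[ℝ] F`-valued functions in the induction: universe
problems; use directional derivatives along a basis).
* `j = 0`: `exists_continuous_rep`, `ckLe_zero_iff`.
* `j → j+1`.  BEFORE THE DATA: `C_j` from the induction hypothesis, a basis `b i` of `E` with `‖b i‖ ≤ 1`, coordinates `b^i`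
  (continuous linear), `c = ∑ ‖b^i‖`.  DATA: `u ∈ H^{j+1+N}`.  Induction hypothesis for `u` (order lowered): `v`, `u = v` a.e.,
  `CkLe univ j v (C_j M)`.  For each `i`: `g i = ∂_{b i} u ∈ H^{j+N}`, induction hypothesis: `w i`, `g i = w i` a.e.,
  `CkLe univ j (w i) (C_j M)`.  `G x := ∑ i, (b^i).smulRight (w i x)`; `HasWeakFDeriv μ univ v G`: for a direction
  `e = ∑ (b^i e) • b i` use `HasWeakDeriv.sum_dir`, `smul_dir`, `congr_ae`.  `v`, `G` are continuous, so
  `hasFDerivAt_of_weak_univ`: `fderiv ℝ v = G`.  `CkLe univ j G (c C_j M)` (`CkLe.clm` + a finite sum: induct with `CkLe.add`),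
  `ckLe_succ_of_fderiv` with the constant `max 1 c * C_j * M`.
`embedding_ball'`: BEFORE THE DATA `χ` = `exists_cutoff_ball x₀ (r < R)`, `Λ` its bound of order `j + N`; `χ u ∈ H^{j+N}(univ)`
(`HkLe.smul_test_univ`), `embedding_univ'`; on `B_r`: `χ u = u`; `CkLe.mono_set`.
~450 lines.  Statements verbatim.
-/

set_option autoImplicit false
set_option maxSynthPendingDepth 6
open scoped ContDiff Topology
open MeasureTheory Set Filter Metric

namespace Claimed.Agent.Lib.Sob

variable {E : Type*} [NormedAddCommGroup E] [NormedSpace ℝ E] [FiniteDimensional ℝ E]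
  [MeasurableSpace E] [BorelSpace E]

theorem emb3_ckLe_sum {E F : Type*} [NormedAddCommGroup E] [NormedSpace ℝ E]
    [NormedAddCommGroup F] [NormedSpace ℝ F] {U : Set E} (hU : IsOpen U) {k : ℕ} {ι : Type*}
    (s : Finset ι) {w : ι → E → F} {D : ι → ℝ} (h : ∀ i ∈ s, CkLe U k (w i) (D i)) :
    CkLe U k (fun x => ∑ i ∈ s, w i x) (∑ i ∈ s, D i) := by
  classical
  induction s using Finset.induction_on with
  | empty =>
    simp only [Finset.sum_empty]
    have := ckLe_const (U := U) (0 : F) k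
    rwa [norm_zero] at this
  | insert a s ha ih =>
    simp only [Finset.sum_insert ha]
    exact (h a (Finset.mem_insert_self a s)).add hU
      (ih (fun i hi => h i (Finset.mem_insert_of_mem hi)))

/-- the statement `embedding_univ` of `Api.lean`. -/
theorem embedding_univ' (μ : Measure E) [μ.IsAddHaarMeasure]
    (F : Type*) [NormedAddCommGroup F] [NormedSpace ℝ F] [FiniteDimensional ℝ F] (j : ℕ) :
    ∃ C : ℝ, 0 ≤ C ∧ ∀ (u : E → F) (M : ℝ), 0 ≤ M → HkLe μ univ (j + sobN E) u M →
      ∃ v : E → F, (∀ᵐ x ∂μ, u x = v x) ∧ CkLe univ j v (C * M) := by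
  induction j with
  | zero =>
    obtain ⟨C, hC, h⟩ := exists_continuous_rep μ F
    refine ⟨C, hC, fun u M hM hk => ?_⟩
    rw [zero_add] at hk
    obtain ⟨v, hvc, hae, hb⟩ := h u M hM hk
    exact ⟨v, hae, ckLe_zero_iff.2 ⟨hvc.continuousOn, fun x _ => hb x⟩⟩
  | succ j ih =>
    obtain ⟨Cj, hCj, hj⟩ := ih
    obtain ⟨b, hb⟩ := sup2_exists_basis E
    set β : Fin (Module.finrank ℝ E) → (E →L[ℝ] ℝ) := fun i =>
      LinearMap.toContinuousLinearMap (b.coord i) with hβ
    set Lf : Fin (Module.finrank ℝ E) → (F →L[ℝ] (E →L[ℝ] F)) := fun i =>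
      ContinuousLinearMap.smulRightL ℝ E F (β i) with hLf
    set c : ℝ := ∑ i, ‖Lf i‖ with hc
    have hc0 : 0 ≤ c := Finset.sum_nonneg (fun i _ => norm_nonneg _)
    refine ⟨max 1 c * Cj, by positivity, fun u M hM hk => ?_⟩
    have hk0 : HkLe μ univ (j + sobN E) u M := hk.mono_order (by omega)
    have hk1 : HkLe μ univ ((j + sobN E) + 1) u M := by
      have e : j + 1 + sobN E = (j + sobN E) + 1 := by omega
      rwa [e] at hk
    obtain ⟨v, hv1, hv2⟩ := hj u M hM hk0
    choose g hg1 hg2 using fun i => (hkLe_succ.1 hk1).2 (b i) (hb i)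
    choose w hw1 hw2 using fun i => hj (g i) M hM (hg2 i)
    set G : E → E →L[ℝ] F := fun x => ∑ i, Lf i (w i x) with hG
    have hGk : CkLe univ j G (c * (Cj * M)) := by
      have := emb3_ckLe_sum isOpen_univ (k := j) Finset.univ (w := fun i x => Lf i (w i x))
        (D := fun i => ‖Lf i‖ * (Cj * M)) (fun i _ => (hw2 i).clm isOpen_univ (Lf i))
      rwa [← Finset.sum_mul] at this
    have hL2 : MemLp u 2 μ := by
      have := hk0.l2Le.memLp
      rwa [Measure.restrict_univ] at this
    have hloc : LocallyIntegrableOn u univ μ :=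
      locallyIntegrableOn_univ.2 (hL2.locallyIntegrable (by norm_num))
    have hweak : HasWeakFDeriv μ univ v G := by
      intro e
      have h1 : HasWeakDeriv μ univ (∑ i, (β i e) • b i) u (fun x => ∑ i, (β i e) • g i x) :=
        HasWeakDeriv.sum_dir isOpen_univ Finset.univ hloc (fun i _ => (hg1 i).smul_dir (β i e))
      have he : ∑ i, (β i e) • b i = e := by
        simp only [hβ, LinearMap.coe_toContinuousLinearMap', Module.Basis.coord_apply]
        exact b.sum_repr e
      rw [he] at h1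
      have hGe : (fun x => G x e) = fun x => ∑ i, (β i e) • w i x := by
        funext x
        simp [hG, hLf]
      rw [hGe]
      apply h1.congr_ae isOpen_univ
      · rw [Measure.restrict_univ]; exact hv1
      · rw [Measure.restrict_univ]
        have hall : ∀ᵐ x ∂μ, ∀ i, g i x = w i x := ae_all_iff.2 hw1
        filter_upwards [hall] with x hx
        simp only [hx]
    have hvc : Continuous v := continuousOn_univ.1 hv2.contDiffOn.continuousOn
    have hGc : Continuous G := continuousOn_univ.1 hGk.contDiffOn.continuousOn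
    have hd : ∀ x, HasFDerivAt v (G x) x := hasFDerivAt_of_weak_univ hvc hGc hweak
    have hfd : fderiv ℝ v = G := funext fun x => (hd x).fderiv
    refine ⟨v, hv1, ?_⟩
    have hCM : 0 ≤ Cj * M := by positivity
    have e1 : Cj * M ≤ max 1 c * Cj * M := by
      rw [mul_assoc]
      exact le_mul_of_one_le_left hCM (le_max_left _ _)
    have e2 : c * (Cj * M) ≤ max 1 c * Cj * M := by
      rw [mul_assoc]
      exact mul_le_mul_of_nonneg_right (le_max_right _ _) hCM
    apply ckLe_succ_of_fderiv isOpen_univ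
    · exact fun x hx => (hv2.bound hx).trans e1
    · exact fun x _ => (hd x).differentiableAt.differentiableWithinAt
    · rw [hfd]; exact hGk.mono e2

/-- the statement `embedding_ball` of `Api.lean`. -/
theorem embedding_ball' (μ : Measure E) [μ.IsAddHaarMeasure]
    (F : Type*) [NormedAddCommGroup F] [NormedSpace ℝ F] [FiniteDimensional ℝ F]
    (j : ℕ) (x₀ : E) {r R : ℝ} (hr : 0 < r) (hrR : r < R) :
    ∃ C : ℝ, 0 ≤ C ∧ ∀ (u : E → F) (M : ℝ), 0 ≤ M → HkLe μ (ball x₀ R) (j + sobN E) u M →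
      ∃ v : E → F, (∀ᵐ x ∂(μ.restrict (ball x₀ r)), u x = v x) ∧ CkLe (ball x₀ r) j v (C * M) := by
  obtain ⟨C₀, hC₀, h₀⟩ := embedding_univ' μ F j
  obtain ⟨χ, hχ, hχ1, -, -⟩ := exists_cutoff_ball x₀ hr hrR
  set k := j + sobN E with hk
  obtain ⟨Λ, hΛ, hχk⟩ := hχ.exists_ckLe k
  refine ⟨C₀ * (2 ^ k * Λ), by positivity, fun u M hM hu => ?_⟩
  have h1 : HkLe μ univ k (fun x => χ x • u x) (2 ^ k * Λ * M) :=
    hu.smul_test_univ isOpen_ball hχ hχk hΛ hM
  obtain ⟨v, hv1, hv2⟩ := h₀ _ _ (by positivity) h1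
  refine ⟨v, ?_, ?_⟩
  · filter_upwards [ae_restrict_of_ae hv1, ae_restrict_mem measurableSet_ball] with x hx hxm
    rw [← hx, hχ1 x (ball_subset_closedBall hxm), one_smul]
  · have e : C₀ * (2 ^ k * Λ) * M = C₀ * (2 ^ k * Λ * M) := by ring
    rw [e]
    exact hv2.mono_set (subset_univ _)

end Claimed.Agent.Lib.Sob
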