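import Claimed.Agent.Lib.Sob.Emb3

/-!
# `Lib/Sob/Emb4`: the smooth representative of a function in `⋂_k H^k_loc(U)` (leaf SOB-Emb4)

All imported statements are black boxes.

PLAN
* `eqOn_of_ae_eq'`: `{x ∈ U | u x ≠ v x}` is relatively open in `U`, hence open, and null; a nonempty open set has positive Haar
  measure (`IsOpen.measure_pos`, or `MeasureTheory.Measure.eqOn_open_of_ae_eq`).
* `exists_smooth_rep'`.  For `x ∈ U` and `j : ℕ`: `HkLoc μ U (j + sobN E) u` gives `R = R(x,j) > 0`, `ball x R ⊆ U`, a bound; `embedding_ball'`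
  with `r = R/2` gives `w_{x,j}`, `C^j` on `ball x (R/2)`, `= u` a.e. there.  Choose all this (`Classical.choose` / `choose`).
  Define `v y := w_{y,0} y`.  CLAIM: for all `x ∈ U`, `j`: `v = w_{x,j}` on `B := ball x (R(x,j)/2)`.  Indeed for `y ∈ B` the functions `w_{y,0}` and
  `w_{x,j}` are continuous on the open set `B ∩ ball y (R(y,0)/2) ∋ y` and both `= u` a.e. there: `eqOn_of_ae_eq'`.
  Hence `v` is `C^j` near every point of `U` for every `j` (`ContDiffOn.congr`, `contDiffOn_infty`, `contDiffOn_of_locally_contDiffOn` or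
  `ContDiffAt`), and `v = u` a.e. on each `B`; `U` is covered by countably many such balls (Lindelöf:
  `TopologicalSpace.isOpen_iUnion_countable` / `IsLindelof`, `ae_restrict_iUnion_iff`, `ae_restrict_of_ae_restrict_of_subset`).
~400 lines.  Statements verbatim.
-/

set_option autoImplicit false
set_option maxSynthPendingDepth 6
open scoped ContDiff Topology
open MeasureTheory Set Filter Metric

namespace Claimed.Agent.Lib.Sob

variable {E : Type*} [NormedAddCommGroup E] [NormedSpace ℝ E] [FiniteDimensional ℝ E]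
  [MeasurableSpace E] [BorelSpace E]
variable {F : Type*} [NormedAddCommGroup F] [NormedSpace ℝ F] [FiniteDimensional ℝ F]
variable {μ : Measure E} [μ.IsAddHaarMeasure]

/-- the statement `eqOn_of_ae_eq` of `Api.lean`. -/
theorem eqOn_of_ae_eq' {U : Set E} (hU : IsOpen U) {u v : E → F} (hu : ContinuousOn u U)
    (hv : ContinuousOn v U) (h : ∀ᵐ x ∂(μ.restrict U), u x = v x) : EqOn u v U :=
  Measure.eqOn_open_of_ae_eq h hU hu hv

/-- the statement `exists_smooth_rep` of `Api.lean`. -/
theorem exists_smooth_rep' {U : Set E} (hU : IsOpen U) {u : E → F} (hu : ∀ k : ℕ, HkLoc μ U k u) :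
    ∃ v : E → F, ContDiffOn ℝ ∞ v U ∧ ∀ᵐ x ∂(μ.restrict U), u x = v x := by
  have key : ∀ x ∈ U, ∀ j : ℕ, ∃ (ρ : ℝ) (w : E → F), 0 < ρ ∧ ball x ρ ⊆ U ∧
      (∀ᵐ y ∂(μ.restrict (ball x ρ)), u y = w y) ∧ ContDiffOn ℝ j w (ball x ρ) := by
    intro x hx j
    obtain ⟨R, hR, hRU, C, hC⟩ := hu (j + sobN E) x hx
    obtain ⟨C', -, h'⟩ := embedding_ball' μ F j x (half_pos hR) (half_lt_self hR)
    obtain ⟨w, hw1, hw2⟩ := h' u (max C 0) (le_max_right _ _) (hC.mono (le_max_left _ _))
    exact ⟨R / 2, w, half_pos hR, (ball_subset_ball (half_le_self hR.le)).trans hRU, hw1,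
      hw2.contDiffOn⟩
  choose! ρ w hρ hsub hae hcd using key
  set v : E → F := fun y => w y 0 y with hv
  have claim : ∀ x ∈ U, ∀ j : ℕ, EqOn v (w x j) (ball x (ρ x j)) := by
    intro x hx j y hy
    have hyU : y ∈ U := hsub x hx j hy
    set O := ball x (ρ x j) ∩ ball y (ρ y 0) with hO
    have hOo : IsOpen O := isOpen_ball.inter isOpen_ball
    have hyO : y ∈ O := ⟨hy, mem_ball_self (hρ y hyU 0)⟩
    have c1 : ContinuousOn (w y 0) O := (hcd y hyU 0).continuousOn.mono inter_subset_right
    have c2 : ContinuousOn (w x j) O := (hcd x hx j).continuousOn.mono inter_subset_left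
    have a1 := ae_restrict_of_ae_restrict_of_subset (inter_subset_right : O ⊆ _) (hae y hyU 0)
    have a2 := ae_restrict_of_ae_restrict_of_subset (inter_subset_left : O ⊆ _) (hae x hx j)
    have a3 : ∀ᵐ z ∂(μ.restrict O), w y 0 z = w x j z := by
      filter_upwards [a1, a2] with z h1 h2
      rw [← h1, ← h2]
    exact eqOn_of_ae_eq' hOo c1 c2 a3 hyO
  refine ⟨v, ?_, ?_⟩
  · rw [contDiffOn_infty]
    intro n x hx
    have h1 : ContDiffAt ℝ n (w x n) x := (hcd x hx n).contDiffAt (ball_mem_nhds x (hρ x hx n))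
    have h2 : v =ᶠ[𝓝 x] w x n := by
      filter_upwards [ball_mem_nhds x (hρ x hx n)] with y hy using claim x hx n hy
    exact (h1.congr_of_eventuallyEq h2).contDiffWithinAt
  · obtain ⟨t, htU, htc, hcov⟩ := TopologicalSpace.countable_cover_nhdsWithin
      (f := fun x => ball x (ρ x 0)) (s := U)
      (fun x hx => mem_nhdsWithin_of_mem_nhds (ball_mem_nhds x (hρ x hx 0)))
    apply ae_restrict_of_ae_restrict_of_subset hcov
    rw [ae_restrict_biUnion_iff _ htc]
    intro x hx
    filter_upwards [hae x (htU hx) 0, ae_restrict_mem measurableSet_ball] with y h1 h2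
    rw [h1, claim x (htU hx) 0 h2]

end Claimed.Agent.Lib.Sob
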