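import Claimed.Agent.Lib.Sob.Test
import Claimed.Agent.Lib.Sob.Ck

/-!
# `Lib/Sob/Ext`: extension of an elliptic coefficient from a ball to the whole space (leaf SOB-Ext)

PLAN
* `exists_elliptic_const`: basis `b` of `E`, `A₀ ξ = ∑ i, ξ (b i) • b i`, `ξ (A₀ ξ) = ∑ i (ξ (b i))²`.  Lower bound: the function
  `ξ ↦ ∑ (ξ (b i))²` is continuous and positive on the compact unit sphere of the finite dimensional space `E →L[ℝ] ℝ`
  (`isCompact_sphere`, `IsCompact.exists_isMinOn`; if the sphere is empty, i.e. `E` trivial, everything is `0`), homogeneity.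
* `exists_ext_coeff`: `η` = cutoff (`exists_cutoff_ball x₀` with radii `ρ < R`), `Ã x = η x • A x + (1 - η x) • A₀`.
  Smooth: `IsTest.smul_of_contDiffOn`.  `Ã = A` on `ball x₀ ρ`.  Ellipticity: convex combination, constant `min lam c₀`;
  off `ball x₀ R`: `η = 0`.  Bounds: on `ball x₀ R` by `CkLe.smul` (constant of `η` from `IsTest.exists_ckLe`), on the open set
  `(tsupport η)ᶜ` the function is the constant `A₀`; the two open sets cover `E` and `iteratedFDeriv` is local.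
  NOTE the order of quantifiers: `lam', Lam'` are chosen before `A`.
~350 lines.  Statements verbatim.
-/

set_option autoImplicit false
set_option maxSynthPendingDepth 6
set_option linter.unusedSectionVars false
set_option linter.unusedVariables false
open scoped ContDiff Topology
open Set Filter Metric

namespace Claimed.Agent.Lib.Sob

variable {E : Type*} [NormedAddCommGroup E] [NormedSpace ℝ E] [FiniteDimensional ℝ E]

/-- homogeneity: a lower bound on the unit sphere gives the quadratic lower bound. -/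
theorem ext_homog {T : (E →L[ℝ] ℝ) →L[ℝ] E} {c : ℝ} (h : ∀ ξ : E →L[ℝ] ℝ, ‖ξ‖ = 1 → c ≤ ξ (T ξ))
    (ξ : E →L[ℝ] ℝ) : c * ‖ξ‖ ^ 2 ≤ ξ (T ξ) := by
  rcases eq_or_ne ξ 0 with rfl | hξ
  · simp
  · have hn : ‖ξ‖ ≠ 0 := norm_ne_zero_iff.2 hξ
    have h1 := h (‖ξ‖⁻¹ • ξ) (by rw [norm_smul, norm_inv, norm_norm, inv_mul_cancel₀ hn])
    have h2 : (‖ξ‖⁻¹ • ξ) (T (‖ξ‖⁻¹ • ξ)) = (‖ξ‖ ^ 2)⁻¹ * ξ (T ξ) := by
      rw [map_smul, _root_.smul_apply, map_smul, smul_eq_mul, smul_eq_mul, ← mul_assoc, sq,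
        mul_inv]
    rw [h2] at h1
    have h3 : 0 < ‖ξ‖ ^ 2 := by positivity
    calc c * ‖ξ‖ ^ 2 ≤ ((‖ξ‖ ^ 2)⁻¹ * ξ (T ξ)) * ‖ξ‖ ^ 2 := mul_le_mul_of_nonneg_right h1 h3.le
      _ = ξ (T ξ) := by field_simp

theorem ext_elliptic_of_isCompact_aux {U K : Set E} {A : E → (E →L[ℝ] ℝ) →L[ℝ] E} (hA : ContinuousOn A U)
    (hell : ∀ x ∈ U, ∀ ξ : E →L[ℝ] ℝ, ξ ≠ 0 → 0 < ξ (A x ξ)) (hK : IsCompact K) (hKU : K ⊆ U) :
    ∃ lam : ℝ, 0 < lam ∧ Elliptic K A lam := by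
  have hS : IsCompact (K ×ˢ sphere (0 : E →L[ℝ] ℝ) 1) := hK.prod (isCompact_sphere _ _)
  have hc : ContinuousOn (fun p : E × (E →L[ℝ] ℝ) => p.2 (A p.1 p.2)) (K ×ˢ sphere (0 : E →L[ℝ] ℝ) 1) := by
    have h1 : ContinuousOn (fun p : E × (E →L[ℝ] ℝ) => A p.1) (K ×ˢ sphere (0 : E →L[ℝ] ℝ) 1) :=
      (hA.mono hKU).comp continuousOn_fst fun p hp => hp.1
    exact continuousOn_snd.clm_apply (h1.clm_apply continuousOn_snd)
  rcases (K ×ˢ sphere (0 : E →L[ℝ] ℝ) 1).eq_empty_or_nonempty with he | hne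
  · refine ⟨1, one_pos, fun x hx => ext_homog fun ξ hξ => ?_⟩
    have : (x, ξ) ∈ K ×ˢ sphere (0 : E →L[ℝ] ℝ) 1 := ⟨hx, by simpa using hξ⟩
    rw [he] at this
    exact absurd this (notMem_empty _)
  · obtain ⟨p, hp, hmin⟩ := hS.exists_isMinOn hne hc
    have hp2 : p.2 ≠ 0 := by
      intro h0
      have : ‖p.2‖ = 1 := by simpa using hp.2
      rw [h0, norm_zero] at this
      exact zero_ne_one this
    refine ⟨p.2 (A p.1 p.2), hell p.1 (hKU hp.1) p.2 hp2, fun x hx => ext_homog fun ξ hξ => ?_⟩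
    exact hmin (show (x, ξ) ∈ K ×ˢ sphere (0 : E →L[ℝ] ℝ) 1 from ⟨hx, by simpa using hξ⟩)

theorem exists_elliptic_const (E : Type*) [NormedAddCommGroup E] [NormedSpace ℝ E] [FiniteDimensional ℝ E] :
    ∃ (A₀ : (E →L[ℝ] ℝ) →L[ℝ] E) (c₀ : ℝ), 0 < c₀ ∧ ∀ ξ : E →L[ℝ] ℝ, c₀ * ‖ξ‖ ^ 2 ≤ ξ (A₀ ξ) := by
  classical
  set b := Module.finBasis ℝ E with hb
  set A₀ : (E →L[ℝ] ℝ) →L[ℝ] E := ∑ i, (ContinuousLinearMap.apply ℝ ℝ (b i)).smulRight (b i) with hA₀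
  have hval : ∀ ξ : E →L[ℝ] ℝ, ξ (A₀ ξ) = ∑ i, (ξ (b i)) ^ 2 := by
    intro ξ
    rw [hA₀, _root_.sum_apply, map_sum]
    refine Finset.sum_congr rfl fun i _ => ?_
    rw [ContinuousLinearMap.smulRight_apply, ContinuousLinearMap.apply_apply, map_smul, smul_eq_mul, sq]
  have hpos : ∀ ξ : E →L[ℝ] ℝ, ξ ≠ 0 → 0 < ξ (A₀ ξ) := by
    intro ξ hξ
    rw [hval]
    have : ∃ i, ξ (b i) ≠ 0 := by
      by_contra hcon
      push Not at hcon
      apply hξ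
      apply ContinuousLinearMap.coe_injective
      exact b.ext fun i => by simpa using hcon i
    obtain ⟨i, hi⟩ := this
    exact Finset.sum_pos' (fun j _ => sq_nonneg _) ⟨i, Finset.mem_univ _, by positivity⟩
  obtain ⟨c₀, hc₀, h⟩ := ext_elliptic_of_isCompact_aux (U := univ) (K := {(0 : E)}) (A := fun _ => A₀)
    continuousOn_const (fun _ _ ξ hξ => hpos ξ hξ) isCompact_singleton (subset_univ _)
  exact ⟨A₀, c₀, hc₀, fun ξ => h 0 (mem_singleton _) ξ⟩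

theorem exists_ext_coeff [MeasurableSpace E] (k : ℕ) (x₀ : E) {ρ R lam Lam : ℝ} (hρ : 0 < ρ) (hρR : ρ < R)
    (hlam : 0 < lam) :
    ∃ lam' Lam' : ℝ, 0 < lam' ∧ 0 ≤ Lam' ∧ ∀ A : E → (E →L[ℝ] ℝ) →L[ℝ] E,
      ContDiffOn ℝ ∞ A (ball x₀ R) → CkLe (ball x₀ R) k A Lam → Elliptic (ball x₀ R) A lam →
      ∃ A' : E → (E →L[ℝ] ℝ) →L[ℝ] E, ContDiff ℝ ∞ A' ∧ (∀ x ∈ ball x₀ ρ, A' x = A x) ∧
        CkLe univ k A' Lam' ∧ Elliptic univ A' lam' := by
  obtain ⟨A₀, c₀, hc₀, hA₀⟩ := exists_elliptic_const E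
  obtain ⟨η, hη, hη1, hη01, -⟩ := exists_cutoff_ball x₀ hρ hρR
  obtain ⟨Λη, hΛη, hηk⟩ := hη.exists_ckLe k
  have hx₀ : x₀ ∈ ball x₀ R := mem_ball_self (hρ.trans hρR)
  refine ⟨min lam c₀, 2 ^ k * Λη * |Lam| + 2 ^ k * (‖(1 : ℝ)‖ + Λη) * ‖A₀‖, lt_min hlam hc₀, by positivity, ?_⟩
  intro A hA hAk hAe
  have hLam : 0 ≤ Lam := hAk.nonneg hx₀
  have hs1 : IsTestV (ball x₀ R) (fun x => η x • A x) := hη.smul_of_contDiffOn isOpen_ball hA
  have hs2 : ContDiff ℝ ∞ (fun x => (1 - η x) • A₀) := (contDiff_const.sub hη.smooth).smul contDiff_const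
  have hk1 : CkLe univ k (fun x => η x • A x) (2 ^ k * Λη * |Lam|) := by
    refine ⟨(hs1.smooth.of_le (by exact_mod_cast le_top)).contDiffOn, fun j hj x _ => ?_⟩
    by_cases hx : x ∈ ball x₀ R
    · have := (hηk.mono_set (subset_univ (ball x₀ R))).smul isOpen_ball hAk hΛη hLam
      rw [abs_of_nonneg hLam]
      exact this.2 j hj x hx
    · have h0 : (fun x => η x • A x) =ᶠ[𝓝 x] 0 :=
        notMem_tsupport_iff_eventuallyEq.1 fun h => hx (hs1.supp h)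
      rw [(Filter.EventuallyEq.iteratedFDeriv ℝ h0 j).eq_of_nhds]
      have : iteratedFDeriv ℝ j (0 : E → (E →L[ℝ] ℝ) →L[ℝ] E) x = 0 := by
        simp
      rw [this, norm_zero]
      positivity
  have hk2 : CkLe univ k (fun x => (1 - η x) • A₀) (2 ^ k * (‖(1 : ℝ)‖ + Λη) * ‖A₀‖) :=
    ((ckLe_const (1 : ℝ) k).sub isOpen_univ hηk).smul isOpen_univ (ckLe_const A₀ k) (by positivity)
      (norm_nonneg _)
  refine ⟨fun x => η x • A x + (1 - η x) • A₀, hs1.smooth.add hs2, fun x hx => ?_, hk1.add isOpen_univ hk2,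
    fun x _ ξ => ?_⟩
  · show η x • A x + (1 - η x) • A₀ = A x
    rw [hη1 x (ball_subset_closedBall hx)]
    simp
  · have hn : 0 ≤ ‖ξ‖ ^ 2 := by positivity
    have e : ξ ((η x • A x + (1 - η x) • A₀) ξ) = η x * ξ (A x ξ) + (1 - η x) * ξ (A₀ ξ) := by
      simp only [_root_.add_apply, _root_.smul_apply, map_add, map_smul,
        smul_eq_mul]
    rw [e]
    have h2 : min lam c₀ * ‖ξ‖ ^ 2 ≤ ξ (A₀ ξ) :=
      (mul_le_mul_of_nonneg_right (min_le_right _ _) hn).trans (hA₀ ξ)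
    by_cases hx : x ∈ ball x₀ R
    · have h1 : min lam c₀ * ‖ξ‖ ^ 2 ≤ ξ (A x ξ) :=
        (mul_le_mul_of_nonneg_right (min_le_left _ _) hn).trans (hAe x hx ξ)
      have a1 := mul_le_mul_of_nonneg_left h1 (hη01 x).1
      have a2 := mul_le_mul_of_nonneg_left h2 (sub_nonneg.2 (hη01 x).2)
      nlinarith
    · rw [hη.eq_zero_of_notMem hx]
      simpa using h2

/-- a smooth pointwise elliptic coefficient is uniformly elliptic on compact sets. -/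
theorem exists_elliptic_of_isCompact {U K : Set E} {A : E → (E →L[ℝ] ℝ) →L[ℝ] E} (hA : ContinuousOn A U)
    (hell : ∀ x ∈ U, ∀ ξ : E →L[ℝ] ℝ, ξ ≠ 0 → 0 < ξ (A x ξ)) (hK : IsCompact K) (hKU : K ⊆ U) :
    ∃ lam : ℝ, 0 < lam ∧ Elliptic K A lam :=
  ext_elliptic_of_isCompact_aux hA hell hK hKU

end Claimed.Agent.Lib.Sob
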