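import Claimed.Agent.Lib.Sob.Lower
import Claimed.Agent.Lib.Sob.Emb4

/-!
# `Lib/Sob/Final`: regularity of weak solutions, interior `C^k` estimates (leaf SOB-Final)

All imported statements are black boxes (`interior_Hk_lower'`, `embedding_ball'`, `exists_smooth_rep'`, `eqOn_of_ae_eq'`,
`exists_ckLe_of_isCompact`, `exists_elliptic_of_isCompact`, `hkLe_of_ckLe`).

PLAN
* `hkLoc_of_weakSol`: fix `x ∈ U`, `R > 0` with `closedBall x R ⊆ U` (`Metric.nhds_basis_closedBall.mem_iff`).  On the compact `closedBall x R`: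
  bounds `Λ` of order `k + 1` for `A, b, c, d, f, H` (`exists_ckLe_of_isCompact` with `V = ball x R`; take the max), ellipticity constant
  (`exists_elliptic_of_isCompact`, restrict to the ball), `u ∈ L²(ball)` (`L2Loc` on the closed ball, `L2Le.mono_set`),
  `f, H ∈ H^k, H^{k+1}(ball)` (`hkLe_of_ckLe`, `measure_ball_lt_top`); restrict `hG`, `hG2`, `hsol` to the ball; take `M` = max of the constants;
  `interior_Hk_lower'` with `r = R/2`; `HkLe.mono_order`.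
* `smooth_of_weakSol'`: `exists_smooth_rep'`.
* `interior_Ck'`: `N = sobN E`, `k₁ = k + N`, `K = k₁ + 1`, `ρ = (r + R)/2`; BEFORE THE DATA: `C₁` from `interior_Hk_lower' μ F k₁ x₀ (ρ < R)`,
  `C₂` from `embedding_ball' μ F k x₀ (r < ρ)`, `m₀ = √(μ (ball x₀ R))`.  DATA: `f ∈ H^{k₁}`, `H ∈ H^{k₁+1}` with constant `M m₀`;
  `M' = M (1 + m₀)`; `HkLe μ B_ρ (k₁ + 2) u (C₁ M')`, lower the order to `k + N`; `w` with `CkLe B_r k w (C₂ C₁ M')`, `u = w` a.e. on `B_r`.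
  `v` := smooth representative on `B_R` (`smooth_of_weakSol'`; pointwise ellipticity from `Elliptic` and `0 < lam`: `ξ ≠ 0 → 0 < lam ‖ξ‖²`).
  `v = w` on `B_r` (`eqOn_of_ae_eq'`), `CkLe.congr`.
~450 lines.  Statements verbatim.
-/

set_option autoImplicit false
set_option maxSynthPendingDepth 6
open scoped ContDiff Topology
open MeasureTheory Set Filter Metric

namespace Claimed.Agent.Lib.Sob

variable {E : Type*} [NormedAddCommGroup E] [NormedSpace ℝ E] [FiniteDimensional ℝ E]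
  [MeasurableSpace E] [BorelSpace E]
variable {F : Type*} [NormedAddCommGroup F] [NormedSpace ℝ F] [FiniteDimensional ℝ F]

theorem hkLoc_of_weakSol {μ : Measure E} [μ.IsAddHaarMeasure] {U : Set E} (hU : IsOpen U)
    {A : E → (E →L[ℝ] ℝ) →L[ℝ] E}
    {b : E → (E →L[ℝ] F) →L[ℝ] F} {c : E → F →L[ℝ] F} {d : E → F →L[ℝ] ((E →L[ℝ] ℝ) →L[ℝ] F)}
    {u : E → F} {G : E → E →L[ℝ] F} {f : E → F} {H : E → (E →L[ℝ] ℝ) →L[ℝ] F}
    (hA : ContDiffOn ℝ ∞ A U) (hb : ContDiffOn ℝ ∞ b U) (hc : ContDiffOn ℝ ∞ c U) (hd : ContDiffOn ℝ ∞ d U)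
    (hf : ContDiffOn ℝ ∞ f U) (hH : ContDiffOn ℝ ∞ H U)
    (hell : ∀ x ∈ U, ∀ ξ : E →L[ℝ] ℝ, ξ ≠ 0 → 0 < ξ (A x ξ))
    (hG : HasWeakFDeriv μ U u G) (hu2 : L2Loc μ U u) (hG2 : L2Loc μ U G)
    (hsol : IsWeakSol μ U A G (fun x => f x + b x (G x) + c x (u x)) (fun x => H x + d x (u x))) (k : ℕ) :
    HkLoc μ U k u := by
  intro x hx
  obtain ⟨R, hR, hRU⟩ := Metric.nhds_basis_closedBall.mem_iff.1 (hU.mem_nhds hx)
  have hK : IsCompact (closedBall x R) := isCompact_closedBall x R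
  have hBK : ball x R ⊆ closedBall x R := ball_subset_closedBall
  have hBU : ball x R ⊆ U := hBK.trans hRU
  obtain ⟨ΛA, hΛA0, hΛA⟩ := exists_ckLe_of_isCompact hU hA hK hRU hBK (k + 1)
  obtain ⟨Λb, hΛb0, hΛb⟩ := exists_ckLe_of_isCompact hU hb hK hRU hBK k
  obtain ⟨Λc, hΛc0, hΛc⟩ := exists_ckLe_of_isCompact hU hc hK hRU hBK k
  obtain ⟨Λd, hΛd0, hΛd⟩ := exists_ckLe_of_isCompact hU hd hK hRU hBK (k + 1)
  obtain ⟨Λf, hΛf0, hΛf⟩ := exists_ckLe_of_isCompact hU hf hK hRU hBK k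
  obtain ⟨ΛH, hΛH0, hΛH⟩ := exists_ckLe_of_isCompact hU hH hK hRU hBK (k + 1)
  obtain ⟨lam, hlam, hell'⟩ := exists_elliptic_of_isCompact hA.continuousOn hell hK hRU
  obtain ⟨D, hD0, hD⟩ := hu2.exists_l2Le hK hRU
  have hμ : μ (ball x R) ≠ ⊤ := measure_ball_lt_top.ne
  have hfk := hkLe_of_ckLe (μ := μ) isOpen_ball hμ hΛf0 hΛf
  have hHk := hkLe_of_ckLe (μ := μ) isOpen_ball hμ hΛH0 hΛH
  set m₀ : ℝ := Real.sqrt (μ (ball x R)).toReal with hm₀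
  set Lam : ℝ := max (max ΛA Λb) (max Λc Λd) with hLam
  set M : ℝ := max D (max (Λf * m₀) (ΛH * m₀)) with hM
  have hM0 : 0 ≤ M := hD0.trans (le_max_left _ _)
  obtain ⟨C, hC0, hC⟩ := interior_Hk_lower' μ F k x (r := R / 2) (R := R) (lam := lam) (Lam := Lam)
    (by positivity) (by linarith) hlam
  have key := hC A b c d u G f H M hM0 (hA.mono hBU) (hb.mono hBU) (hc.mono hBU) (hd.mono hBU)
    (hΛA.mono ((le_max_left _ _).trans (le_max_left _ _)))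
    (hΛb.mono ((le_max_right _ _).trans (le_max_left _ _)))
    (hΛc.mono ((le_max_left _ _).trans (le_max_right _ _)))
    (hΛd.mono ((le_max_right _ _).trans (le_max_right _ _)))
    (fun y hy => hell' y (hBK hy)) (hG.mono hBU) (hG2.mono_set hBU)
    ((hD.mono_set hBK).mono (le_max_left _ _))
    (hfk.mono ((le_max_left _ _).trans (le_max_right _ _)))
    (hHk.mono ((le_max_right _ _).trans (le_max_right _ _)))
    (hsol.mono hBU)
  exact ⟨R / 2, by positivity, (ball_subset_ball (by linarith)).trans hBU, C * M,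
    key.mono_order (by omega)⟩

/-- the statement `smooth_of_weakSol` of `Api.lean`. -/
theorem smooth_of_weakSol' {μ : Measure E} [μ.IsAddHaarMeasure] {U : Set E} (hU : IsOpen U)
    {A : E → (E →L[ℝ] ℝ) →L[ℝ] E}
    {b : E → (E →L[ℝ] F) →L[ℝ] F} {c : E → F →L[ℝ] F} {d : E → F →L[ℝ] ((E →L[ℝ] ℝ) →L[ℝ] F)}
    {u : E → F} {G : E → E →L[ℝ] F} {f : E → F} {H : E → (E →L[ℝ] ℝ) →L[ℝ] F}
    (hA : ContDiffOn ℝ ∞ A U) (hb : ContDiffOn ℝ ∞ b U) (hc : ContDiffOn ℝ ∞ c U) (hd : ContDiffOn ℝ ∞ d U)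
    (hf : ContDiffOn ℝ ∞ f U) (hH : ContDiffOn ℝ ∞ H U)
    (hell : ∀ x ∈ U, ∀ ξ : E →L[ℝ] ℝ, ξ ≠ 0 → 0 < ξ (A x ξ))
    (hG : HasWeakFDeriv μ U u G) (hu2 : L2Loc μ U u) (hG2 : L2Loc μ U G)
    (hsol : IsWeakSol μ U A G (fun x => f x + b x (G x) + c x (u x)) (fun x => H x + d x (u x))) :
    ∃ v : E → F, ContDiffOn ℝ ∞ v U ∧ ∀ᵐ x ∂(μ.restrict U), u x = v x :=
  exists_smooth_rep' hU (fun k => hkLoc_of_weakSol hU hA hb hc hd hf hH hell hG hu2 hG2 hsol k)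

/-- the statement `interior_Ck` of `Api.lean`. -/
theorem interior_Ck' (μ : Measure E) [μ.IsAddHaarMeasure]
    (F : Type*) [NormedAddCommGroup F] [NormedSpace ℝ F] [FiniteDimensional ℝ F]
    (k : ℕ) (x₀ : E) {r R lam Lam : ℝ} (hr : 0 < r) (hrR : r < R) (hlam : 0 < lam) :
    ∃ (K : ℕ) (C : ℝ), 0 ≤ C ∧ ∀ (A : E → (E →L[ℝ] ℝ) →L[ℝ] E) (b : E → (E →L[ℝ] F) →L[ℝ] F)
      (c : E → F →L[ℝ] F) (d : E → F →L[ℝ] ((E →L[ℝ] ℝ) →L[ℝ] F)) (u : E → F) (G : E → E →L[ℝ] F)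
      (f : E → F) (H : E → (E →L[ℝ] ℝ) →L[ℝ] F) (M : ℝ), 0 ≤ M →
      ContDiffOn ℝ ∞ A (ball x₀ R) → ContDiffOn ℝ ∞ b (ball x₀ R) → ContDiffOn ℝ ∞ c (ball x₀ R) →
      ContDiffOn ℝ ∞ d (ball x₀ R) → ContDiffOn ℝ ∞ f (ball x₀ R) → ContDiffOn ℝ ∞ H (ball x₀ R) →
      CkLe (ball x₀ R) K A Lam → CkLe (ball x₀ R) K b Lam → CkLe (ball x₀ R) K c Lam →
      CkLe (ball x₀ R) K d Lam → Elliptic (ball x₀ R) A lam →
      CkLe (ball x₀ R) K f M → CkLe (ball x₀ R) K H M →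
      HasWeakFDeriv μ (ball x₀ R) u G → L2Loc μ (ball x₀ R) G → L2Le μ (ball x₀ R) u M →
      IsWeakSol μ (ball x₀ R) A G (fun x => f x + b x (G x) + c x (u x)) (fun x => H x + d x (u x)) →
      ∃ v : E → F, ContDiffOn ℝ ∞ v (ball x₀ R) ∧ (∀ᵐ x ∂(μ.restrict (ball x₀ R)), u x = v x) ∧
        CkLe (ball x₀ r) k v (C * M) := by
  have hrρ : r < (r + R) / 2 := by linarith
  have hρR : (r + R) / 2 < R := by linarith
  have hρ : 0 < (r + R) / 2 := by linarith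
  obtain ⟨C₁, hC₁0, hC₁⟩ := interior_Hk_lower' μ F (k + sobN E) x₀ (r := (r + R) / 2) (R := R) (lam := lam)
    (Lam := Lam) hρ hρR hlam
  obtain ⟨C₂, hC₂0, hC₂⟩ := embedding_ball' μ F k x₀ (r := r) (R := (r + R) / 2) hr hrρ
  set m₀ : ℝ := Real.sqrt (μ (ball x₀ R)).toReal with hm₀
  have hm₀0 : 0 ≤ m₀ := Real.sqrt_nonneg _
  refine ⟨k + sobN E + 1, C₂ * (C₁ * (1 + m₀)), by positivity, ?_⟩
  intro A b c d u G f H M hM hA hb hc hd hf hH hAk hbk hck hdk hell hfk hHk hG hG2 hu2 hsol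
  have hμ : μ (ball x₀ R) ≠ ⊤ := measure_ball_lt_top.ne
  have hf' : HkLe μ (ball x₀ R) (k + sobN E) f (M * m₀) :=
    hkLe_of_ckLe isOpen_ball hμ hM (hfk.mono_order (by omega))
  have hH' : HkLe μ (ball x₀ R) (k + sobN E + 1) H (M * m₀) := hkLe_of_ckLe isOpen_ball hμ hM hHk
  have hM'0 : 0 ≤ M * (1 + m₀) := by positivity
  have hle1 : M ≤ M * (1 + m₀) := by nlinarith
  have hle2 : M * m₀ ≤ M * (1 + m₀) := by nlinarith
  have h1 := hC₁ A b c d u G f H (M * (1 + m₀)) hM'0 hA hb hc hd hAk (hbk.mono_order (by omega))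
    (hck.mono_order (by omega)) hdk hell hG hG2 (hu2.mono hle1) (hf'.mono hle2) (hH'.mono hle2) hsol
  obtain ⟨w, hw1, hw2⟩ := hC₂ u (C₁ * (M * (1 + m₀))) (by positivity) (h1.mono_order (by omega))
  have hpt : ∀ x ∈ ball x₀ R, ∀ ξ : E →L[ℝ] ℝ, ξ ≠ 0 → 0 < ξ (A x ξ) := by
    intro x hx ξ hξ
    have h2 : 0 < lam * ‖ξ‖ ^ 2 := by
      have : 0 < ‖ξ‖ := norm_pos_iff.2 hξ
      positivity
    exact h2.trans_le (hell x hx ξ)
  obtain ⟨v, hv1, hv2⟩ := smooth_of_weakSol' isOpen_ball hA hb hc hd hf hH hpt hG hu2.l2Loc hG2 hsol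
  refine ⟨v, hv1, hv2, ?_⟩
  have hBr : ball x₀ r ⊆ ball x₀ R := ball_subset_ball hrR.le
  have heq : EqOn w v (ball x₀ r) := by
    refine eqOn_of_ae_eq' (μ := μ) isOpen_ball hw2.1.continuousOn (hv1.continuousOn.mono hBr) ?_
    filter_upwards [hw1, ae_restrict_of_ae_restrict_of_subset hBr hv2] with x h1 h2
    rw [← h1, h2]
  have h3 := hw2.congr isOpen_ball heq
  have e : C₂ * (C₁ * (1 + m₀)) * M = C₂ * (C₁ * (M * (1 + m₀))) := by ring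
  rw [e]
  exact h3

end Claimed.Agent.Lib.Sob
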