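import Claimed.Agent.Lib.Sob.WS0
import Claimed.Agent.Lib.Sob.Ext
import Claimed.Agent.Lib.Sob.Sol

/-!
# `Lib/Sob/Int0`: interior `H²` estimate (leaf SOB-Int0)

Glue of `ws0` (whole space), `exists_ext_coeff` (extension of the coefficient), `IsWeakSol.cutoff`, `exists_const_div`.
All statements of the imported files are black boxes.

PLAN for `interior_H2`.  CHOOSE BEFORE THE DATA: `ρ = (r + R) / 2`; `lam', Lam'` from `exists_ext_coeff 1 x₀ (ρ < R)`;
`χ` from `exists_cutoff_ball x₀ (r < ρ)` with its bound `Λχ` (`IsTest.exists_ckLe hχ 2`); `c_div` from `exists_const_div μ F`;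
`C₀` from `ws0 μ F (lam := lam') (Lam := Lam')`.
GIVEN THE DATA:
1. `A'` global, `= A` on `B_ρ`; `IsWeakSol μ B_ρ A' G f H` (`mono`, `congr_coeff`).
2. `h` := weak divergence of `H` on `B_ρ` (`exists_const_div`, `k = 0`), `L2Le μ B_ρ h (c_div M)`;
   `IsWeakSol μ B_ρ A' G (f - h) 0` (`of_div`).
3. `v = χ • u`, `Gv = dχ ⊗ u + χ G` (`HasWeakFDeriv.smul_test_univ`), `IsWeakSol μ univ A' Gv fv Hv` (`cutoff`) with
   `fv = χ (f - h) - G (A' dχ)`, `Hv x = B x (u x)`, `B x y = ((dχ_x).comp (A' x)).smulRight y`.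
   `B` is an `IsTestV B_ρ` function (smooth since `A'`, `χ` are; support in `tsupport χ`), `CkLe univ 1 B (2 Λχ Lam')`
   (`CkLe.clm_comp`, `CkLe.clm` with the linear map `ζ ↦ (y ↦ ζ.smulRight y)` of norm `≤ 1`,
   `ContinuousLinearMap.smulRightL`); `u ∈ H¹(B_ρ)` with constant `M` (`HkLe.of_fderiv`);
   `HkLe.clm_apply_univ` gives `HkLe μ univ 1 Hv (4 Λχ Lam' M)`.
4. `hv` := weak divergence of `Hv` on `univ`; `IsWeakSol μ univ A' Gv (fv - hv) 0`.
5. `L²(univ)` bounds: all functions vanish off `B_ρ` (`IsTest.eq_zero_of_notMem`), so `L2Le μ univ _ = L2Le μ B_ρ _`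
   (prove a small lemma `l2Le_univ_of_eq_zero`), `‖χ‖ ≤ 1`, `‖dχ‖ ≤ Λχ`, `‖A'‖ ≤ Lam'`.
6. `ws0` with `K = tsupport χ`, `M' = (const) M`: `HkLe μ univ 1 Gv (C₀ M')`.
7. on `B_r`: `χ = 1`, `dχ = 0`, so `Gv = G` there: `HkLe.mono_set`, `HkLe.congr_ae`.
~500 lines.  Statements verbatim.
-/

set_option autoImplicit false
set_option maxSynthPendingDepth 6
open scoped ContDiff Topology
open MeasureTheory Set Filter Metric

namespace Claimed.Agent.Lib.Sob

variable {E : Type*} [NormedAddCommGroup E] [NormedSpace ℝ E] [FiniteDimensional ℝ E]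
  [MeasurableSpace E] [BorelSpace E]

/-- a function vanishing off `U` has the same `L²` norm on `U` and on the whole space. -/
theorem l2Le_univ_of_eq_zero {F : Type*} [NormedAddCommGroup F] [NormedSpace ℝ F] {μ : Measure E} {U : Set E}
    (hU : MeasurableSet U) {u : E → F} {C : ℝ} (h : L2Le μ U u C) (h0 : ∀ x ∉ U, u x = 0) :
    L2Le μ univ u C := by
  have e : U.indicator u = u := by
    funext x
    by_cases hx : x ∈ U
    · rw [indicator_of_mem hx]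
    · rw [indicator_of_notMem hx, h0 x hx]
  unfold L2Le
  rw [Measure.restrict_univ, ← e]
  exact ⟨(memLp_indicator_iff_restrict hU).2 h.1, by rw [eLpNorm_indicator_eq_eLpNorm_restrict hU]; exact h.2⟩

theorem int0_smul_l2Le {Y : Type*} [NormedAddCommGroup Y] [NormedSpace ℝ Y] {μ : Measure E} {U : Set E}
    (hU : IsOpen U) {χ : E → ℝ} (hχ : IsTest U χ) (hχ01 : ∀ x, 0 ≤ χ x ∧ χ x ≤ 1) {w : E → Y} {D : ℝ}
    (hw : L2Le μ U w D) : L2Le μ univ (fun x => χ x • w x) D := by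
  refine l2Le_univ_of_eq_zero hU.measurableSet ?_ fun x hx => by rw [hχ.eq_zero_of_notMem hx, zero_smul]
  have := hw.of_norm_le (w := fun x => χ x • w x) zero_le_one
    (hχ.smooth.continuous.aestronglyMeasurable.smul hw.1.aestronglyMeasurable)
    (Filter.Eventually.of_forall fun x => by
      rw [norm_smul, Real.norm_eq_abs, abs_of_nonneg (hχ01 x).1]
      exact mul_le_mul_of_nonneg_right (hχ01 x).2 (norm_nonneg _))
  rwa [one_mul] at this

/-- **Interior `H²` estimate**: `-div(A du) = f - div H`, `f ∈ L²`, `H ∈ H¹` on `B_R` ⟹ `du ∈ H¹(B_r)`. -/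
theorem interior_H2 (μ : Measure E) [μ.IsAddHaarMeasure]
    (F : Type*) [NormedAddCommGroup F] [NormedSpace ℝ F] [FiniteDimensional ℝ F]
    (x₀ : E) {r R lam Lam : ℝ} (hr : 0 < r) (hrR : r < R) (hlam : 0 < lam) :
    ∃ C : ℝ, 0 ≤ C ∧ ∀ (A : E → (E →L[ℝ] ℝ) →L[ℝ] E) (u : E → F) (G : E → E →L[ℝ] F) (f : E → F)
      (H : E → (E →L[ℝ] ℝ) →L[ℝ] F) (M : ℝ), 0 ≤ M →
      ContDiffOn ℝ ∞ A (ball x₀ R) → CkLe (ball x₀ R) 1 A Lam → Elliptic (ball x₀ R) A lam →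
      HasWeakFDeriv μ (ball x₀ R) u G → L2Le μ (ball x₀ R) u M → L2Le μ (ball x₀ R) G M →
      L2Le μ (ball x₀ R) f M → HkLe μ (ball x₀ R) 1 H M →
      IsWeakSol μ (ball x₀ R) A G f H →
      HkLe μ (ball x₀ r) 1 G (C * M) := by
  set ρ : ℝ := (r + R) / 2 with hρdef
  have hrρ : r < ρ := by rw [hρdef]; linarith
  have hρR : ρ < R := by rw [hρdef]; linarith
  have hρ : 0 < ρ := hr.trans hrρ
  obtain ⟨lam', Lam', hlam', hLam', hext⟩ := exists_ext_coeff (E := E) 1 x₀ (Lam := Lam) hρ hρR hlam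
  obtain ⟨χ, hχ, hχ1, hχ01, hχd⟩ := exists_cutoff_ball x₀ hr hrρ
  obtain ⟨Λχ, hΛχ, hχk⟩ := hχ.exists_ckLe 2
  obtain ⟨cd, hcd, hdiv⟩ := exists_const_div μ F
  obtain ⟨C₀, hC₀, hws⟩ := ws0 μ F (lam := lam') (Lam := Lam') hlam'
  -- constants
  set SR := ContinuousLinearMap.smulRightL ℝ (E →L[ℝ] ℝ) F with hSR
  set SE := ContinuousLinearMap.smulRightL ℝ E F with hSE
  obtain ⟨nE, hnE⟩ : ∃ t : ℝ, t = ‖SE‖ := ⟨_, rfl⟩
  have hnE0 : 0 ≤ nE := hnE ▸ norm_nonneg _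
  obtain ⟨ΛB, hΛB⟩ : ∃ t : ℝ, t = ‖SR‖ * (2 ^ 1 * Λχ * Lam') := ⟨_, rfl⟩
  have hΛB0 : 0 ≤ ΛB := by rw [hΛB]; positivity
  obtain ⟨κ, hκ⟩ : ∃ t : ℝ, t = (nE * Λχ + 1) + ((1 + cd) + Lam' * Λχ + cd * (2 ^ 1 * ΛB)) := ⟨_, rfl⟩
  have hκ0 : 0 ≤ κ := by rw [hκ]; positivity
  refine ⟨C₀ * κ, by positivity, fun A u G f H M hM hA hAk hell hu hu2 hG2 hf2 hH hsol => ?_⟩
  obtain ⟨A', hA's, hA'eq, hA'k, hA'ell⟩ := hext A hA hAk hell
  have hsub : ball x₀ ρ ⊆ ball x₀ R := ball_subset_ball hρR.le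
  have hO : IsOpen (ball x₀ ρ) := isOpen_ball
  have hdχc : Continuous (fderiv ℝ χ) := hχ.smooth.continuous_fderiv (by simp)
  have hdχb : ∀ x, ‖fderiv ℝ χ x‖ ≤ Λχ := fun x => (hχk.ckLe_fderiv isOpen_univ).bound (mem_univ x)
  have hA'b : ∀ x, ‖A' x‖ ≤ Lam' := fun x => hA'k.bound (mem_univ x)
  have hdχ0 : ∀ x ∉ ball x₀ ρ, fderiv ℝ χ x = 0 := fun x hx => hχ.isTestV_fderiv.eq_zero_of_notMem hx
  have hχ0 : ∀ x ∉ ball x₀ ρ, χ x = 0 := fun x hx => hχ.eq_zero_of_notMem hx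
  -- step 1, 2
  have s1 : IsWeakSol μ (ball x₀ ρ) A' G f H := (hsol.mono hsub).congr_coeff hA'eq
  obtain ⟨h, hh, hhdiv⟩ := hdiv (ball x₀ ρ) 0 H M hO hM (hH.mono_set hsub)
  have hh2 : L2Le μ (ball x₀ ρ) h (cd * M) := hh
  have hf2' : L2Le μ (ball x₀ ρ) f M := hf2.mono_set hsub
  have hG2' : L2Le μ (ball x₀ ρ) G M := hG2.mono_set hsub
  have hu2' : L2Le μ (ball x₀ ρ) u M := hu2.mono_set hsub
  have s2 : IsWeakSol μ (ball x₀ ρ) A' G (fun x => f x - h x) 0 :=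
    s1.of_div hO (hf2'.l2Loc.locallyIntegrableOn hO) (hh2.l2Loc.locallyIntegrableOn hO) hhdiv
  have hfh : L2Le μ (ball x₀ ρ) (fun x => f x - h x) (M + cd * M) := hf2'.sub hh2 hM (by positivity)
  -- step 3
  have hu' : HasWeakFDeriv μ (ball x₀ ρ) u G := hu.mono hsub
  have s3 := s2.cutoff hO hA's.continuous.continuousOn hu' (hfh.l2Loc.locallyIntegrableOn hO) hχ
  have hζ : IsTestV (ball x₀ ρ) (fun x => (fderiv ℝ χ x).comp (A' x)) :=
    hχ.isTestV_fderiv.clm_apply_of_contDiffOn hO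
      (B := fun x => (ContinuousLinearMap.compL ℝ (E →L[ℝ] ℝ) E ℝ).flip (A' x))
      (((ContinuousLinearMap.compL ℝ (E →L[ℝ] ℝ) E ℝ).flip).contDiff.comp hA's).contDiffOn
  have hB : IsTestV (ball x₀ ρ) (fun x => SR ((fderiv ℝ χ x).comp (A' x))) := hζ.clm SR
  have hBk : CkLe univ 1 (fun x => SR ((fderiv ℝ χ x).comp (A' x))) ΛB := by
    rw [hΛB]
    exact ((hχk.ckLe_fderiv isOpen_univ).clm_comp isOpen_univ hA'k hΛχ hLam').clm isOpen_univ SR
  have hu1 : HkLe μ (ball x₀ ρ) 1 u M := HkLe.of_fderiv hM hu2' hu' (hkLe_zero.2 hG2')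
  have hHv : HkLe μ univ 1 (fun x => ((fderiv ℝ χ x).comp (A' x)).smulRight (u x)) (2 ^ 1 * ΛB * M) :=
    hu1.clm_apply_univ hO hB hBk hΛB0 hM
  -- step 4
  obtain ⟨hv, hhv, hhvdiv⟩ := hdiv univ 0 _ (2 ^ 1 * ΛB * M) isOpen_univ (by positivity) hHv
  have hhv2 : L2Le μ univ hv (cd * (2 ^ 1 * ΛB * M)) := hhv
  -- step 5
  have b1 : L2Le μ univ (fun x => (fderiv ℝ χ x).smulRight (u x)) (nE * Λχ * M) := by
    rw [hnE]
    refine l2Le_univ_of_eq_zero hO.measurableSet ?_ fun x hx => by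
      rw [hdχ0 x hx]; ext; simp
    exact L2Le.clm_apply (B := fun x => SE (fderiv ℝ χ x)) hu2' (by positivity)
      (SE.continuous.comp hdχc).aestronglyMeasurable
      (Filter.Eventually.of_forall fun x =>
        (SE.le_opNorm _).trans (mul_le_mul_of_nonneg_left (hdχb x) (norm_nonneg _)))
  have b2 : L2Le μ univ (fun x => χ x • G x) M := int0_smul_l2Le hO hχ hχ01 hG2'
  have bG : L2Le μ univ (fun x => (fderiv ℝ χ x).smulRight (u x) + χ x • G x) (κ * M) := by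
    refine (b1.add b2 (by positivity) hM).mono ?_
    have : 0 ≤ ((1 + cd) + Lam' * Λχ + cd * (2 ^ 1 * ΛB)) * M := by positivity
    have e : κ * M = (nE * Λχ * M + M) + ((1 + cd) + Lam' * Λχ + cd * (2 ^ 1 * ΛB)) * M := by rw [hκ]; ring
    linarith
  have b3 : L2Le μ univ (fun x => χ x • (f x - h x)) (M + cd * M) := int0_smul_l2Le hO hχ hχ01 hfh
  have b4 : L2Le μ univ (fun x => G x (A' x (fderiv ℝ χ x))) (Lam' * Λχ * M) := by
    refine l2Le_univ_of_eq_zero hO.measurableSet ?_ fun x hx => by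
      rw [hdχ0 x hx, map_zero, map_zero]
    exact hG2'.apply_bdd (w := fun x => A' x (fderiv ℝ χ x)) (by positivity)
      (hA's.continuous.clm_apply hdχc).aestronglyMeasurable
      (Filter.Eventually.of_forall fun x =>
        ((A' x).le_opNorm _).trans (mul_le_mul (hA'b x) (hdχb x) (norm_nonneg _) hLam'))
  have b34 := b3.sub b4 (by positivity) (by positivity)
  have bf : L2Le μ univ (fun x => (χ x • (f x - h x) - G x (A' x (fderiv ℝ χ x))) - hv x) (κ * M) := by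
    refine (b34.sub hhv2 (by positivity) (by positivity)).mono ?_
    have : 0 ≤ (nE * Λχ + 1) * M := by positivity
    have e : κ * M = (M + cd * M + Lam' * Λχ * M + cd * (2 ^ 1 * ΛB * M)) + (nE * Λχ + 1) * M := by
      rw [hκ]; ring
    linarith
  have s4 := s3.of_div isOpen_univ (b34.l2Loc.locallyIntegrableOn isOpen_univ)
    (hhv2.l2Loc.locallyIntegrableOn isOpen_univ) hhvdiv
  -- step 6
  have hv2 : MemLp (fun x => χ x • u x) 2 μ := by
    have := (int0_smul_l2Le hO hχ hχ01 hu2').1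
    rwa [Measure.restrict_univ] at this
  have key := hws A' (fun x => χ x • u x) _ _ (κ * M) (tsupport χ) (by positivity) hA'k hA'ell hχ.compact
    (fun x hx => by rw [image_eq_zero_of_notMem_tsupport hx, zero_smul])
    (hu'.smul_test_univ hO hχ) hv2 bG bf s4
  -- step 7
  rw [mul_assoc]
  refine (key.mono_set (subset_univ (ball x₀ r))).congr_ae isOpen_ball
    (ae_restrict_of_forall_mem isOpen_ball.measurableSet fun x hx => ?_)
  rw [hχd x hx, hχ1 x (ball_subset_closedBall hx), one_smul]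
  ext; simp

end Claimed.Agent.Lib.Sob
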