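import Claimed.Agent.Lib.Sob.Int0

/-!
# `Lib/Sob/IntK`: interior `H^{k+2}` estimates by induction (leaf SOB-IntK)

All statements of the imported files are black boxes (`interior_H2`, `IsWeakSol.deriv`, `HasWeakFDeriv.of_deriv`, `Hk.lean`).

PLAN for `interior_Hk_fderiv`: induction on `k`, GENERALIZING `r R` (and nothing else; `lam Lam x₀ F` are fixed).
`k = 0`: `interior_H2`.
`k → k+1`: `ρ = (r + R) / 2`; `C₁` := constant of the induction hypothesis for `(ρ, R)`, `C₂` := the one for `(r, ρ)`; then, given the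
data (`0 ≤ Lam` follows from `CkLe` at the point `x₀`):
1. induction hypothesis on `(ρ, R)` (lower the orders with `HkLe.mono_order`, `CkLe.mono_order`):
   `HkLe μ B_ρ (k+1) G (C₁ M)`.
2. fix a unit vector `v`.  `G' := ∂_v G` on `B_ρ` with `HkLe μ B_ρ k G' (C₁ M)` (definition of `HkLe (k+1)`);
   `H' := ∂_v H` on `B_R` with `HkLe μ B_R (k+1) H' M`.  `w := fun x => G x v` has the full weak derivative `G'` on `B_ρ`
   (`HasWeakFDeriv.of_deriv`) and solves (`IsWeakSol.deriv` on `B_ρ`)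
   `IsWeakSol μ B_ρ A G' 0 Hw`, `Hw = H' - G ∘ (∂_v A) - evSmul v f`.
3. `HkLe μ B_ρ (k+1) Hw ((2 + 2^(k+1) Lam C₁) M)`: `HkLe.comp_smooth` with `S = fun x => fderiv ℝ A x v`
   (`CkLe.fderiv_apply`, smoothness `ContDiffOn.fderiv_of_isOpen` + `clm_apply`), `hkLe_evSmul`, `HkLe.sub`.
4. induction hypothesis on `(r, ρ)` for `(w, G', 0, Hw)` with `M' = (3 + C₁ + 2^(k+1) Lam C₁) M`:
   `HkLe μ B_r (k+1) G' (C₂ M')`.
5. so every `∂_v G`, `‖v‖ ≤ 1`, is in `H^{k+1}(B_r)` (restrict the weak derivative with `HasWeakDeriv.mono`), and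
   `L2Le μ B_r G M`: this is `HkLe μ B_r (k+2) G (max 1 (C₂ ⋯) M)`.
`interior_Hk'`: `HkLe.of_fderiv`.
~400 lines.  Statements verbatim.
-/

set_option autoImplicit false
set_option maxSynthPendingDepth 6
open scoped ContDiff Topology
open MeasureTheory Set Filter Metric

namespace Claimed.Agent.Lib.Sob

variable {E : Type*} [NormedAddCommGroup E] [NormedSpace ℝ E] [FiniteDimensional ℝ E]
  [MeasurableSpace E] [BorelSpace E]

theorem interior_Hk_fderiv (μ : Measure E) [μ.IsAddHaarMeasure]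
    (F : Type*) [NormedAddCommGroup F] [NormedSpace ℝ F] [FiniteDimensional ℝ F]
    (k : ℕ) (x₀ : E) {r R lam Lam : ℝ} (hr : 0 < r) (hrR : r < R) (hlam : 0 < lam) :
    ∃ C : ℝ, 0 ≤ C ∧ ∀ (A : E → (E →L[ℝ] ℝ) →L[ℝ] E) (u : E → F) (G : E → E →L[ℝ] F) (f : E → F)
      (H : E → (E →L[ℝ] ℝ) →L[ℝ] F) (M : ℝ), 0 ≤ M →
      ContDiffOn ℝ ∞ A (ball x₀ R) → CkLe (ball x₀ R) (k + 1) A Lam → Elliptic (ball x₀ R) A lam →
      HasWeakFDeriv μ (ball x₀ R) u G → L2Le μ (ball x₀ R) u M → L2Le μ (ball x₀ R) G M →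
      HkLe μ (ball x₀ R) k f M → HkLe μ (ball x₀ R) (k + 1) H M →
      IsWeakSol μ (ball x₀ R) A G f H →
      HkLe μ (ball x₀ r) (k + 1) G (C * M) := by
  induction k generalizing r R with
  | zero => exact interior_H2 μ F x₀ hr hrR hlam
  | succ k ih =>
    obtain ⟨ρ, hρdef⟩ : ∃ t : ℝ, t = (r + R) / 2 := ⟨_, rfl⟩
    have hrρ : r < ρ := by rw [hρdef]; linarith
    have hρR : ρ < R := by rw [hρdef]; linarith
    have hρ : 0 < ρ := hr.trans hrρ
    obtain ⟨C₁, hC₁, h1⟩ := ih hρ hρR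
    obtain ⟨C₂, hC₂, h2⟩ := ih hr hrρ
    obtain ⟨κ, hκ⟩ : ∃ t : ℝ, t = 3 + C₁ + 2 ^ (k + 1) * |Lam| * C₁ := ⟨_, rfl⟩
    have hκ0 : 0 ≤ κ := by rw [hκ]; positivity
    refine ⟨1 + C₂ * κ, by positivity, fun A u G f H M hM hA hAk hell hu hu2 hG2 hf hH hsol => ?_⟩
    have hR : 0 < R := hρ.trans hρR
    have hLam : 0 ≤ Lam := hAk.nonneg (mem_ball_self hR)
    rw [abs_of_nonneg hLam] at hκ
    have hsub : ball x₀ ρ ⊆ ball x₀ R := ball_subset_ball hρR.le
    have hO : IsOpen (ball x₀ ρ) := isOpen_ball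
    have g1 : HkLe μ (ball x₀ ρ) (k + 1) G (C₁ * M) :=
      h1 A u G f H M hM hA (hAk.mono_order (by omega)) hell hu hu2 hG2 (hf.mono_order (by omega))
        (hH.mono_order (by omega)) hsol
    have hCM : 0 ≤ C₂ * κ * M := by positivity
    refine ⟨(hG2.mono_set (ball_subset_ball hrR.le)).mono (by nlinarith), fun v hv => ?_⟩
    obtain ⟨G', hG', hG'k⟩ := g1.2 v hv
    obtain ⟨H', hH', hH'k⟩ := hH.2 v hv
    have hw : HasWeakFDeriv μ (ball x₀ ρ) (fun x => G x v) G' := (hu.mono hsub).of_deriv hG'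
    have hfl : LocallyIntegrableOn f (ball x₀ ρ) μ :=
      ((hf.l2Le.mono_set hsub).l2Loc).locallyIntegrableOn hO
    have sw := IsWeakSol.deriv hO (hA.mono hsub) hG' (hH'.mono hsub) hfl (hsol.mono hsub)
    have t1 : HkLe μ (ball x₀ ρ) (k + 1) H' M := hH'k.mono_set hsub
    have t2 : HkLe μ (ball x₀ ρ) (k + 1) (fun x => (G x).comp (fderiv ℝ A x v))
        (2 ^ (k + 1) * Lam * (C₁ * M)) :=
      g1.comp_smooth hO (hk_contDiffOn_fderiv_apply hO (hA.mono hsub) v)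
        ((hAk.mono_set hsub).fderiv_apply hO hv) hLam (by positivity)
    have t3 : HkLe μ (ball x₀ ρ) (k + 1) (fun x => evSmul v (f x)) M := hkLe_evSmul hv hM (hf.mono_set hsub)
    have t4 := (t1.sub hO t2 hM (by positivity)).sub hO t3 (by positivity) hM
    have hM' : 0 ≤ κ * M := by positivity
    have e0 : κ * M = 3 * M + C₁ * M + 2 ^ (k + 1) * Lam * (C₁ * M) := by rw [hκ]; ring
    have p1 : 0 ≤ C₁ * M := by positivity
    have p2 : 0 ≤ 2 ^ (k + 1) * Lam * (C₁ * M) := by positivity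
    have hwl : L2Le μ (ball x₀ ρ) (fun x => G x v) (κ * M) := by
      refine ((hG2.mono_set hsub).clm (ContinuousLinearMap.apply ℝ F v)).mono ?_
      have : ‖ContinuousLinearMap.apply ℝ F v‖ * M ≤ 1 * M :=
        mul_le_mul_of_nonneg_right ((hk_norm_apply_le v).trans hv) hM
      linarith
    have key := h2 A (fun x => G x v) G' (fun _ => 0) _ (κ * M) hM' (hA.mono hsub)
      ((hAk.mono_set hsub).mono_order (by omega)) (fun x hx => hell x (hsub hx)) hw hwl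
      (hG'k.l2Le.mono (by linarith)) (hkLe_zero_fun hM') (t4.mono (by linarith)) sw
    exact ⟨G', hG'.mono (ball_subset_ball hrρ.le), key.mono (by nlinarith)⟩

/-- the statement `interior_Hk` of `Api.lean`. -/
theorem interior_Hk' (μ : Measure E) [μ.IsAddHaarMeasure]
    (F : Type*) [NormedAddCommGroup F] [NormedSpace ℝ F] [FiniteDimensional ℝ F]
    (k : ℕ) (x₀ : E) {r R lam Lam : ℝ} (hr : 0 < r) (hrR : r < R) (hlam : 0 < lam) :
    ∃ C : ℝ, 0 ≤ C ∧ ∀ (A : E → (E →L[ℝ] ℝ) →L[ℝ] E) (u : E → F) (G : E → E →L[ℝ] F) (f : E → F)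
      (H : E → (E →L[ℝ] ℝ) →L[ℝ] F) (M : ℝ), 0 ≤ M →
      ContDiffOn ℝ ∞ A (ball x₀ R) → CkLe (ball x₀ R) (k + 1) A Lam → Elliptic (ball x₀ R) A lam →
      HasWeakFDeriv μ (ball x₀ R) u G → L2Le μ (ball x₀ R) u M → L2Le μ (ball x₀ R) G M →
      HkLe μ (ball x₀ R) k f M → HkLe μ (ball x₀ R) (k + 1) H M →
      IsWeakSol μ (ball x₀ R) A G f H →
      HkLe μ (ball x₀ r) (k + 2) u (C * M) := by
  obtain ⟨C, hC, h⟩ := interior_Hk_fderiv μ F k x₀ (Lam := Lam) hr hrR hlam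
  refine ⟨1 + C, by positivity, fun A u G f H M hM hA hAk hell hu hu2 hG2 hf hH hsol => ?_⟩
  have hsub : ball x₀ r ⊆ ball x₀ R := ball_subset_ball hrR.le
  have hCM : 0 ≤ C * M := by positivity
  exact HkLe.of_fderiv (by positivity) ((hu2.mono_set hsub).mono (by nlinarith)) (hu.mono hsub)
    ((h A u G f H M hM hA hAk hell hu hu2 hG2 hf hH hsol).mono (by nlinarith))

end Claimed.Agent.Lib.Sob
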