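import Claimed.Agent.Lib.Sob.Defs

/-!
# `Lib/Sob/L2`: toolbox for the predicates `L2Le`, `L2Loc` (leaf SOB-L2)

Pure measure theory (`eLpNorm _ 2`, Hölder/Cauchy-Schwarz, Minkowski).  No derivative occurs in this file.
`ν`-free: everything is stated for `μ.restrict U`.  Mathlib: `eLpNorm_add_le`, `eLpNorm_const_smul`,
`eLpNorm_mono_ae`, `eLpNorm_mono_measure`, `MemLp.integrable_mul`, `eLpNorm_le_eLpNorm_mul_eLpNorm_of_nnnorm`
(Hölder, `HolderTriple 2 2 1`), `MemLp.eLpNorm_eq_integral_rpow_norm`, `ContinuousLinearMap.aestronglyMeasurable_comp₂`,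
`tendsto_integral_of_L1`.  PLAN: prove the statements in the order of the file; each is 5-30 lines.
Do not change statements or names (many files import them); you may add lemmas (prefix `l2_`).
-/

set_option autoImplicit false
set_option maxSynthPendingDepth 6
set_option linter.unusedSectionVars false
set_option linter.unusedVariables false
open scoped ContDiff Topology
open MeasureTheory Set Filter

namespace Claimed.Agent.Lib.Sob

variable {E : Type*} [NormedAddCommGroup E] [NormedSpace ℝ E] [MeasurableSpace E]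
variable {F : Type*} [NormedAddCommGroup F] [NormedSpace ℝ F]
variable {F' : Type*} [NormedAddCommGroup F'] [NormedSpace ℝ F']
variable {μ : Measure E} {U V : Set E} {u v : E → F} {C C' C₁ C₂ : ℝ}

/-- the `L²(U)` norm as a real number (junk `0` if infinite). -/
noncomputable def l2n (μ : Measure E) (U : Set E) (u : E → F) : ℝ := (eLpNorm u 2 (μ.restrict U)).toReal

theorem l2n_nonneg : 0 ≤ l2n μ U u := ENNReal.toReal_nonneg

theorem l2Le_l2n (h : MemLp u 2 (μ.restrict U)) : L2Le μ U u (l2n μ U u) := by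
  refine ⟨h, ?_⟩
  unfold l2n
  rw [ENNReal.ofReal_toReal h.2.ne]

theorem L2Le.l2n_le (h : L2Le μ U u C) (hC : 0 ≤ C) : l2n μ U u ≤ C :=
  ENNReal.toReal_le_of_le_ofReal hC h.2

theorem L2Le.memLp (h : L2Le μ U u C) : MemLp u 2 (μ.restrict U) := h.1

theorem L2Le.mono (h : L2Le μ U u C) (hC : C ≤ C') : L2Le μ U u C' :=
  ⟨h.1, h.2.trans (ENNReal.ofReal_le_ofReal hC)⟩

theorem L2Le.mono_set (h : L2Le μ U u C) (hV : V ⊆ U) : L2Le μ V u C :=
  ⟨h.1.mono_measure (Measure.restrict_mono hV le_rfl),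
    (eLpNorm_mono_measure u (Measure.restrict_mono hV le_rfl)).trans h.2⟩

theorem L2Le.congr_ae (h : L2Le μ U u C) (huv : ∀ᵐ x ∂(μ.restrict U), u x = v x) : L2Le μ U v C :=
  ⟨h.1.ae_eq huv, (eLpNorm_congr_ae huv).symm.le.trans h.2⟩

theorem l2Le_zero (hC : 0 ≤ C) : L2Le μ U (fun _ => (0 : F)) C := by
  refine ⟨MemLp.zero, ?_⟩
  have : eLpNorm (fun _ : E => (0 : F)) 2 (μ.restrict U) = 0 := eLpNorm_zero
  rw [this]
  exact zero_le

theorem L2Le.add (h₁ : L2Le μ U u C₁) (h₂ : L2Le μ U v C₂) (hC₁ : 0 ≤ C₁) (hC₂ : 0 ≤ C₂) :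
    L2Le μ U (fun x => u x + v x) (C₁ + C₂) := by
  refine ⟨h₁.1.add h₂.1, ?_⟩
  rw [ENNReal.ofReal_add hC₁ hC₂]
  exact (eLpNorm_add_le h₁.1.1 h₂.1.1 (by norm_num)).trans (add_le_add h₁.2 h₂.2)

theorem L2Le.sub (h₁ : L2Le μ U u C₁) (h₂ : L2Le μ U v C₂) (hC₁ : 0 ≤ C₁) (hC₂ : 0 ≤ C₂) :
    L2Le μ U (fun x => u x - v x) (C₁ + C₂) := by
  refine ⟨h₁.1.sub h₂.1, ?_⟩
  rw [ENNReal.ofReal_add hC₁ hC₂]
  exact (eLpNorm_sub_le h₁.1.1 h₂.1.1 (by norm_num)).trans (add_le_add h₁.2 h₂.2)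

theorem L2Le.neg (h : L2Le μ U u C) : L2Le μ U (fun x => - u x) C := by
  refine ⟨h.1.neg, ?_⟩
  have : eLpNorm (fun x => - u x) 2 (μ.restrict U) = eLpNorm u 2 (μ.restrict U) := eLpNorm_neg u 2 _
  rw [this]
  exact h.2

theorem L2Le.const_smul (h : L2Le μ U u C) (c : ℝ) : L2Le μ U (fun x => c • u x) (|c| * C) := by
  refine ⟨h.1.const_smul c, ?_⟩
  have : eLpNorm (fun x => c • u x) 2 (μ.restrict U) = ‖c‖ₑ * eLpNorm u 2 (μ.restrict U) :=
    eLpNorm_const_smul c u 2 _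
  rw [this, ENNReal.ofReal_mul (abs_nonneg c), ← Real.norm_eq_abs, ofReal_norm]
  exact mul_le_mul_right h.2 _

theorem L2Le.sum {ι : Type*} (s : Finset ι) {w : ι → E → F} {D : ι → ℝ}
    (h : ∀ i ∈ s, L2Le μ U (w i) (D i)) (hD : ∀ i ∈ s, 0 ≤ D i) :
    L2Le μ U (fun x => ∑ i ∈ s, w i x) (∑ i ∈ s, D i) := by
  classical
  induction s using Finset.induction_on with
  | empty =>
    simp only [Finset.sum_empty]
    exact l2Le_zero le_rfl
  | insert a s ha ih =>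
    simp only [Finset.sum_insert ha]
    exact (h a (Finset.mem_insert_self a s)).add
      (ih (fun i hi => h i (Finset.mem_insert_of_mem hi)) (fun i hi => hD i (Finset.mem_insert_of_mem hi)))
      (hD a (Finset.mem_insert_self a s))
      (Finset.sum_nonneg fun i hi => hD i (Finset.mem_insert_of_mem hi))

theorem L2Le.norm (h : L2Le μ U u C) : L2Le μ U (fun x => ‖u x‖) C := by
  refine ⟨h.1.norm, ?_⟩
  rw [eLpNorm_norm]
  exact h.2

/-- domination. -/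
theorem L2Le.of_norm_le {w : E → F'} {c : ℝ} (h : L2Le μ U u C) (hc : 0 ≤ c)
    (hw : AEStronglyMeasurable w (μ.restrict U)) (hle : ∀ᵐ x ∂(μ.restrict U), ‖w x‖ ≤ c * ‖u x‖) :
    L2Le μ U w (c * C) := by
  have h1 : eLpNorm w 2 (μ.restrict U) ≤ ENNReal.ofReal c * eLpNorm u 2 (μ.restrict U) :=
    eLpNorm_le_mul_eLpNorm_of_ae_le_mul hle 2
  refine ⟨h.1.of_le_mul hw hle, ?_⟩
  rw [ENNReal.ofReal_mul hc]
  exact h1.trans (mul_le_mul_right h.2 _)

theorem L2Le.clm (h : L2Le μ U u C) (L : F →L[ℝ] F') : L2Le μ U (fun x => L (u x)) (‖L‖ * C) :=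
  h.of_norm_le (norm_nonneg L) (L.continuous.comp_aestronglyMeasurable h.1.1)
    (ae_of_all _ fun x => L.le_opNorm (u x))

theorem L2Le.clm_apply {B : E → F →L[ℝ] F'} {Λ : ℝ} (h : L2Le μ U u C) (hΛ : 0 ≤ Λ)
    (hB : AEStronglyMeasurable B (μ.restrict U)) (hBb : ∀ᵐ x ∂(μ.restrict U), ‖B x‖ ≤ Λ) :
    L2Le μ U (fun x => B x (u x)) (Λ * C) := by
  refine h.of_norm_le hΛ ?_ ?_
  · exact (ContinuousLinearMap.id ℝ (F →L[ℝ] F')).aestronglyMeasurable_comp₂ hB h.1.1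
  · filter_upwards [hBb] with x hx
    exact ((B x).le_opNorm (u x)).trans (mul_le_mul_of_nonneg_right hx (norm_nonneg _))

/-- the operator is in `L²`, the argument is bounded. -/
theorem L2Le.apply_bdd {T : E → F →L[ℝ] F'} {w : E → F} {Λ : ℝ} (h : L2Le μ U T C) (hΛ : 0 ≤ Λ)
    (hw : AEStronglyMeasurable w (μ.restrict U)) (hwb : ∀ᵐ x ∂(μ.restrict U), ‖w x‖ ≤ Λ) :
    L2Le μ U (fun x => T x (w x)) (Λ * C) := by
  refine h.of_norm_le hΛ ?_ ?_
  · exact (ContinuousLinearMap.id ℝ (F →L[ℝ] F')).aestronglyMeasurable_comp₂ h.1.1 hw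
  · filter_upwards [hwb] with x hx
    refine ((T x).le_opNorm (w x)).trans ?_
    rw [mul_comm]
    exact mul_le_mul_of_nonneg_right hx (norm_nonneg _)

theorem l2_l2n_sq_aux (h : MemLp u 2 (μ.restrict U)) : l2n μ U u ^ 2 = ∫ x in U, ‖u x‖ ^ 2 ∂μ := by
  unfold l2n
  rw [h.eLpNorm_eq_integral_rpow_norm (by norm_num) (by norm_num)]
  have e : (2 : ENNReal).toReal = 2 := by norm_num
  rw [e]
  have e2 : ∀ x, ‖u x‖ ^ (2 : ℝ) = ‖u x‖ ^ 2 := fun x => Real.rpow_two _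
  simp only [e2]
  have hI : 0 ≤ ∫ x in U, ‖u x‖ ^ 2 ∂μ := integral_nonneg fun x => sq_nonneg _
  rw [ENNReal.toReal_ofReal (Real.rpow_nonneg hI _), ← Real.rpow_natCast, ← Real.rpow_mul hI]
  norm_num

theorem l2Le_iff_integral (hC : 0 ≤ C) :
    L2Le μ U u C ↔ MemLp u 2 (μ.restrict U) ∧ ∫ x in U, ‖u x‖ ^ 2 ∂μ ≤ C ^ 2 := by
  refine ⟨fun h => ⟨h.1, ?_⟩, fun h => ⟨h.1, ?_⟩⟩
  · rw [← l2_l2n_sq_aux h.1]
    exact pow_le_pow_left₀ l2n_nonneg (h.l2n_le hC) 2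
  · rw [ENNReal.le_ofReal_iff_toReal_le h.1.2.ne hC]
    have h2 := h.2
    rw [← l2_l2n_sq_aux h.1] at h2
    exact (pow_le_pow_iff_left₀ l2n_nonneg hC two_ne_zero).1 h2

theorem l2n_sq (h : MemLp u 2 (μ.restrict U)) : l2n μ U u ^ 2 = ∫ x in U, ‖u x‖ ^ 2 ∂μ :=
  l2_l2n_sq_aux h

theorem MemLp_two_integrable_sq (h : MemLp u 2 (μ.restrict U)) : IntegrableOn (fun x => ‖u x‖ ^ 2) U μ :=
  (memLp_two_iff_integrable_sq_norm h.1).1 h

theorem l2Le_of_bound {Λ : ℝ} (hΛ : 0 ≤ Λ) (hu : AEStronglyMeasurable u (μ.restrict U))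
    (hb : ∀ᵐ x ∂(μ.restrict U), ‖u x‖ ≤ Λ) (hμ : μ U ≠ ⊤) :
    L2Le μ U u (Λ * Real.sqrt (μ U).toReal) := by
  have : IsFiniteMeasure (μ.restrict U) := ⟨by rw [Measure.restrict_apply_univ]; exact hμ.lt_top⟩
  have hm : MemLp u 2 (μ.restrict U) := MemLp.of_bound hu Λ hb
  refine (l2Le_iff_integral (by positivity)).2 ⟨hm, ?_⟩
  calc ∫ x in U, ‖u x‖ ^ 2 ∂μ ≤ ∫ _ in U, Λ ^ 2 ∂μ := by
        refine integral_mono_ae (MemLp_two_integrable_sq hm) (integrable_const _) ?_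
        filter_upwards [hb] with x hx
        exact pow_le_pow_left₀ (norm_nonneg _) hx 2
    _ = (Λ * Real.sqrt (μ U).toReal) ^ 2 := by
        rw [integral_const, mul_pow, Real.sq_sqrt ENNReal.toReal_nonneg, smul_eq_mul, mul_comm]
        simp [Measure.real]

/-! ### Cauchy-Schwarz -/

/-- the core: Hölder for a bounded bilinear map. -/
theorem l2_holder {G : Type*} [NormedAddCommGroup G] [NormedSpace ℝ G] (B : F →L[ℝ] F' →L[ℝ] G) {w : E → F'}
    (hu : MemLp u 2 (μ.restrict U)) (hw : MemLp w 2 (μ.restrict U)) :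
    IntegrableOn (fun x => B (u x) (w x)) U μ ∧
      ∫ x in U, ‖B (u x) (w x)‖ ∂μ ≤ ‖B‖ * l2n μ U u * l2n μ U w := by
  have hm : MemLp (fun x => B (u x) (w x)) 1 (μ.restrict U) := B.memLp_of_bilin 1 hu hw
  have hi : Integrable (fun x => B (u x) (w x)) (μ.restrict U) := memLp_one_iff_integrable.1 hm
  refine ⟨hi, ?_⟩
  have he : eLpNorm (fun x => B (u x) (w x)) 1 (μ.restrict U)
      ≤ ‖B‖₊ * eLpNorm u 2 (μ.restrict U) * eLpNorm w 2 (μ.restrict U) :=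
    eLpNorm_le_eLpNorm_mul_eLpNorm_of_nnnorm hu.1 hw.1 (B · ·) ‖B‖₊ (.of_forall fun _ => B.le_opNorm₂ _ _)
  rw [integral_norm_eq_lintegral_enorm hi.1, ← eLpNorm_one_eq_lintegral_enorm]
  have h3 := ENNReal.toReal_mono (ENNReal.mul_ne_top (ENNReal.mul_ne_top ENNReal.coe_ne_top hu.2.ne) hw.2.ne) he
  rw [ENNReal.toReal_mul, ENNReal.toReal_mul] at h3
  exact h3

theorem l2_holder_le {G : Type*} [NormedAddCommGroup G] [NormedSpace ℝ G] (B : F →L[ℝ] F' →L[ℝ] G) (hB : ‖B‖ ≤ 1)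
    {w : E → F'} (hu : L2Le μ U u C₁) (hw : L2Le μ U w C₂) (hC₁ : 0 ≤ C₁) (hC₂ : 0 ≤ C₂) :
    ∫ x in U, ‖B (u x) (w x)‖ ∂μ ≤ C₁ * C₂ := by
  refine (l2_holder B hu.1 hw.1).2.trans ?_
  calc ‖B‖ * l2n μ U u * l2n μ U w ≤ 1 * C₁ * C₂ :=
        mul_le_mul (mul_le_mul hB (hu.l2n_le hC₁) l2n_nonneg zero_le_one) (hw.l2n_le hC₂) l2n_nonneg
          (by positivity)
    _ = C₁ * C₂ := by ring

theorem L2Le.integrableOn_smul {φ : E → ℝ} (hφ : L2Le μ U φ C₁) (hu : L2Le μ U u C₂) :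
    IntegrableOn (fun x => φ x • u x) U μ :=
  (l2_holder (ContinuousLinearMap.lsmul ℝ ℝ : ℝ →L[ℝ] F →L[ℝ] F) hφ.1 hu.1).1

theorem L2Le.norm_setIntegral_smul_le {φ : E → ℝ} (hφ : L2Le μ U φ C₁) (hu : L2Le μ U u C₂)
    (hC₁ : 0 ≤ C₁) (hC₂ : 0 ≤ C₂) : ‖∫ x in U, φ x • u x ∂μ‖ ≤ C₁ * C₂ :=
  (norm_integral_le_integral_norm _).trans
    (l2_holder_le (ContinuousLinearMap.lsmul ℝ ℝ : ℝ →L[ℝ] F →L[ℝ] F) ContinuousLinearMap.opNorm_lsmul_le
      hφ hu hC₁ hC₂)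

theorem L2Le.integrableOn_clm_apply {T : E → F →L[ℝ] F'} (hT : L2Le μ U T C₁) (hu : L2Le μ U u C₂) :
    IntegrableOn (fun x => T x (u x)) U μ :=
  (l2_holder (ContinuousLinearMap.id ℝ (F →L[ℝ] F')) hT.1 hu.1).1

theorem L2Le.norm_setIntegral_clm_apply_le {T : E → F →L[ℝ] F'} (hT : L2Le μ U T C₁) (hu : L2Le μ U u C₂)
    (hC₁ : 0 ≤ C₁) (hC₂ : 0 ≤ C₂) : ‖∫ x in U, T x (u x) ∂μ‖ ≤ C₁ * C₂ :=
  (norm_integral_le_integral_norm _).trans
    (l2_holder_le (ContinuousLinearMap.id ℝ (F →L[ℝ] F')) ContinuousLinearMap.norm_id_le hT hu hC₁ hC₂)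

theorem L2Le.integrableOn_norm_mul {w : E → F'} (hu : L2Le μ U u C₁) (hw : L2Le μ U w C₂) :
    IntegrableOn (fun x => ‖u x‖ * ‖w x‖) U μ :=
  (l2_holder (ContinuousLinearMap.lsmul ℝ ℝ : ℝ →L[ℝ] ℝ →L[ℝ] ℝ) hu.norm.1 hw.norm.1).1

theorem L2Le.setIntegral_norm_mul_le {w : E → F'} (hu : L2Le μ U u C₁) (hw : L2Le μ U w C₂)
    (hC₁ : 0 ≤ C₁) (hC₂ : 0 ≤ C₂) : ∫ x in U, ‖u x‖ * ‖w x‖ ∂μ ≤ C₁ * C₂ := by
  have h := l2_holder_le (ContinuousLinearMap.lsmul ℝ ℝ : ℝ →L[ℝ] ℝ →L[ℝ] ℝ)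
    ContinuousLinearMap.opNorm_lsmul_le hu.norm hw.norm hC₁ hC₂
  refine le_trans (le_of_eq ?_) h
  refine integral_congr_ae (ae_of_all _ fun x => ?_)
  simp

/-! ### convergence -/

theorem l2_l2n_le_add (hu : MemLp u 2 (μ.restrict U)) (hv : MemLp v 2 (μ.restrict U)) :
    l2n μ U u ≤ l2n μ U (fun x => u x - v x) + l2n μ U v := by
  unfold l2n
  show _ ≤ (eLpNorm (u - v) 2 (μ.restrict U)).toReal + _
  rw [← ENNReal.toReal_add (hu.sub hv).2.ne hv.2.ne]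
  refine ENNReal.toReal_mono (ENNReal.add_ne_top.2 ⟨(hu.sub hv).2.ne, hv.2.ne⟩) ?_
  have h := eLpNorm_add_le (hu.sub hv).1 hv.1 (p := 2) (by norm_num)
  have e : (u - v) + v = u := sub_add_cancel u v
  rw [e] at h
  exact h

theorem l2_l2n_sub_comm : l2n μ U (fun x => u x - v x) = l2n μ U (fun x => v x - u x) := by
  unfold l2n
  have : eLpNorm (fun x => u x - v x) 2 (μ.restrict U) = eLpNorm (fun x => v x - u x) 2 (μ.restrict U) :=
    eLpNorm_sub_comm u v 2 _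
  rw [this]

theorem l2_tendsto_l2n_sub {un : ℕ → E → F}
    (h : Tendsto (fun n => eLpNorm (fun x => un n x - u x) 2 (μ.restrict U)) atTop (𝓝 0)) :
    Tendsto (fun n => l2n μ U (fun x => un n x - u x)) atTop (𝓝 0) :=
  (ENNReal.tendsto_toReal ENNReal.zero_ne_top).comp h

theorem tendsto_l2n_of_tendsto {un : ℕ → E → F} (hun : ∀ n, MemLp (un n) 2 (μ.restrict U))
    (hu : MemLp u 2 (μ.restrict U))
    (h : Tendsto (fun n => eLpNorm (fun x => un n x - u x) 2 (μ.restrict U)) atTop (𝓝 0)) :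
    Tendsto (fun n => l2n μ U (un n)) atTop (𝓝 (l2n μ U u)) := by
  rw [tendsto_iff_dist_tendsto_zero]
  refine squeeze_zero (fun _ => dist_nonneg) (fun n => ?_) (l2_tendsto_l2n_sub h)
  rw [Real.dist_eq, abs_le]
  have h1 := l2_l2n_le_add (hun n) hu
  have h2 := l2_l2n_le_add hu (hun n)
  rw [l2_l2n_sub_comm] at h2
  constructor <;> linarith

theorem tendsto_setIntegral_clm_apply {T : E → F →L[ℝ] F'} [CompleteSpace F'] {un : ℕ → E → F}
    (hT : MemLp T 2 (μ.restrict U)) (hun : ∀ n, MemLp (un n) 2 (μ.restrict U)) (hu : MemLp u 2 (μ.restrict U))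
    (h : Tendsto (fun n => eLpNorm (fun x => un n x - u x) 2 (μ.restrict U)) atTop (𝓝 0)) :
    Tendsto (fun n => ∫ x in U, T x (un n x) ∂μ) atTop (𝓝 (∫ x in U, T x (u x) ∂μ)) := by
  rw [tendsto_iff_norm_sub_tendsto_zero]
  have h0 : Tendsto (fun n => l2n μ U T * l2n μ U (fun x => un n x - u x)) atTop (𝓝 0) := by
    simpa using (l2_tendsto_l2n_sub h).const_mul (l2n μ U T)
  refine squeeze_zero (fun _ => norm_nonneg _) (fun n => ?_) h0
  have i1 := (l2Le_l2n hT).integrableOn_clm_apply (l2Le_l2n (hun n))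
  have i2 := (l2Le_l2n hT).integrableOn_clm_apply (l2Le_l2n hu)
  rw [← integral_sub i1 i2]
  have e : (fun x => T x (un n x) - T x (u x)) = fun x => T x (un n x - u x) := by
    funext x; rw [map_sub]
  rw [e]
  exact (l2Le_l2n hT).norm_setIntegral_clm_apply_le (l2Le_l2n ((hun n).sub hu)) l2n_nonneg l2n_nonneg

theorem tendsto_setIntegral_apply_clm {w : E → F} [CompleteSpace F'] {Tn : ℕ → E → F →L[ℝ] F'}
    {T : E → F →L[ℝ] F'} (hw : MemLp w 2 (μ.restrict U)) (hTn : ∀ n, MemLp (Tn n) 2 (μ.restrict U))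
    (hT : MemLp T 2 (μ.restrict U))
    (h : Tendsto (fun n => eLpNorm (fun x => Tn n x - T x) 2 (μ.restrict U)) atTop (𝓝 0)) :
    Tendsto (fun n => ∫ x in U, Tn n x (w x) ∂μ) atTop (𝓝 (∫ x in U, T x (w x) ∂μ)) := by
  rw [tendsto_iff_norm_sub_tendsto_zero]
  have h0 : Tendsto (fun n => l2n μ U (fun x => Tn n x - T x) * l2n μ U w) atTop (𝓝 0) := by
    simpa using (l2_tendsto_l2n_sub h).mul_const (l2n μ U w)
  refine squeeze_zero (fun _ => norm_nonneg _) (fun n => ?_) h0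
  have i1 := (l2Le_l2n (hTn n)).integrableOn_clm_apply (l2Le_l2n hw)
  have i2 := (l2Le_l2n hT).integrableOn_clm_apply (l2Le_l2n hw)
  rw [← integral_sub i1 i2]
  have e : (fun x => Tn n x (w x) - T x (w x)) = fun x => (Tn n x - T x) (w x) := by
    funext x; rw [_root_.sub_apply]
  rw [e]
  exact (l2Le_l2n ((hTn n).sub hT)).norm_setIntegral_clm_apply_le (l2Le_l2n hw) l2n_nonneg l2n_nonneg

theorem tendsto_setIntegral_smul {φn : ℕ → E → ℝ} {φ : E → ℝ} [CompleteSpace F]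
    (hu : MemLp u 2 (μ.restrict U)) (hφn : ∀ n, MemLp (φn n) 2 (μ.restrict U)) (hφ : MemLp φ 2 (μ.restrict U))
    (h : Tendsto (fun n => eLpNorm (fun x => φn n x - φ x) 2 (μ.restrict U)) atTop (𝓝 0)) :
    Tendsto (fun n => ∫ x in U, φn n x • u x ∂μ) atTop (𝓝 (∫ x in U, φ x • u x ∂μ)) := by
  rw [tendsto_iff_norm_sub_tendsto_zero]
  have h0 : Tendsto (fun n => l2n μ U (fun x => φn n x - φ x) * l2n μ U u) atTop (𝓝 0) := by
    simpa using (l2_tendsto_l2n_sub h).mul_const (l2n μ U u)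
  refine squeeze_zero (fun _ => norm_nonneg _) (fun n => ?_) h0
  have i1 := (l2Le_l2n (hφn n)).integrableOn_smul (l2Le_l2n hu)
  have i2 := (l2Le_l2n hφ).integrableOn_smul (l2Le_l2n hu)
  rw [← integral_sub i1 i2]
  have e : (fun x => φn n x • u x - φ x • u x) = fun x => (φn n x - φ x) • u x := by
    funext x; rw [sub_smul]
  rw [e]
  exact (l2Le_l2n ((hφn n).sub hφ)).norm_setIntegral_smul_le (l2Le_l2n hu) l2n_nonneg l2n_nonneg

/-- closedness of the ball: an `L²` limit of functions of norm `≤ C` has norm `≤ C`. -/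
theorem l2Le_of_tendsto {un : ℕ → E → F} (hun : ∀ n, L2Le μ U (un n) C) (hC : 0 ≤ C)
    (hu : AEStronglyMeasurable u (μ.restrict U))
    (h : Tendsto (fun n => eLpNorm (fun x => un n x - u x) 2 (μ.restrict U)) atTop (𝓝 0)) :
    L2Le μ U u C := by
  have hle : ∀ n, eLpNorm u 2 (μ.restrict U)
      ≤ eLpNorm (fun x => un n x - u x) 2 (μ.restrict U) + ENNReal.ofReal C := by
    intro n
    have h1 := eLpNorm_sub_le (hun n).1.1 ((hun n).1.1.sub hu) (p := 2) (by norm_num)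
    have e : un n - (un n - u) = u := sub_sub_cancel (un n) u
    rw [e, add_comm] at h1
    exact h1.trans (add_le_add le_rfl (hun n).2)
  have hlim : Tendsto (fun n => eLpNorm (fun x => un n x - u x) 2 (μ.restrict U) + ENNReal.ofReal C) atTop
      (𝓝 (0 + ENNReal.ofReal C)) := h.add tendsto_const_nhds
  rw [zero_add] at hlim
  have hfin : eLpNorm u 2 (μ.restrict U) ≤ ENNReal.ofReal C := ge_of_tendsto' hlim hle
  exact ⟨⟨hu, hfin.trans_lt ENNReal.ofReal_lt_top⟩, hfin⟩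

/-! ### `L2Loc` -/

theorem L2Le.l2Loc (h : L2Le μ U u C) : L2Loc μ U u :=
  fun K _ hKU => h.1.mono_measure (Measure.restrict_mono hKU le_rfl)

theorem memLp_l2Loc (h : MemLp u 2 (μ.restrict U)) : L2Loc μ U u :=
  fun K _ hKU => h.mono_measure (Measure.restrict_mono hKU le_rfl)

theorem L2Loc.mono_set (h : L2Loc μ U u) (hV : V ⊆ U) : L2Loc μ V u :=
  fun K hK hKV => h K hK (hKV.trans hV)

theorem L2Loc.exists_l2Le (h : L2Loc μ U u) {K : Set E} (hK : IsCompact K) (hKU : K ⊆ U) :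
    ∃ D : ℝ, 0 ≤ D ∧ L2Le μ K u D :=
  ⟨l2n μ K u, l2n_nonneg, l2Le_l2n (h K hK hKU)⟩

theorem L2Loc.add (h₁ : L2Loc μ U u) (h₂ : L2Loc μ U v) : L2Loc μ U (fun x => u x + v x) :=
  fun K hK hKU => (h₁ K hK hKU).add (h₂ K hK hKU)

theorem L2Loc.sub (h₁ : L2Loc μ U u) (h₂ : L2Loc μ U v) : L2Loc μ U (fun x => u x - v x) :=
  fun K hK hKU => (h₁ K hK hKU).sub (h₂ K hK hKU)

theorem L2Loc.clm (h : L2Loc μ U u) (L : F →L[ℝ] F') : L2Loc μ U (fun x => L (u x)) :=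
  fun K hK hKU => ((l2Le_l2n (h K hK hKU)).clm L).1

section Borel

variable [BorelSpace E] [FiniteDimensional ℝ E] [FiniteDimensional ℝ F] [FiniteDimensional ℝ F']
  [IsFiniteMeasureOnCompacts μ]

theorem l2Loc_of_continuousOn (hu : ContinuousOn u U) : L2Loc μ U u := by
  intro K hK hKU
  have : IsFiniteMeasure (μ.restrict K) := ⟨by rw [Measure.restrict_apply_univ]; exact hK.measure_lt_top⟩
  obtain ⟨Λ, hΛ⟩ := hK.exists_bound_of_continuousOn (hu.mono hKU)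
  exact MemLp.of_bound ((hu.mono hKU).aestronglyMeasurable_of_isCompact hK hK.measurableSet) Λ
    (ae_restrict_of_forall_mem hK.measurableSet hΛ)

theorem L2Loc.clm_apply {B : E → F →L[ℝ] F'} (h : L2Loc μ U u) (hB : ContinuousOn B U) :
    L2Loc μ U (fun x => B x (u x)) := by
  intro K hK hKU
  obtain ⟨Λ, hΛ⟩ := hK.exists_bound_of_continuousOn (hB.mono hKU)
  exact ((l2Le_l2n (h K hK hKU)).clm_apply (Λ := |Λ|) (abs_nonneg _)
    ((hB.mono hKU).aestronglyMeasurable_of_isCompact hK hK.measurableSet)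
    (ae_restrict_of_forall_mem hK.measurableSet fun x hx => (hΛ x hx).trans (le_abs_self _))).1

theorem L2Loc.locallyIntegrableOn (hU : IsOpen U) (h : L2Loc μ U u) : LocallyIntegrableOn u U μ := by
  have := FiniteDimensional.proper_real E
  rw [locallyIntegrableOn_iff hU.isLocallyClosed]
  intro K hKU hK
  have : IsFiniteMeasure (μ.restrict K) := ⟨by rw [Measure.restrict_apply_univ]; exact hK.measure_lt_top⟩
  exact (h K hK hKU).integrable (by norm_num)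

theorem L2Loc.aestronglyMeasurable (hU : IsOpen U) (h : L2Loc μ U u) :
    AEStronglyMeasurable u (μ.restrict U) := by
  have := FiniteDimensional.proper_real E
  exact (h.locallyIntegrableOn hU).aestronglyMeasurable

theorem aestronglyMeasurable_of_continuousOn (hU : IsOpen U) (hu : ContinuousOn u U) :
    AEStronglyMeasurable u (μ.restrict U) := by
  have := FiniteDimensional.proper_real E
  exact hu.aestronglyMeasurable hU.measurableSet

end Borel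

end Claimed.Agent.Lib.Sob
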