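import Claimed.Agent.Lib.Sob.IntK
import Claimed.Agent.Lib.Sob.Cacc

/-!
# `Lib/Sob/Lower`: interior `H^{k+2}` estimates for systems with lower order terms (leaf SOB-Lower)

Equation: `IsWeakSol μ B_R A G (f + b G + c u) (H + d u)`.
All statements of the imported files are black boxes (`interior_Hk'`, `caccioppoli'`, `Hk.lean`).

PLAN for `interior_Hk_lower_H1`: induction on `k` GENERALIZING `r R`.  (`0 ≤ Lam` from `CkLe` of `A` at `x₀`.)
Let `c₁` be the constant of `exists_const_fderiv μ F`.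
* `k = 0`: `f̃ = f + b G + c u ∈ L²(B_R)` with constant `(1 + 2 Lam) M` (`L2Le.clm_apply`); `u ∈ H¹(B_R)` (`HkLe.of_fderiv`), so
  `H̃ = H + d u ∈ H¹(B_R)` with constant `(1 + 2 Lam) M` (`HkLe.clm_apply`); `interior_Hk' μ F 0`.
* `k → k+1`: `ρ = (r + R)/2`.  Induction hypothesis on `(ρ, R)` (orders lowered): `HkLe μ B_ρ (k+2) u (C₁ M)`, hence
  `HkLe μ B_ρ (k+1) G (c₁ C₁ M)` (`exists_const_fderiv`), `f̃ ∈ H^{k+1}(B_ρ)`, `H̃ ∈ H^{k+2}(B_ρ)` (`HkLe.clm_apply`, constants `2^(k+2) Lam ⋯`);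
  `interior_Hk' μ F (k+1)` on `(r, ρ)`.
`interior_Hk_lower'`: `caccioppoli'` on `(ρ, R)`, `ρ = (r+R)/2`, with `κ = Lam`, `ψ = ‖f‖ + ‖H‖` (constant `2 M`), then
`interior_Hk_lower_H1` on `(r, ρ)`.
~450 lines.  Statements verbatim.
-/

set_option autoImplicit false
set_option maxSynthPendingDepth 6
set_option linter.unusedSectionVars false
open scoped ContDiff Topology
open MeasureTheory Set Filter Metric

namespace Claimed.Agent.Lib.Sob

variable {E : Type*} [NormedAddCommGroup E] [NormedSpace ℝ E] [FiniteDimensional ℝ E]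
  [MeasurableSpace E] [BorelSpace E]

/-- one step of the bootstrap: `u ∈ H^{k+1}`, `G ∈ H^k` on the big ball give `u ∈ H^{k+2}` on the small one. -/
theorem lower_step (μ : Measure E) [μ.IsAddHaarMeasure]
    (F : Type*) [NormedAddCommGroup F] [NormedSpace ℝ F] [FiniteDimensional ℝ F]
    (k : ℕ) (x₀ : E) {r R lam Lam : ℝ} (hr : 0 < r) (hrR : r < R) (hlam : 0 < lam) :
    ∃ C : ℝ, 0 ≤ C ∧ ∀ (A : E → (E →L[ℝ] ℝ) →L[ℝ] E) (b : E → (E →L[ℝ] F) →L[ℝ] F) (c : E → F →L[ℝ] F)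
      (d : E → F →L[ℝ] ((E →L[ℝ] ℝ) →L[ℝ] F)) (u : E → F) (G : E → E →L[ℝ] F) (f : E → F)
      (H : E → (E →L[ℝ] ℝ) →L[ℝ] F) (M : ℝ), 0 ≤ M →
      ContDiffOn ℝ ∞ A (ball x₀ R) → ContDiffOn ℝ ∞ b (ball x₀ R) → ContDiffOn ℝ ∞ c (ball x₀ R) →
      ContDiffOn ℝ ∞ d (ball x₀ R) →
      CkLe (ball x₀ R) (k + 1) A Lam → CkLe (ball x₀ R) k b Lam → CkLe (ball x₀ R) k c Lam →
      CkLe (ball x₀ R) (k + 1) d Lam → Elliptic (ball x₀ R) A lam →
      HasWeakFDeriv μ (ball x₀ R) u G → HkLe μ (ball x₀ R) k G M → HkLe μ (ball x₀ R) (k + 1) u M →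
      HkLe μ (ball x₀ R) k f M → HkLe μ (ball x₀ R) (k + 1) H M →
      IsWeakSol μ (ball x₀ R) A G (fun x => f x + b x (G x) + c x (u x)) (fun x => H x + d x (u x)) →
      HkLe μ (ball x₀ r) (k + 2) u (C * M) := by
  obtain ⟨C0, hC0, h0⟩ := interior_Hk' μ F k x₀ (lam := lam) (Lam := Lam) hr hrR hlam
  refine ⟨C0 * (1 + 2 ^ (k + 1) * |Lam|), by positivity, ?_⟩
  intro A b c d u G f H M hM hA hb hc hd hAk hbk hck hdk hell hu hG huk hf hH hsol
  have hx₀ : x₀ ∈ ball x₀ R := mem_ball_self (hr.trans hrR)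
  have hLam : 0 ≤ Lam := hAk.nonneg hx₀
  rw [abs_of_nonneg hLam]
  have hU : IsOpen (ball x₀ R) := isOpen_ball
  have hLM : 0 ≤ Lam * M := mul_nonneg hLam hM
  have hp : (0 : ℝ) < 2 ^ k := by positivity
  have hM' : M ≤ (1 + 2 ^ (k + 1) * Lam) * M := by
    have : 0 ≤ 2 ^ (k + 1) * (Lam * M) := by positivity
    nlinarith
  have h1 : HkLe μ (ball x₀ R) k (fun x => b x (G x)) (2 ^ k * Lam * M) :=
    hG.clm_apply hU hb hbk hLam hM
  have h2 : HkLe μ (ball x₀ R) k (fun x => c x (u x)) (2 ^ k * Lam * M) :=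
    (huk.mono_order (Nat.le_succ k)).clm_apply hU hc hck hLam hM
  have h3 : HkLe μ (ball x₀ R) (k + 1) (fun x => d x (u x)) (2 ^ (k + 1) * Lam * M) :=
    huk.clm_apply hU hd hdk hLam hM
  have hf' : HkLe μ (ball x₀ R) k (fun x => f x + b x (G x) + c x (u x))
      ((1 + 2 ^ (k + 1) * Lam) * M) :=
    ((hf.add hU h1 hM (by positivity)).add hU h2 (by positivity) (by positivity)).mono
      (le_of_eq (by ring))
  have hH' : HkLe μ (ball x₀ R) (k + 1) (fun x => H x + d x (u x)) ((1 + 2 ^ (k + 1) * Lam) * M) :=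
    (hH.add hU h3 hM (by positivity)).mono (le_of_eq (by ring))
  have := h0 A u G _ _ ((1 + 2 ^ (k + 1) * Lam) * M) (by positivity) hA hAk hell hu
    (huk.l2Le.mono hM') (hG.l2Le.mono hM') hf' hH' hsol
  rwa [← mul_assoc] at this

/-- version with the `H¹` norm of `u` on the right. -/
theorem interior_Hk_lower_H1 (μ : Measure E) [μ.IsAddHaarMeasure]
    (F : Type*) [NormedAddCommGroup F] [NormedSpace ℝ F] [FiniteDimensional ℝ F]
    (k : ℕ) (x₀ : E) {r R lam Lam : ℝ} (hr : 0 < r) (hrR : r < R) (hlam : 0 < lam) :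
    ∃ C : ℝ, 0 ≤ C ∧ ∀ (A : E → (E →L[ℝ] ℝ) →L[ℝ] E) (b : E → (E →L[ℝ] F) →L[ℝ] F) (c : E → F →L[ℝ] F)
      (d : E → F →L[ℝ] ((E →L[ℝ] ℝ) →L[ℝ] F)) (u : E → F) (G : E → E →L[ℝ] F) (f : E → F)
      (H : E → (E →L[ℝ] ℝ) →L[ℝ] F) (M : ℝ), 0 ≤ M →
      ContDiffOn ℝ ∞ A (ball x₀ R) → ContDiffOn ℝ ∞ b (ball x₀ R) → ContDiffOn ℝ ∞ c (ball x₀ R) →
      ContDiffOn ℝ ∞ d (ball x₀ R) →
      CkLe (ball x₀ R) (k + 1) A Lam → CkLe (ball x₀ R) k b Lam → CkLe (ball x₀ R) k c Lam →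
      CkLe (ball x₀ R) (k + 1) d Lam → Elliptic (ball x₀ R) A lam →
      HasWeakFDeriv μ (ball x₀ R) u G → L2Le μ (ball x₀ R) G M → L2Le μ (ball x₀ R) u M →
      HkLe μ (ball x₀ R) k f M → HkLe μ (ball x₀ R) (k + 1) H M →
      IsWeakSol μ (ball x₀ R) A G (fun x => f x + b x (G x) + c x (u x)) (fun x => H x + d x (u x)) →
      HkLe μ (ball x₀ r) (k + 2) u (C * M) := by
  induction k generalizing r R with
  | zero =>
    obtain ⟨C0, hC0, h0⟩ := lower_step μ F 0 x₀ (lam := lam) (Lam := Lam) hr hrR hlam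
    refine ⟨C0, hC0, ?_⟩
    intro A b c d u G f H M hM hA hb hc hd hAk hbk hck hdk hell hu hG hu2 hf hH hsol
    exact h0 A b c d u G f H M hM hA hb hc hd hAk hbk hck hdk hell hu hG
      (HkLe.of_fderiv hM hu2 hu hG) hf hH hsol
  | succ k ih =>
    have hrρ : r < (r + R) / 2 := by linarith
    have hρR : (r + R) / 2 < R := by linarith
    have hρ : 0 < (r + R) / 2 := by linarith
    obtain ⟨c₁, hc₁, hfd⟩ := exists_const_fderiv μ F
    obtain ⟨C1, hC1, h1⟩ := ih hρ hρR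
    obtain ⟨C2, hC2, h2⟩ := lower_step μ F (k + 1) x₀ (lam := lam) (Lam := Lam) hr hrρ hlam
    refine ⟨C2 * (1 + C1 + c₁ * C1), by positivity, ?_⟩
    intro A b c d u G f H M hM hA hb hc hd hAk hbk hck hdk hell hu hG hu2 hf hH hsol
    have hsub : ball x₀ ((r + R) / 2) ⊆ ball x₀ R := ball_subset_ball hρR.le
    have hU : IsOpen (ball x₀ ((r + R) / 2)) := isOpen_ball
    have a1 : HkLe μ (ball x₀ ((r + R) / 2)) (k + 2) u (C1 * M) :=
      h1 A b c d u G f H M hM hA hb hc hd (hAk.mono_order (Nat.le_succ _))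
        (hbk.mono_order (Nat.le_succ _)) (hck.mono_order (Nat.le_succ _))
        (hdk.mono_order (Nat.le_succ _)) hell hu hG hu2 (hf.mono_order (Nat.le_succ _))
        (hH.mono_order (Nat.le_succ _)) hsol
    have hu' := hu.mono hsub
    have a2 : HkLe μ (ball x₀ ((r + R) / 2)) (k + 1) G (c₁ * (C1 * M)) :=
      hfd _ (k + 1) u G (C1 * M) hU (by positivity) a1 hu'
    have hCM : 0 ≤ C1 * M := by positivity
    have hcCM : 0 ≤ c₁ * (C1 * M) := by positivity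
    have e : (1 + C1 + c₁ * C1) * M = M + C1 * M + c₁ * (C1 * M) := by ring
    have := h2 A b c d u G f H ((1 + C1 + c₁ * C1) * M) (by positivity) (hA.mono hsub) (hb.mono hsub)
      (hc.mono hsub) (hd.mono hsub) (hAk.mono_set hsub) (hbk.mono_set hsub) (hck.mono_set hsub)
      (hdk.mono_set hsub) (fun x hx => hell x (hsub hx)) hu' (a2.mono (by rw [e]; linarith))
      (a1.mono (by rw [e]; linarith)) ((hf.mono_set hsub).mono (by rw [e]; linarith))
      ((hH.mono_set hsub).mono (by rw [e]; linarith)) (hsol.mono hsub)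
    rwa [← mul_assoc] at this

/-- the statement `interior_Hk_lower` of `Api.lean`. -/
theorem interior_Hk_lower' (μ : Measure E) [μ.IsAddHaarMeasure]
    (F : Type*) [NormedAddCommGroup F] [NormedSpace ℝ F] [FiniteDimensional ℝ F]
    (k : ℕ) (x₀ : E) {r R lam Lam : ℝ} (hr : 0 < r) (hrR : r < R) (hlam : 0 < lam) :
    ∃ C : ℝ, 0 ≤ C ∧ ∀ (A : E → (E →L[ℝ] ℝ) →L[ℝ] E) (b : E → (E →L[ℝ] F) →L[ℝ] F) (c : E → F →L[ℝ] F)
      (d : E → F →L[ℝ] ((E →L[ℝ] ℝ) →L[ℝ] F)) (u : E → F) (G : E → E →L[ℝ] F) (f : E → F)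
      (H : E → (E →L[ℝ] ℝ) →L[ℝ] F) (M : ℝ), 0 ≤ M →
      ContDiffOn ℝ ∞ A (ball x₀ R) → ContDiffOn ℝ ∞ b (ball x₀ R) → ContDiffOn ℝ ∞ c (ball x₀ R) →
      ContDiffOn ℝ ∞ d (ball x₀ R) →
      CkLe (ball x₀ R) (k + 1) A Lam → CkLe (ball x₀ R) k b Lam → CkLe (ball x₀ R) k c Lam →
      CkLe (ball x₀ R) (k + 1) d Lam → Elliptic (ball x₀ R) A lam →
      HasWeakFDeriv μ (ball x₀ R) u G → L2Loc μ (ball x₀ R) G → L2Le μ (ball x₀ R) u M →
      HkLe μ (ball x₀ R) k f M → HkLe μ (ball x₀ R) (k + 1) H M →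
      IsWeakSol μ (ball x₀ R) A G (fun x => f x + b x (G x) + c x (u x)) (fun x => H x + d x (u x)) →
      HkLe μ (ball x₀ r) (k + 2) u (C * M) := by
  have hrρ : r < (r + R) / 2 := by linarith
  have hρR : (r + R) / 2 < R := by linarith
  have hρ : 0 < (r + R) / 2 := by linarith
  obtain ⟨C1, hC1, h1⟩ := caccioppoli' μ F x₀ (lam := lam) (Lam := Lam) (κ := Lam) hρ hρR hlam
  obtain ⟨C2, hC2, h2⟩ := interior_Hk_lower_H1 μ F k x₀ (lam := lam) (Lam := Lam) hr hrρ hlam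
  refine ⟨C2 * (1 + C1 * 2), by positivity, ?_⟩
  intro A b c d u G f H M hM hA hb hc hd hAk hbk hck hdk hell hu hG hu2 hf hH hsol
  have hsub : ball x₀ ((r + R) / 2) ⊆ ball x₀ R := ball_subset_ball hρR.le
  have hU : IsOpen (ball x₀ R) := isOpen_ball
  have hx₀ : x₀ ∈ ball x₀ R := mem_ball_self (hr.trans hrR)
  have hLam : 0 ≤ Lam := hAk.nonneg hx₀
  have hGm : AEStronglyMeasurable G (μ.restrict (ball x₀ R)) := hG.aestronglyMeasurable hU
  have hum : AEStronglyMeasurable u (μ.restrict (ball x₀ R)) := hu2.1.1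
  have hψ : L2Le μ (ball x₀ R) (fun x => ‖f x‖ + ‖H x‖) (2 * M) := by
    have := hf.l2Le.norm.add hH.l2Le.norm hM hM
    rwa [← two_mul] at this
  have hbm := aestronglyMeasurable_of_continuousOn (μ := μ) hU hb.continuousOn
  have hcm := aestronglyMeasurable_of_continuousOn (μ := μ) hU hc.continuousOn
  have hdm := aestronglyMeasurable_of_continuousOn (μ := μ) hU hd.continuousOn
  have m1 : AEStronglyMeasurable (fun x => f x + b x (G x) + c x (u x)) (μ.restrict (ball x₀ R)) :=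
    (hf.l2Le.1.1.add ((ContinuousLinearMap.id ℝ _).aestronglyMeasurable_comp₂ hbm hGm)).add
      ((ContinuousLinearMap.id ℝ _).aestronglyMeasurable_comp₂ hcm hum)
  have m2 : AEStronglyMeasurable (fun x => H x + d x (u x)) (μ.restrict (ball x₀ R)) :=
    hH.l2Le.1.1.add ((ContinuousLinearMap.id ℝ _).aestronglyMeasurable_comp₂ hdm hum)
  have a1 : L2Le μ (ball x₀ ((r + R) / 2)) G (C1 * (2 * M)) := by
    refine h1 A u G _ _ (fun x => ‖f x‖ + ‖H x‖) (2 * M) (by positivity) hA.continuousOn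
      (fun x hx => hAk.bound hx) hell hu hG (hu2.mono (by linarith)) hψ m1 m2 ?_ ?_ hsol
    · refine ae_restrict_of_forall_mem hU.measurableSet fun x hx => ?_
      have b1 : ‖b x (G x)‖ ≤ Lam * ‖G x‖ :=
        ((b x).le_opNorm _).trans (mul_le_mul_of_nonneg_right (hbk.bound hx) (norm_nonneg _))
      have b2 : ‖c x (u x)‖ ≤ Lam * ‖u x‖ :=
        ((c x).le_opNorm _).trans (mul_le_mul_of_nonneg_right (hck.bound hx) (norm_nonneg _))
      have b3 := norm_add₃_le (a := f x) (b := b x (G x)) (c := c x (u x))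
      have b4 := norm_nonneg (H x)
      linarith
    · refine ae_restrict_of_forall_mem hU.measurableSet fun x hx => ?_
      have b2 : ‖d x (u x)‖ ≤ Lam * ‖u x‖ :=
        ((d x).le_opNorm _).trans (mul_le_mul_of_nonneg_right (hdk.bound hx) (norm_nonneg _))
      have b3 := norm_add_le (H x) (d x (u x))
      have b4 := norm_nonneg (f x)
      linarith
  have hCM : 0 ≤ C1 * (2 * M) := by positivity
  have e : (1 + C1 * 2) * M = M + C1 * (2 * M) := by ring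
  have := h2 A b c d u G f H ((1 + C1 * 2) * M) (by positivity) (hA.mono hsub) (hb.mono hsub)
    (hc.mono hsub) (hd.mono hsub) (hAk.mono_set hsub) (hbk.mono_set hsub) (hck.mono_set hsub)
    (hdk.mono_set hsub) (fun x hx => hell x (hsub hx)) (hu.mono hsub) (a1.mono (by rw [e]; linarith))
    ((hu2.mono_set hsub).mono (by rw [e]; linarith)) ((hf.mono_set hsub).mono (by rw [e]; linarith))
    ((hH.mono_set hsub).mono (by rw [e]; linarith)) (hsol.mono hsub)
  rwa [← mul_assoc] at this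

end Claimed.Agent.Lib.Sob
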