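import Claimed.Agent.Lib.Sob.Weak

/-!
# `Lib/Sob/Moll`: mollification, algebraic and differential part (leaf SOB-Moll1)

`mol μ n u x = ∫ t, ρ_n t • u (x - t) ∂μ`, `ρ_n = (bumpN n).normed μ` (support in the ball of radius `1/(n+1)`, `∫ ρ_n = 1`,
`ρ_n ≥ 0`, smooth).  By definition `mol μ n u = ρ_n ⋆[lsmul ℝ ℝ, μ] u` (`MeasureTheory.convolution`).

HINTS: `ContDiffBump.contDiff_normed`, `ContDiffBump.hasCompactSupport_normed`, `ContDiffBump.support_normed_eq`,
`ContDiffBump.integral_normed`, `ContDiffBump.nonneg_normed`, `HasCompactSupport.contDiff_convolution_left`,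
`HasCompactSupport.hasFDerivAt_convolution_left`, `convolution_flip` / the substitution `t ↦ x - t`
(`integral_sub_left_eq_self`): `mol μ n u x = ∫ y, ρ_n (x - y) • u y`.
* `mol_fderiv_apply`: `fderiv (mol u) x v = ∫ y, (dρ_n (x - y) v) • u y`; the function `φ y = ρ_n (x - y)` is a test function
  with `dφ_y v = - dρ_n (x - y) v`; the definition of the weak derivative gives `= ∫ y, ρ_n (x - y) • g y = mol g x`.
* `mol_tendstoLocallyUniformly`: `ContDiffBump.dist_normed_convolution_le`/`convolution_tendsto_right` + uniform continuity on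
  compact sets.
~450 lines.  Statements verbatim; you may add lemmas (prefix `mol_`).
-/

set_option autoImplicit false
set_option maxSynthPendingDepth 6
open scoped ContDiff Topology
open MeasureTheory Set Filter Metric

namespace Claimed.Agent.Lib.Sob

variable {E : Type*} [NormedAddCommGroup E] [NormedSpace ℝ E] [FiniteDimensional ℝ E]
  [MeasurableSpace E] [BorelSpace E]
variable {F : Type*} [NormedAddCommGroup F] [NormedSpace ℝ F] [FiniteDimensional ℝ F]
variable {F' : Type*} [NormedAddCommGroup F'] [NormedSpace ℝ F'] [FiniteDimensional ℝ F']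
variable {μ : Measure E} [μ.IsAddHaarMeasure]
variable {U : Set E} {u u' g : E → F} {n : ℕ} {v : E}

theorem mol_eq_convolution (n : ℕ) (u : E → F) :
    mol μ n u = convolution ((bumpN n : ContDiffBump (0 : E)).normed μ) u (ContinuousLinearMap.lsmul ℝ ℝ) μ := by
  funext x
  simp only [mol, convolution, ContinuousLinearMap.lsmul_apply]

theorem mol_eq_integral_sub (n : ℕ) (u : E → F) (x : E) :
    mol μ n u x = ∫ y, ((bumpN n : ContDiffBump (0 : E)).normed μ (x - y)) • u y ∂μ := by
  rw [← integral_sub_left_eq_self (fun y => ((bumpN n : ContDiffBump (0 : E)).normed μ (x - y)) • u y) μ x]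
  simp only [mol, sub_sub_cancel]

theorem mol_contDiff (hu : LocallyIntegrable u μ) (n : ℕ) : ContDiff ℝ ∞ (mol μ n u) := by
  rw [mol_eq_convolution]
  exact (ContDiffBump.hasCompactSupport_normed _).contDiff_convolution_left _ (ContDiffBump.contDiff_normed _) hu

theorem mol_integrable (hu : LocallyIntegrable u μ) (n : ℕ) (x : E) :
    Integrable (fun t => ((bumpN n : ContDiffBump (0 : E)).normed μ t) • u (x - t)) μ :=
  (ContDiffBump.hasCompactSupport_normed _).convolutionExists_left (ContinuousLinearMap.lsmul ℝ ℝ)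
    (ContDiffBump.continuous_normed _) hu x

theorem mol_integrable_sub (hu : LocallyIntegrable u μ) (n : ℕ) (x : E) :
    Integrable (fun y => ((bumpN n : ContDiffBump (0 : E)).normed μ (x - y)) • u y) μ := by
  have := (mol_integrable hu n x).comp_sub_left x
  simpa only [sub_sub_cancel] using this

theorem mol_rOut (n : ℕ) : (bumpN n : ContDiffBump (0 : E)).rOut = 1 / ((n : ℝ) + 1) := rfl

theorem mol_normed_eq_zero {x y : E} (h : y ∉ ball x (1 / ((n : ℝ) + 1))) :
    (bumpN n : ContDiffBump (0 : E)).normed μ (x - y) = 0 := by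
  have hs := (bumpN n : ContDiffBump (0 : E)).support_normed_eq (μ := μ)
  by_contra hne
  have : x - y ∈ Function.support ((bumpN n : ContDiffBump (0 : E)).normed μ) := hne
  rw [hs, mol_rOut, mem_ball_zero_iff] at this
  exact h (by rwa [mem_ball, dist_comm, dist_eq_norm])

theorem mol_add (hu : LocallyIntegrable u μ) (hu' : LocallyIntegrable u' μ) (n : ℕ) (x : E) :
    mol μ n (fun y => u y + u' y) x = mol μ n u x + mol μ n u' x := by
  simp only [mol, smul_add]
  exact integral_add (mol_integrable hu n x) (mol_integrable hu' n x)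

theorem mol_sub (hu : LocallyIntegrable u μ) (hu' : LocallyIntegrable u' μ) (n : ℕ) (x : E) :
    mol μ n (fun y => u y - u' y) x = mol μ n u x - mol μ n u' x := by
  simp only [mol, smul_sub]
  exact integral_sub (mol_integrable hu n x) (mol_integrable hu' n x)

theorem mol_const_smul (c : ℝ) (u : E → F) (n : ℕ) (x : E) :
    mol μ n (fun y => c • u y) x = c • mol μ n u x := by
  simp only [mol, smul_comm _ c]
  exact integral_smul c _

theorem mol_clm (hu : LocallyIntegrable u μ) (L : F →L[ℝ] F') (n : ℕ) (x : E) :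
    mol μ n (fun y => L (u y)) x = L (mol μ n u x) := by
  simp only [mol, ← map_smul]
  exact L.integral_comp_comm (mol_integrable hu n x)

theorem mol_congr_ae (h : ∀ᵐ y ∂μ, u y = u' y) (n : ℕ) (x : E) : mol μ n u x = mol μ n u' x := by
  rw [mol_eq_integral_sub, mol_eq_integral_sub]
  refine integral_congr_ae ?_
  filter_upwards [h] with y hy
  rw [hy]

/-- locality. -/
theorem mol_congr_ball {x : E} (h : ∀ y ∈ ball x (1 / ((n : ℝ) + 1)), u y = u' y) :
    mol μ n u x = mol μ n u' x := by
  rw [mol_eq_integral_sub, mol_eq_integral_sub]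
  refine integral_congr_ae (Filter.Eventually.of_forall fun y => ?_)
  by_cases hy : y ∈ ball x (1 / ((n : ℝ) + 1))
  · simp only [h y hy]
  · simp only [mol_normed_eq_zero hy, zero_smul]

theorem mol_eq_zero_of_ball {x : E} (h : ∀ y ∈ ball x (1 / ((n : ℝ) + 1)), u y = 0) : mol μ n u x = 0 := by
  rw [mol_congr_ball (u' := fun _ => (0 : F)) h]
  simp [mol]

theorem mol_translate (u : E → F) (a : E) (n : ℕ) (x : E) :
    mol μ n (fun y => u (y + a)) x = mol μ n u (x + a) := by
  simp only [mol, sub_add_eq_add_sub]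

theorem mol_tsupport_subset {K : Set E} (hu : ∀ x ∉ K, u x = 0) (n : ℕ) :
    tsupport (mol μ n u) ⊆ cthickening (1 / ((n : ℝ) + 1)) K := by
  refine closure_minimal (fun x hx => ?_) isClosed_cthickening
  by_contra hxK
  refine hx (mol_eq_zero_of_ball fun y hy => hu y fun hyK => hxK ?_)
  exact mem_cthickening_of_dist_le x y _ K hyK (by rw [dist_comm]; exact (mem_ball.1 hy).le)

/-- supports: if `u` vanishes off the compact set `K ⊆ U`, `U` open, then for large `n` all `mol μ n u` are supported in
one compact subset of `U`. -/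
theorem exists_compact_tsupport_mol (hU : IsOpen U) {K : Set E} (hK : IsCompact K) (hKU : K ⊆ U) :
    ∃ (K' : Set E) (n₀ : ℕ), IsCompact K' ∧ K ⊆ K' ∧ K' ⊆ U ∧ ∀ (u : E → F), (∀ x ∉ K, u x = 0) →
      ∀ n : ℕ, n₀ ≤ n → tsupport (mol μ n u) ⊆ K' := by
  obtain ⟨δ, hδ, hδU⟩ := hK.exists_cthickening_subset_open hU hKU
  obtain ⟨n₀, hn₀⟩ := exists_nat_one_div_lt hδ
  refine ⟨cthickening δ K, n₀, hK.cthickening, self_subset_cthickening K, hδU, fun u hu n hn => ?_⟩
  have hle : 1 / ((n : ℝ) + 1) ≤ δ := by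
    have h1 : 1 / ((n : ℝ) + 1) ≤ 1 / ((n₀ : ℝ) + 1) := by
      apply one_div_le_one_div_of_le (by positivity)
      have : (n₀ : ℝ) ≤ n := by exact_mod_cast hn
      linarith
    linarith
  exact (mol_tsupport_subset hu n).trans (cthickening_mono hle K)

theorem mol_hasCompactSupport {K : Set E} (hK : IsCompact K) (hu : ∀ x ∉ K, u x = 0) (n : ℕ) :
    HasCompactSupport (mol μ n u) := by
  exact hK.cthickening.of_isClosed_subset (isClosed_tsupport _) (mol_tsupport_subset hu n)

theorem mol_conv_fderiv {ρ : E → ℝ} (hρs : ContDiff ℝ 1 ρ) (hρc : HasCompactSupport ρ)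
    (hu : LocallyIntegrable u μ) (x v : E) :
    fderiv ℝ (convolution ρ u (ContinuousLinearMap.lsmul ℝ ℝ) μ) x v
      = ∫ t, (fderiv ℝ ρ t v) • u (x - t) ∂μ := by
  have h1 := hρc.hasFDerivAt_convolution_left (ContinuousLinearMap.lsmul ℝ ℝ : ℝ →L[ℝ] F →L[ℝ] F) (μ := μ)
    hρs hu x
  have hex : Integrable (fun t => ((ContinuousLinearMap.lsmul ℝ ℝ : ℝ →L[ℝ] F →L[ℝ] F).precompL E
      (fderiv ℝ ρ t)) (u (x - t))) μ :=
    (hρc.fderiv ℝ).convolutionExists_left ((ContinuousLinearMap.lsmul ℝ ℝ : ℝ →L[ℝ] F →L[ℝ] F).precompL E)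
      (hρs.continuous_fderiv (by simp)) hu x
  rw [h1.fderiv]
  unfold convolution
  rw [ContinuousLinearMap.integral_apply hex]
  rfl

theorem mol_fderiv_eq (hu : LocallyIntegrable u μ) (n : ℕ) (x v : E) :
    fderiv ℝ (mol μ n u) x v
      = ∫ y, (fderiv ℝ ((bumpN n : ContDiffBump (0 : E)).normed μ) (x - y) v) • u y ∂μ := by
  rw [mol_eq_convolution, mol_conv_fderiv (ContDiffBump.contDiff_normed _)
      (ContDiffBump.hasCompactSupport_normed _) hu,
    ← integral_sub_left_eq_self
      (fun y => (fderiv ℝ ((bumpN n : ContDiffBump (0 : E)).normed μ) (x - y) v) • u y) μ x]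
  simp only [sub_sub_cancel]

theorem mol_isTest {x : E} (hx : closedBall x (1 / ((n : ℝ) + 1)) ⊆ U) :
    IsTest U (fun y => (bumpN n : ContDiffBump (0 : E)).normed μ (x - y)) := by
  have hρs : ContDiff ℝ ∞ ((bumpN n : ContDiffBump (0 : E)).normed μ) := ContDiffBump.contDiff_normed _
  have hsub : tsupport (fun y => (bumpN n : ContDiffBump (0 : E)).normed μ (x - y))
      ⊆ closedBall x (1 / ((n : ℝ) + 1)) := by
    refine closure_minimal (fun y hy => ?_) isClosed_closedBall
    by_contra hy'
    exact hy (mol_normed_eq_zero fun hb => hy' (ball_subset_closedBall hb))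
  exact ⟨hρs.comp (contDiff_const.sub contDiff_id),
    (isCompact_closedBall x _).of_isClosed_subset (isClosed_tsupport _) hsub, hsub.trans hx⟩

theorem mol_fderiv_test (n : ℕ) (x y v : E) :
    fderiv ℝ (fun y => (bumpN n : ContDiffBump (0 : E)).normed μ (x - y)) y v
      = - fderiv ℝ ((bumpN n : ContDiffBump (0 : E)).normed μ) (x - y) v := by
  have hρs : ContDiff ℝ ∞ ((bumpN n : ContDiffBump (0 : E)).normed μ) := ContDiffBump.contDiff_normed _
  have hρd : HasFDerivAt ((bumpN n : ContDiffBump (0 : E)).normed μ)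
      (fderiv ℝ ((bumpN n : ContDiffBump (0 : E)).normed μ) (x - y)) (x - y) :=
    (hρs.differentiable (by simp) _).hasFDerivAt
  have hsubd : HasFDerivAt (fun y : E => x - y) (-ContinuousLinearMap.id ℝ E) y :=
    (hasFDerivAt_id y).const_sub x
  have e : (fun y => (bumpN n : ContDiffBump (0 : E)).normed μ (x - y))
      = ((bumpN n : ContDiffBump (0 : E)).normed μ) ∘ (fun y : E => x - y) := rfl
  rw [e, (hρd.comp y hsubd).fderiv]
  simp

/-- local version: weak derivative only on `U`, point at distance `> 1/(n+1)` from the complement. -/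
theorem mol_fderiv_apply_of_ball (hU : IsOpen U) (hu : LocallyIntegrable u μ) (hg : LocallyIntegrable g μ)
    (h : HasWeakDeriv μ U v u g) {x : E} (hx : closedBall x (1 / ((n : ℝ) + 1)) ⊆ U) :
    fderiv ℝ (mol μ n u) x v = mol μ n g x := by
  have key := h.2.2 _ (mol_isTest (μ := μ) hx)
  simp only [mol_fderiv_test, neg_smul] at key
  rw [integral_neg, neg_inj] at key
  rw [mol_fderiv_eq hu, key, mol_eq_integral_sub]

/-- the derivative of the mollification is the mollification of the weak derivative. -/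
theorem mol_fderiv_apply (h : HasWeakDeriv μ univ v u g) (n : ℕ) (x : E) :
    fderiv ℝ (mol μ n u) x v = mol μ n g x := by
  exact mol_fderiv_apply_of_ball isOpen_univ (locallyIntegrableOn_univ.1 h.1) (locallyIntegrableOn_univ.1 h.2.1) h
    (subset_univ _)

theorem mol_fderiv {G : E → E →L[ℝ] F} (h : HasWeakFDeriv μ univ u G) (n : ℕ) (x : E) :
    fderiv ℝ (mol μ n u) x = mol μ n G x := by
  ext v
  rw [mol_fderiv_apply (h v) n x]
  exact mol_clm (locallyIntegrableOn_univ.1 h.locInt_fderiv) (ContinuousLinearMap.apply ℝ F v) n x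

theorem mol_hasWeakDeriv (h : HasWeakDeriv μ univ v u g) (n : ℕ) :
    HasWeakDeriv μ univ v (mol μ n u) (mol μ n g) := by
  have h1 := hasWeakDeriv_of_contDiffOn (μ := μ) isOpen_univ
    (((mol_contDiff (locallyIntegrableOn_univ.1 h.1) n).of_le (WithTop.coe_le_coe.2 le_top)).contDiffOn
      (s := univ) (n := 1)) v
  have e : (fun x => fderiv ℝ (mol μ n u) x v) = mol μ n g := funext fun x => mol_fderiv_apply h n x
  rwa [e] at h1

theorem norm_mol_le {C : ℝ} (hu : LocallyIntegrable u μ) {x : E}
    (h : ∀ y ∈ ball x (1 / ((n : ℝ) + 1)), ‖u y‖ ≤ C) : ‖mol μ n u x‖ ≤ C := by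
  rw [mol_eq_integral_sub]
  have hi : Integrable (fun y => (bumpN n : ContDiffBump (0 : E)).normed μ (x - y) * C) μ :=
    (((bumpN n : ContDiffBump (0 : E)).integrable_normed (μ := μ)).comp_sub_left x).mul_const C
  have h1 : ∫ y, (bumpN n : ContDiffBump (0 : E)).normed μ (x - y) * C ∂μ = C := by
    rw [integral_mul_const, integral_sub_left_eq_self ((bumpN n : ContDiffBump (0 : E)).normed μ) μ x,
      ContDiffBump.integral_normed, one_mul]
  rw [← h1]
  refine norm_integral_le_of_norm_le hi (Filter.Eventually.of_forall fun y => ?_)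
  by_cases hy : y ∈ ball x (1 / ((n : ℝ) + 1))
  · rw [norm_smul, Real.norm_of_nonneg (ContDiffBump.nonneg_normed _ _)]
    exact mul_le_mul_of_nonneg_left (h y hy) (ContDiffBump.nonneg_normed _ _)
  · simp only [mol_normed_eq_zero hy, zero_smul, norm_zero, zero_mul, le_refl]

theorem mol_tendstoLocallyUniformlyOn (hU : IsOpen U) (hu : LocallyIntegrable u μ) (hc : ContinuousOn u U) :
    TendstoLocallyUniformlyOn (fun n => mol μ n u) u atTop U := by
  rw [Metric.tendstoLocallyUniformlyOn_iff]
  intro ε hε x hx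
  obtain ⟨r, hr, hrU⟩ := Metric.isOpen_iff.1 hU x hx
  have hK : IsCompact (closedBall x (r / 2)) := isCompact_closedBall x _
  have hKU : closedBall x (r / 2) ⊆ U := (closedBall_subset_ball (by linarith)).trans hrU
  have huc : UniformContinuousOn u (closedBall x (r / 2)) :=
    hK.uniformContinuousOn_of_continuous (hc.mono hKU)
  obtain ⟨δ, hδ, hδu⟩ := Metric.uniformContinuousOn_iff.1 huc (ε / 2) (by linarith)
  obtain ⟨N, hN⟩ := exists_nat_one_div_lt (lt_min hδ (by linarith : 0 < r / 4))
  refine ⟨ball x (r / 4), mem_nhdsWithin_of_mem_nhds (ball_mem_nhds x (by linarith)), ?_⟩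
  filter_upwards [Filter.eventually_ge_atTop N] with n hn y hy
  have hle : 1 / ((n : ℝ) + 1) < min δ (r / 4) := by
    have h1 : 1 / ((n : ℝ) + 1) ≤ 1 / ((N : ℝ) + 1) := by
      apply one_div_le_one_div_of_le (by positivity)
      have : (N : ℝ) ≤ n := by exact_mod_cast hn
      linarith
    linarith
  have hyK : y ∈ closedBall x (r / 2) := by
    rw [mem_closedBall]; have := mem_ball.1 hy; linarith
  have key := (bumpN n : ContDiffBump (0 : E)).dist_normed_convolution_le (μ := μ) (g := u) (x₀ := y)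
    (ε := ε / 2) hu.aestronglyMeasurable (fun z hz => by
      rw [mol_rOut] at hz
      have hz' := mem_ball.1 hz
      have hzK : z ∈ closedBall x (r / 2) := by
        rw [mem_closedBall]
        have h1 := mem_ball.1 hy
        have h2 := dist_triangle z y x
        have h3 := lt_of_lt_of_le hle (min_le_right _ _)
        linarith
      exact (hδu z hzK y hyK (lt_of_lt_of_le (hz'.trans hle) (min_le_left _ _))).le)
  rw [← mol_eq_convolution] at key
  rw [dist_comm]
  linarith

end Claimed.Agent.Lib.Sob
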