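import Claimed.Agent.Lib.Sob.Weak

/-!
# `Lib/Sob/Riesz`: a functional on test functions which is bounded in `L²` is represented by an `L²` function
(leaf SOB-Riesz)

This replaces weak compactness everywhere in the library.

PLAN for `exists_l2_repr`.  Let `Hs := Lp ℝ 2 (μ.restrict U)` (a real Hilbert space), `S : Submodule ℝ (E → ℝ)` the
submodule of test functions on `U` (`IsTest.add`, `IsTest.const_mul`, `isTest_zero`), `T : S →ₗ[ℝ] Hs`,
`T φ = (memLp of φ).toLp` (`MemLp.toLp_add`, `MemLp.toLp_const_smul`), `ℓ₀ : S →ₗ[ℝ] ℝ` the restriction of `ℓ`.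
`‖T φ‖ = l2n μ U φ` (`Lp.norm_toLp`).  From `|ℓ₀ φ| ≤ K ‖T φ‖` we get `ker T ≤ ker ℓ₀`, so `ℓ₀` factors through
`LinearMap.range T`: there is `f : range T →ₗ[ℝ] ℝ` with `f (T φ) = ℓ₀ φ`
(e.g. `f := (ker T).liftQ ℓ₀ _ ∘ₗ T.quotKerEquivRange.symm`), and `|f y| ≤ K ‖y‖`: `LinearMap.mkContinuous`.
Hahn-Banach `Real.exists_extension_norm_eq` extends `f` to `Hs` with the same norm `≤ K`;
`g := (InnerProductSpace.toDual ℝ Hs).symm` of the extension; `⟪g, T φ⟫ = ∫ g φ` (`L2.inner_def`,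
`MemLp.coeFn_toLp`); `‖g‖ ≤ K` gives `L2Le` (`Lp.norm_def`, `Lp.memLp`).
The two corollaries: apply it to `ℓ φ = - ∫ (dφ v) • u`; vector case: components in a basis of `F`
(`HasWeakDeriv.sum`, `HasWeakDeriv.clm` with `y ↦ y • e i`, `L2Le.sum`), `c = ∑ i ‖coord i‖ ‖e i‖`.
~350 lines.  Statements verbatim.
-/

set_option autoImplicit false
set_option maxSynthPendingDepth 6
open scoped ContDiff Topology
open MeasureTheory Set Filter Metric

namespace Claimed.Agent.Lib.Sob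

variable {E : Type*} [NormedAddCommGroup E] [NormedSpace ℝ E] [FiniteDimensional ℝ E]
  [MeasurableSpace E] [BorelSpace E]
variable {μ : Measure E} [μ.IsAddHaarMeasure]
variable {U : Set E}

/-- the submodule of test functions. -/
def rieszSub (U : Set E) : Submodule ℝ (E → ℝ) where
  carrier := {φ | IsTest U φ}
  add_mem' := fun h1 h2 => h1.add h2
  zero_mem' := isTest_zero
  smul_mem' := fun c _ h => h.const_mul c

theorem riesz_memLp (μ : Measure E) [μ.IsAddHaarMeasure] (φ : rieszSub U) :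
    MemLp (φ : E → ℝ) 2 (μ.restrict U) :=
  (IsTest.memLp (μ := μ) φ.2 2).restrict U

/-- test functions as elements of `L²(U)`. -/
noncomputable def rieszT (μ : Measure E) [μ.IsAddHaarMeasure] (U : Set E) :
    rieszSub U →ₗ[ℝ] Lp ℝ 2 (μ.restrict U) where
  toFun φ := (riesz_memLp μ φ).toLp φ
  map_add' _ _ := rfl
  map_smul' _ _ := rfl

theorem riesz_norm_T (φ : rieszSub U) : ‖rieszT μ U φ‖ = l2n μ U (φ : E → ℝ) :=
  Lp.norm_toLp _ (riesz_memLp μ φ)

/-- **Riesz representation on test functions.** -/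
theorem exists_l2_repr (hU : IsOpen U) (ℓ : (E → ℝ) → ℝ) {K : ℝ} (hK : 0 ≤ K)
    (hadd : ∀ φ ψ : E → ℝ, IsTest U φ → IsTest U ψ → ℓ (fun x => φ x + ψ x) = ℓ φ + ℓ ψ)
    (hsmul : ∀ (c : ℝ) (φ : E → ℝ), IsTest U φ → ℓ (fun x => c * φ x) = c * ℓ φ)
    (hb : ∀ φ : E → ℝ, IsTest U φ → |ℓ φ| ≤ K * l2n μ U φ) :
    ∃ g : E → ℝ, L2Le μ U g K ∧ ∀ φ : E → ℝ, IsTest U φ → ℓ φ = ∫ x, φ x * g x ∂μ := by
  classical
  set T := rieszT μ U with hT
  let ℓ₀ : rieszSub U →ₗ[ℝ] ℝ :=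
    { toFun := fun φ => ℓ φ
      map_add' := fun φ ψ => hadd φ ψ φ.2 ψ.2
      map_smul' := fun c φ => hsmul c φ φ.2 }
  have hker : LinearMap.ker T ≤ LinearMap.ker ℓ₀ := by
    intro φ hφ
    rw [LinearMap.mem_ker] at hφ ⊢
    have h1 := hb φ φ.2
    rw [← riesz_norm_T, ← hT, hφ, norm_zero, mul_zero] at h1
    exact abs_nonpos_iff.1 h1
  let f : LinearMap.range T →ₗ[ℝ] ℝ :=
    ((LinearMap.ker T).liftQ ℓ₀ hker) ∘ₗ (T.quotKerEquivRange.symm : _ →ₗ[ℝ] _)
  have hf : ∀ φ : rieszSub U, f ⟨T φ, LinearMap.mem_range_self T φ⟩ = ℓ φ := by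
    intro φ
    simp only [f, LinearMap.comp_apply, LinearEquiv.coe_coe]
    rw [LinearMap.quotKerEquivRange_symm_apply_image]
    rfl
  have hfb : ∀ y : LinearMap.range T, ‖f y‖ ≤ K * ‖y‖ := by
    rintro ⟨y, φ, rfl⟩
    rw [hf φ, Real.norm_eq_abs]
    have := hb φ φ.2
    rw [← riesz_norm_T] at this
    exact this
  obtain ⟨G, hG1, hG2⟩ := exists_extension_norm_eq (LinearMap.range T) (f.mkContinuous K hfb)
  have hGK : ‖G‖ ≤ K := hG2 ▸ LinearMap.mkContinuous_norm_le f hK hfb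
  set g := (InnerProductSpace.toDual ℝ (Lp ℝ 2 (μ.restrict U))).symm G with hg
  have hgn : ‖g‖ ≤ K := by rw [hg, LinearIsometryEquiv.norm_map]; exact hGK
  refine ⟨g, ⟨Lp.memLp g, ?_⟩, ?_⟩
  · rw [ENNReal.le_ofReal_iff_toReal_le (Lp.memLp g).eLpNorm_ne_top hK]
    rw [Lp.norm_def] at hgn
    exact hgn
  · intro φ hφ
    have h1 : ℓ φ = G (T ⟨φ, hφ⟩) := by
      have := hG1 ⟨T ⟨φ, hφ⟩, LinearMap.mem_range_self T _⟩
      rw [this]
      exact (hf ⟨φ, hφ⟩).symm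
    have h2 : G (T ⟨φ, hφ⟩) = inner ℝ g (T ⟨φ, hφ⟩) := by
      rw [hg, InnerProductSpace.toDual_symm_apply]
    rw [h1, h2, L2.inner_def]
    have h3 := IsTest.integral_smul_eq_setIntegral (μ := μ) hU hφ (g : E → ℝ)
    simp only [smul_eq_mul] at h3
    rw [h3]
    refine integral_congr_ae ?_
    filter_upwards [(riesz_memLp μ ⟨φ, hφ⟩).coeFn_toLp] with x hx
    have : (T ⟨φ, hφ⟩ : E → ℝ) x = φ x := hx
    rw [this]
    simp

/-- **Criterion for the existence of a weak derivative in `L²`** (scalar case, sharp constant). -/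
theorem exists_weakDeriv_of_bound (hU : IsOpen U) {u : E → ℝ} (hu : LocallyIntegrableOn u U μ) (v : E)
    {K : ℝ} (hK : 0 ≤ K)
    (h : ∀ φ : E → ℝ, IsTest U φ → |∫ x, (fderiv ℝ φ x v) • u x ∂μ| ≤ K * l2n μ U φ) :
    ∃ g : E → ℝ, HasWeakDeriv μ U v u g ∧ L2Le μ U g K := by
  have hint : ∀ φ : E → ℝ, IsTest U φ → Integrable (fun x => (fderiv ℝ φ x v) • u x) μ :=
    fun φ hφ => IsTest.integrable_smul hU (hφ.fderiv_apply v) hu
  have hd : ∀ φ : E → ℝ, IsTest U φ → Differentiable ℝ φ := fun φ hφ =>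
    hφ.smooth.differentiable (by simp)
  obtain ⟨g, hg, hrep⟩ := exists_l2_repr (μ := μ) hU
    (fun φ => - ∫ x, (fderiv ℝ φ x v) • u x ∂μ) hK
    (by
      intro φ ψ hφ hψ
      rw [← neg_add, ← integral_add (hint φ hφ) (hint ψ hψ)]
      congr 1
      refine integral_congr_ae (ae_of_all _ fun x => ?_)
      simp only
      rw [fderiv_fun_add (hd φ hφ x) (hd ψ hψ x), add_apply, add_smul])
    (by
      intro c φ hφ
      rw [mul_neg, ← integral_const_mul]
      congr 1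
      refine integral_congr_ae (ae_of_all _ fun x => ?_)
      simp only
      rw [fderiv_const_mul (hd φ hφ x)]
      simp [mul_assoc])
    (by
      intro φ hφ
      rw [abs_neg]
      exact h φ hφ)
  refine ⟨g, ⟨hu, hg.l2Loc.locallyIntegrableOn hU, ?_⟩, hg⟩
  intro φ hφ
  have := hrep φ hφ
  simp only [smul_eq_mul] at this ⊢
  linarith

/-- vector valued case, with a constant depending only on `F`. -/
theorem exists_const_weakDeriv_of_bound (μ : Measure E) [μ.IsAddHaarMeasure]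
    (F : Type*) [NormedAddCommGroup F] [NormedSpace ℝ F] [FiniteDimensional ℝ F] :
    ∃ c : ℝ, 0 ≤ c ∧ ∀ (U : Set E) (u : E → F) (v : E) (K : ℝ), IsOpen U → LocallyIntegrableOn u U μ → 0 ≤ K →
      (∀ φ : E → ℝ, IsTest U φ → ‖∫ x, (fderiv ℝ φ x v) • u x ∂μ‖ ≤ K * l2n μ U φ) →
      ∃ g : E → F, HasWeakDeriv μ U v u g ∧ L2Le μ U g (c * K) := by
  classical
  set b := Module.finBasis ℝ F with hb
  let ci : Fin (Module.finrank ℝ F) → F →L[ℝ] ℝ := fun i => LinearMap.toContinuousLinearMap (b.coord i)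
  let Li : Fin (Module.finrank ℝ F) → ℝ →L[ℝ] F := fun i => (ContinuousLinearMap.id ℝ ℝ).smulRight (b i)
  refine ⟨∑ i, ‖Li i‖ * ‖ci i‖, by positivity, ?_⟩
  intro U u v K hU hu hK h
  have hint : ∀ φ : E → ℝ, IsTest U φ → Integrable (fun x => (fderiv ℝ φ x v) • u x) μ :=
    fun φ hφ => IsTest.integrable_smul hU (hφ.fderiv_apply v) hu
  have hui : ∀ i, LocallyIntegrableOn (fun x => ci i (u x)) U μ := fun i x hx => by
    obtain ⟨t, ht, hi⟩ := hu x hx
    exact ⟨t, ht, (ci i).integrable_comp hi⟩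
  have hex : ∀ i, ∃ g : E → ℝ, HasWeakDeriv μ U v (fun x => ci i (u x)) g ∧
      L2Le μ U g (‖ci i‖ * K) := by
    intro i
    refine exists_weakDeriv_of_bound hU (hui i) v (by positivity) ?_
    intro φ hφ
    have e : ∫ x, (fderiv ℝ φ x v) • ci i (u x) ∂μ = ci i (∫ x, (fderiv ℝ φ x v) • u x ∂μ) := by
      rw [← ContinuousLinearMap.integral_comp_comm _ (hint φ hφ)]
      refine integral_congr_ae (ae_of_all _ fun x => ?_)
      simp only [map_smul]
    rw [e, ← Real.norm_eq_abs]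
    calc ‖ci i (∫ x, (fderiv ℝ φ x v) • u x ∂μ)‖ ≤ ‖ci i‖ * ‖∫ x, (fderiv ℝ φ x v) • u x ∂μ‖ :=
          (ci i).le_opNorm _
      _ ≤ ‖ci i‖ * (K * l2n μ U φ) := mul_le_mul_of_nonneg_left (h φ hφ) (norm_nonneg _)
      _ = ‖ci i‖ * K * l2n μ U φ := by ring
  choose g hg1 hg2 using hex
  refine ⟨fun x => ∑ i, Li i (g i x), ?_, ?_⟩
  · have h1 := HasWeakDeriv.sum hU Finset.univ (fun i _ => (hg1 i).clm (Li i))
    have e : (fun x => ∑ i, Li i (ci i (u x))) = u := by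
      funext x
      have := b.sum_repr (u x)
      simp [Li, ci, this]
    rw [e] at h1
    exact h1
  · have h1 := L2Le.sum Finset.univ (fun i _ => (hg2 i).clm (Li i)) (fun i _ => by positivity)
    have e : ∑ i, ‖Li i‖ * (‖ci i‖ * K) = (∑ i, ‖Li i‖ * ‖ci i‖) * K := by
      rw [Finset.sum_mul]
      exact Finset.sum_congr rfl fun i _ => by ring
    rw [e] at h1
    exact h1

end Claimed.Agent.Lib.Sob
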