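import Mathlib

/-!
# `Lib/Sob/Sup1`: the elementary sup estimate on `ι → ℝ` (leaf SOB-Sup1)

Mathlib only; independent of the rest of the library.

For a smooth compactly supported `ψ : (ι → ℝ) → ℝ`:  `ψ(x)² ≤ ∑_{T ⊆ ι} ∫ (∂_T ψ)²`, `∂_T` the mixed derivative, once in every
direction of `T`.  We encode the mixed derivatives by lists: `pdl [i₁, …, i_p] ψ = ∂_{i₁} ⋯ ∂_{i_p} ψ`.

PLAN
1. one variable: `g : ℝ → ℝ`, `C¹`, compactly supported: `g t ^ 2 ≤ ∫ s, (g s ^ 2 + deriv g s ^ 2)`
   (`g t ^ 2 = ∫ s in Iic t, 2 g g'` : `HasCompactSupport.integral_Iic_deriv_eq` for `g²`; `2 a b ≤ a² + b²`; monotonicity of the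
   integral in the domain for a nonnegative integrand).
2. for `i : ι`, `x`: apply 1 to `g s = ψ (Function.update x i s)`, `g' s = fderiv ℝ ψ (update x i s) (Pi.single i 1)`:
   `ψ x ^ 2 ≤ ∫ s, (ψ ^ 2 + (pdl [i] ψ) ^ 2) (update x i s)`.
3. induction over a `Finset`/`Nodup` list `l` of variables, in `ℝ≥0∞` with Mathlib's marginals
   (`MeasureTheory.lmarginal`, notation `∫⋯∫⁻_s, f ∂μ`, `lmarginal_insert`, `lmarginal_mono`, `lmarginal_univ`; see
   `Mathlib/MeasureTheory/Integral/Marginal.lean` and its use in `Mathlib/Analysis/FunctionalSpaces/SobolevInequality.lean`):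
   `ofReal (ψ x ^ 2) ≤ ∑ over sublists l' of l, (∫⋯∫⁻_{l.toFinset}, ofReal ((pdl l' ψ) ^ 2)) x`, for ALL smooth compactly supported `ψ`
   simultaneously (`pdl l' ψ` is again smooth with compact support: `pdl_contDiff`, `pdl_hasCompactSupport`).
   A convenient way to avoid sums over sublists: define recursively `Q [] ψ = ofReal (ψ ^ 2)`,
   `Q (i :: l) ψ x = ∫⁻ s, (Q l ψ + Q l (pdl [i] ψ)) (update x i s)`, prove `ofReal (ψ x ^ 2) ≤ Q l ψ x` by induction on `l`, and
   `Q l ψ x ≤ 2 ^ l.length * ofReal (M ^ 2)` for `l` = an enumeration of `univ` (`Finset.univ.toList`) by unfolding into marginals.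
   (order of the derivatives: `pdl (l ++ [i])` versus `pdl (i :: l)`: organise the recursion so that no commutation of partial
   derivatives is needed, the hypothesis `h` is available for EVERY `Nodup` list.)
~500 lines.  Statements verbatim.
-/

set_option autoImplicit false
open scoped ContDiff Topology
open MeasureTheory Set Filter

namespace Claimed.Agent.Lib.Sob

variable {ι : Type*} [Fintype ι] [DecidableEq ι]

/-- iterated partial derivatives along a list of coordinates. -/
noncomputable def pdl : List ι → ((ι → ℝ) → ℝ) → ((ι → ℝ) → ℝ)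
  | [], ψ => ψ
  | i :: l, ψ => fun x => fderiv ℝ (pdl l ψ) x (Pi.single i 1)

theorem pdl_contDiff {ψ : (ι → ℝ) → ℝ} (hψ : ContDiff ℝ ∞ ψ) (l : List ι) : ContDiff ℝ ∞ (pdl l ψ) := by
  induction l with
  | nil => exact hψ
  | cons i l ih =>
    exact (ih.fderiv_right (m := ∞) (by simp)).clm_apply contDiff_const

theorem pdl_hasCompactSupport {ψ : (ι → ℝ) → ℝ} (hc : HasCompactSupport ψ) (l : List ι) :
    HasCompactSupport (pdl l ψ) := by
  induction l with
  | nil => exact hc
  | cons i l ih =>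
    refine (ih.fderiv ℝ).mono (fun x hx hfx => hx ?_)
    show fderiv ℝ (pdl l ψ) x (Pi.single i 1) = 0
    rw [hfx]; simp

theorem sq_le_integral_sq_add_deriv_sq {g : ℝ → ℝ} (hg : ContDiff ℝ 1 g) (hc : HasCompactSupport g) (t : ℝ) :
    g t ^ 2 ≤ ∫ s, (g s ^ 2 + deriv g s ^ 2) := by
  have hgc : Continuous g := hg.continuous
  have hdc : Continuous (deriv g) := hg.continuous_deriv le_rfl
  have hG : ContDiff ℝ 1 (fun s => g s ^ 2) := hg.pow 2
  have hGs : HasCompactSupport (fun s => g s ^ 2) :=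
    hc.mono (fun x hx hfx => hx (by simp [hfx]))
  have hd : ∀ s, deriv (fun s => g s ^ 2) s = 2 * g s * deriv g s := by
    intro s
    have := ((hg.differentiable one_ne_zero) s).hasDerivAt.fun_pow 2
    simpa using this.deriv
  have h1 := hGs.integral_Iic_deriv_eq hG t
  simp only [hd] at h1
  have hF : Integrable (fun s => g s ^ 2 + deriv g s ^ 2) := by
    apply ((hgc.pow 2).add (hdc.pow 2)).integrable_of_hasCompactSupport
    refine HasCompactSupport.intro hc (fun x hx => ?_)
    have h0 : g x = 0 := image_eq_zero_of_notMem_tsupport hx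
    have h0' : deriv g x = 0 := by
      have : g =ᶠ[𝓝 x] 0 := notMem_tsupport_iff_eventuallyEq.1 hx
      rw [this.deriv_eq]; simp
    simp [h0, h0']
  have hP : Integrable (fun s => 2 * g s * deriv g s) := by
    apply ((continuous_const.mul hgc).mul hdc).integrable_of_hasCompactSupport
    exact hc.mono (fun x hx hfx => hx (by simp [hfx]))
  rw [← h1]
  calc ∫ s in Iic t, 2 * g s * deriv g s ≤ ∫ s in Iic t, (g s ^ 2 + deriv g s ^ 2) := by
        apply setIntegral_mono hP.integrableOn hF.integrableOn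
        intro s
        nlinarith [sq_nonneg (g s - deriv g s)]
    _ ≤ ∫ s, (g s ^ 2 + deriv g s ^ 2) :=
        setIntegral_le_integral hF (ae_of_all _ (fun s => by positivity))

/-- one variable slice of the estimate, in `ℝ≥0∞`. -/
theorem sup1_slice {φ : (ι → ℝ) → ℝ} (hφ : ContDiff ℝ ∞ φ) (hc : HasCompactSupport φ) (i : ι)
    (x : ι → ℝ) :
    ENNReal.ofReal (φ x ^ 2) ≤ ∫⁻ s, (ENNReal.ofReal (φ (Function.update x i s) ^ 2)
      + ENNReal.ofReal (pdl [i] φ (Function.update x i s) ^ 2)) := by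
  set g : ℝ → ℝ := fun s => φ (Function.update x i s) with hg
  have hφ1 : ContDiff ℝ 1 φ := hφ.of_le (by exact_mod_cast le_top)
  have hu : ContDiff ℝ 1 (Function.update x i) := contDiff_update 1 x i
  have hg1 : ContDiff ℝ 1 g := hφ1.comp hu
  have hgs : HasCompactSupport g := hc.comp_isClosedEmbedding (isClosedEmbedding_update x i)
  have hd : ∀ s, deriv g s = pdl [i] φ (Function.update x i s) := by
    intro s
    have h1 : HasFDerivAt φ (fderiv ℝ φ (Function.update x i s)) (Function.update x i s) :=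
      ((hφ1.differentiable one_ne_zero) _).hasFDerivAt
    exact (h1.comp_hasDerivAt s (hasDerivAt_update x i s)).deriv
  have h := sq_le_integral_sq_add_deriv_sq hg1 hgs (x i)
  have hgx : g (x i) = φ x := by simp [hg]
  rw [hgx] at h
  have hF : Integrable (fun s => g s ^ 2 + deriv g s ^ 2) := by
    apply ((hg1.continuous.pow 2).add ((hg1.continuous_deriv le_rfl).pow 2)).integrable_of_hasCompactSupport
    refine HasCompactSupport.intro hgs (fun y hy => ?_)
    have h0 : g y = 0 := image_eq_zero_of_notMem_tsupport hy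
    have h0' : deriv g y = 0 := by
      have : g =ᶠ[𝓝 y] 0 := notMem_tsupport_iff_eventuallyEq.1 hy
      rw [this.deriv_eq]; simp
    simp [h0, h0']
  calc ENNReal.ofReal (φ x ^ 2) ≤ ENNReal.ofReal (∫ s, (g s ^ 2 + deriv g s ^ 2)) :=
        ENNReal.ofReal_le_ofReal h
    _ = ∫⁻ s, ENNReal.ofReal (g s ^ 2 + deriv g s ^ 2) :=
        ofReal_integral_eq_lintegral_ofReal hF (ae_of_all _ (fun s => by positivity))
    _ = _ := by
        congr 1
        funext s
        rw [ENNReal.ofReal_add (sq_nonneg _) (sq_nonneg _), hd s]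

/-- the sum of the squares of the mixed derivatives `∂_T ∂_l ψ`, `T` running through the sublists of `L`. -/
noncomputable def sup1S (ψ : (ι → ℝ) → ℝ) : List ι → List ι → (ι → ℝ) → ENNReal
  | [], l => fun y => ENNReal.ofReal (pdl l ψ y ^ 2)
  | i :: L, l => fun y => sup1S ψ L l y + sup1S ψ L (i :: l) y

theorem sup1S_measurable {ψ : (ι → ℝ) → ℝ} (hψ : ContDiff ℝ ∞ ψ) (L l : List ι) :
    Measurable (sup1S ψ L l) := by
  induction L generalizing l with
  | nil => exact ((pdl_contDiff hψ l).continuous.pow 2).measurable.ennreal_ofReal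
  | cons i L ih => exact (ih l).add (ih (i :: l))

theorem sup1_lmarginal_add (s : Finset ι) {f g : (ι → ℝ) → ENNReal} (hf : Measurable f)
    (x : ι → ℝ) :
    (∫⋯∫⁻_s, (fun y => f y + g y)) x = (∫⋯∫⁻_s, f) x + (∫⋯∫⁻_s, g) x := by
  simp only [lmarginal]
  exact lintegral_add_left (hf.comp measurable_updateFinset) _

theorem sup1_le_lmarginal {ψ : (ι → ℝ) → ℝ} (hψ : ContDiff ℝ ∞ ψ) (hc : HasCompactSupport ψ)
    (L : List ι) (hL : L.Nodup) (l : List ι) (x : ι → ℝ) :
    ENNReal.ofReal (pdl l ψ x ^ 2) ≤ (∫⋯∫⁻_L.toFinset, sup1S ψ L l) x := by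
  induction L generalizing l x with
  | nil => simp [sup1S]
  | cons i L ih =>
    have hi : i ∉ L.toFinset := by
      rw [List.mem_toFinset]; exact (List.nodup_cons.1 hL).1
    have hL' : L.Nodup := (List.nodup_cons.1 hL).2
    rw [List.toFinset_cons, lmarginal_insert _ (sup1S_measurable hψ (i :: L) l) hi]
    calc ENNReal.ofReal (pdl l ψ x ^ 2)
        ≤ ∫⁻ s, (ENNReal.ofReal (pdl l ψ (Function.update x i s) ^ 2)
            + ENNReal.ofReal (pdl [i] (pdl l ψ) (Function.update x i s) ^ 2)) :=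
          sup1_slice (pdl_contDiff hψ l) (pdl_hasCompactSupport hc l) i x
      _ ≤ ∫⁻ s, ((∫⋯∫⁻_L.toFinset, sup1S ψ L l) (Function.update x i s)
            + (∫⋯∫⁻_L.toFinset, sup1S ψ L (i :: l)) (Function.update x i s)) := by
          apply lintegral_mono
          intro s
          exact add_le_add (ih hL' l _) (ih hL' (i :: l) _)
      _ = _ := by
          congr 1
          funext s
          exact (sup1_lmarginal_add _ (sup1S_measurable hψ L l) _).symm

theorem sup1_lintegral_le {ψ : (ι → ℝ) → ℝ} (hψ : ContDiff ℝ ∞ ψ) (hc : HasCompactSupport ψ) {M : ℝ}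
    (h : ∀ l : List ι, l.Nodup → ∫ x, (pdl l ψ x) ^ 2 ≤ M ^ 2) (L l : List ι)
    (hLl : (L ++ l).Nodup) :
    ∫⁻ y, sup1S ψ L l y ≤ 2 ^ L.length * ENNReal.ofReal (M ^ 2) := by
  induction L generalizing l with
  | nil =>
    have hi : Integrable (fun y => pdl l ψ y ^ 2) := by
      apply ((pdl_contDiff hψ l).continuous.pow 2).integrable_of_hasCompactSupport
      exact (pdl_hasCompactSupport hc l).mono (fun x hx hfx => hx (by simp [hfx]))
    simp only [sup1S, List.length_nil, pow_zero, one_mul]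
    rw [← ofReal_integral_eq_lintegral_ofReal hi (ae_of_all _ (fun y => sq_nonneg _))]
    exact ENNReal.ofReal_le_ofReal (h l (by simpa using hLl))
  | cons i L ih =>
    have h1 : (L ++ l).Nodup := by
      rw [List.cons_append] at hLl
      exact (List.nodup_cons.1 hLl).2
    have h2 : (L ++ i :: l).Nodup := by
      rw [List.cons_append] at hLl
      exact (List.perm_middle.nodup_iff).2 hLl
    simp only [sup1S]
    rw [lintegral_add_left (sup1S_measurable hψ L l), List.length_cons, pow_succ]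
    calc (∫⁻ y, sup1S ψ L l y) + ∫⁻ y, sup1S ψ L (i :: l) y
        ≤ 2 ^ L.length * ENNReal.ofReal (M ^ 2) + 2 ^ L.length * ENNReal.ofReal (M ^ 2) :=
          add_le_add (ih l h1) (ih (i :: l) h2)
      _ = _ := by ring

/-- **sup estimate**: `sup ψ² ≤ 2^m max_T ‖∂_T ψ‖₂²`. -/
theorem sq_le_of_pdl_bound {ψ : (ι → ℝ) → ℝ} (hψ : ContDiff ℝ ∞ ψ) (hc : HasCompactSupport ψ) {M : ℝ}
    (h : ∀ l : List ι, l.Nodup → ∫ x, (pdl l ψ x) ^ 2 ≤ M ^ 2) (x : ι → ℝ) :
    ψ x ^ 2 ≤ 2 ^ (Fintype.card ι) * M ^ 2 := by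
  set L : List ι := Finset.univ.toList with hL
  have hLn : L.Nodup := Finset.nodup_toList _
  have hLf : L.toFinset = Finset.univ := Finset.toList_toFinset _
  have hLl : L.length = Fintype.card ι := by rw [hL, Finset.length_toList, Finset.card_univ]
  have h1 := sup1_le_lmarginal hψ hc L hLn [] x
  rw [hLf, lmarginal_univ, ← volume_pi] at h1
  have h2 := sup1_lintegral_le hψ hc h L [] (by simpa using hLn)
  have h3 : ENNReal.ofReal (ψ x ^ 2) ≤ ENNReal.ofReal (2 ^ (Fintype.card ι) * M ^ 2) := by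
    have e : ENNReal.ofReal (2 ^ (Fintype.card ι) * M ^ 2) =
        2 ^ L.length * ENNReal.ofReal (M ^ 2) := by
      rw [ENNReal.ofReal_mul (by positivity), ENNReal.ofReal_pow (by norm_num), ← hLl]
      simp
    rw [e]
    exact h1.trans h2
  exact (ENNReal.ofReal_le_ofReal_iff (by positivity)).1 h3

end Claimed.Agent.Lib.Sob
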