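import Claimed.Agent.Lib.Sob.Sup1
import Claimed.Agent.Lib.Sob.Hk

/-!
# `Lib/Sob/Sup2`: `sup |φ| ≤ C ‖φ‖_{H^m}`, `m = dim E`, for smooth functions on `E` (leaf SOB-Sup2)

Transfer of `sq_le_of_pdl_bound` from `Fin m → ℝ` to `E`.  All imported statements are black boxes.

PLAN
1. `sup_le_of_hkLe_test` (scalar, compact support).  BEFORE THE DATA: `b` := a basis of `E` indexed by `Fin m` with `‖b i‖ ≤ 1`
   (normalise `Module.finBasis ℝ E`), `L := b.equivFunL : E ≃L[ℝ] (Fin m → ℝ)`, so `L.symm (Pi.single i 1) = b i`.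
   `μ.map L` is an additive Haar measure on `Fin m → ℝ` (`ContinuousLinearEquiv`/`MulEquiv.isHaarMeasure_map`,
   `Measure.isAddHaarMeasure_map`), hence `μ.map L = c • volume` with `0 < c < ∞` (`Measure.isAddLeftInvariant_eq_smul`,
   `Measure.addHaarScalarFactor`), i.e. `∫ F(y) dy = c⁻¹ ∫ F (L x) dμ x`.
   DATA: `ψ = φ ∘ L.symm`; by induction on the list `l`: `pdl l ψ = (D l φ) ∘ L.symm`, where `D [] φ = φ`,
   `D (i :: l) φ = fun x => fderiv ℝ (D l φ) x (b i)` (chain rule `fderiv_comp`, `L.symm` linear), `D l φ` smooth;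
   by induction on `l` (generalizing the order): `HkLe μ univ (k + l.length) φ M → HkLe μ univ k (D l φ) M`
   (`HkLe.weakDeriv` + `hasWeakDeriv_of_contDiffOn`; peel the derivatives off in the right order: the OUTERMOST derivative of
   `D (i :: l)` is applied last, so do the induction on `l` for all `k`).  A `Nodup` list has `length ≤ m`.
   So `∫ (pdl l ψ)² dy = c⁻¹ ∫ (D l φ)² dμ ≤ c⁻¹ M²` (`l2Le_iff_integral`).
2. `sup_le_of_hkLe_scalar` (no compact support): fix once a cutoff `χ` with `χ 0 = 1` (`exists_cutoff_ball 0`), bound `Λ` of order `m`;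
   for a point `x₁` the function `x ↦ χ (x - x₁) φ x` is smooth with compact support and `HkLe μ univ m _ (2^m Λ M)`
   (`HkLe.smul_smooth` on `univ`, `CkLe.translate`); evaluate at `x₁`.
3. `sup_le_of_hkLe`: `‖y‖ = ℓ y` for some `‖ℓ‖ ≤ 1` (`exists_dual_vector''`), `HkLe.clm`.
~550 lines.  Statements verbatim.
-/

set_option autoImplicit false
set_option maxSynthPendingDepth 6
open scoped ContDiff Topology
open MeasureTheory Set Filter Metric

namespace Claimed.Agent.Lib.Sob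

variable {E : Type*} [NormedAddCommGroup E] [NormedSpace ℝ E] [FiniteDimensional ℝ E]
  [MeasurableSpace E] [BorelSpace E]

/-- iterated directional derivatives along a list of vectors of a family `b`. -/
noncomputable def sup2D {ι : Type*} (b : ι → E) : List ι → (E → ℝ) → (E → ℝ)
  | [], φ => φ
  | i :: l, φ => fun x => fderiv ℝ (sup2D b l φ) x (b i)

theorem sup2D_contDiff {ι : Type*} (b : ι → E) {φ : E → ℝ} (hφ : ContDiff ℝ ∞ φ) (l : List ι) :
    ContDiff ℝ ∞ (sup2D b l φ) := by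
  induction l with
  | nil => exact hφ
  | cons i l ih => exact (ih.fderiv_right (m := ∞) (by simp)).clm_apply contDiff_const

theorem sup2_pdl_eq {ι : Type*} [Fintype ι] [DecidableEq ι] (b : ι → E) (L : E ≃L[ℝ] (ι → ℝ))
    (hL : ∀ i, L.symm (Pi.single i 1) = b i) (φ : E → ℝ) (l : List ι) :
    pdl l (φ ∘ L.symm) = sup2D b l φ ∘ L.symm := by
  induction l with
  | nil => rfl
  | cons i l ih =>
    funext y
    show fderiv ℝ (pdl l (φ ∘ L.symm)) y (Pi.single i 1) = fderiv ℝ (sup2D b l φ) (L.symm y) (b i)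
    rw [ih, L.symm.comp_right_fderiv]
    simp [hL]

theorem sup2D_hkLe {ι : Type*} (b : ι → E) (hb : ∀ i, ‖b i‖ ≤ 1) {μ : Measure E}
    [μ.IsAddHaarMeasure] {φ : E → ℝ} (hφ : ContDiff ℝ ∞ φ) {M : ℝ} (l : List ι) (k : ℕ)
    (h : HkLe μ univ (k + l.length) φ M) : HkLe μ univ k (sup2D b l φ) M := by
  induction l generalizing k with
  | nil => exact h
  | cons i l ih =>
    have h1 : HkLe μ univ (k + 1) (sup2D b l φ) M := by
      apply ih (k + 1)
      have e : k + 1 + l.length = k + (i :: l).length := by simp; ring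
      rw [e]; exact h
    have hc : ContDiffOn ℝ 1 (sup2D b l φ) univ :=
      ((sup2D_contDiff b hφ l).of_le (by exact_mod_cast le_top)).contDiffOn
    exact h1.weakDeriv isOpen_univ (hb i) (hasWeakDeriv_of_contDiffOn isOpen_univ hc (b i))

/-- a basis of unit vectors. -/
theorem sup2_exists_basis (E : Type*) [NormedAddCommGroup E] [NormedSpace ℝ E]
    [FiniteDimensional ℝ E] :
    ∃ b : Module.Basis (Fin (Module.finrank ℝ E)) ℝ E, ∀ i, ‖b i‖ ≤ 1 := by
  set b0 := Module.finBasis ℝ E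
  have hne : ∀ i, ‖b0 i‖⁻¹ ≠ 0 := fun i => inv_ne_zero (norm_ne_zero_iff.2 (b0.ne_zero i))
  refine ⟨b0.unitsSMul (fun i => Units.mk0 _ (hne i)), fun i => ?_⟩
  rw [Module.Basis.unitsSMul_apply, Units.smul_def, Units.val_mk0, norm_smul, norm_inv, norm_norm,
    inv_mul_cancel₀ (norm_ne_zero_iff.2 (b0.ne_zero i))]

theorem sup2_aux {ι : Type*} [Fintype ι] [DecidableEq ι] (b : Module.Basis ι ℝ E)
    (hb : ∀ i, ‖b i‖ ≤ 1) (μ : Measure E) [μ.IsAddHaarMeasure] :
    ∃ C : ℝ, 0 ≤ C ∧ ∀ (φ : E → ℝ) (M : ℝ), 0 ≤ M → ContDiff ℝ ∞ φ → HasCompactSupport φ →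
      HkLe μ univ (Fintype.card ι) φ M → ∀ x, |φ x| ≤ C * M := by
  set m := Fintype.card ι with hm
  set L : E ≃L[ℝ] (ι → ℝ) := b.equivFunL with hL
  have hLb : ∀ i, L.symm (Pi.single i 1) = b i := by
    intro i
    rw [ContinuousLinearEquiv.symm_apply_eq]
    funext j
    simp [hL, Pi.single_apply, Finsupp.single_apply, eq_comm]
  set ν : Measure (ι → ℝ) := μ.map L with hν
  set c : NNReal := Measure.addHaarScalarFactor (volume : Measure (ι → ℝ)) ν with hc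
  refine ⟨Real.sqrt (2 ^ m * c), Real.sqrt_nonneg _, ?_⟩
  intro φ M hM hφ hcs hk x
  set ψ : (ι → ℝ) → ℝ := φ ∘ L.symm with hψ
  have hψc : ContDiff ℝ ∞ ψ := hφ.comp L.symm.contDiff
  have hψs : HasCompactSupport ψ := hcs.comp_homeomorph L.symm.toHomeomorph
  have hbound : ∀ l : List ι, l.Nodup → ∫ y, (pdl l ψ y) ^ 2 ≤ (Real.sqrt c * M) ^ 2 := by
    intro l hl
    have hlen : l.length ≤ m := hl.length_le_card
    have h0 : HkLe μ univ 0 (sup2D b l φ) M := by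
      apply sup2D_hkLe b hb hφ l 0
      exact hk.mono_order (by omega)
    have h1 := ((l2Le_iff_integral hM).1 (hkLe_zero.1 h0)).2
    rw [setIntegral_univ] at h1
    have hcont : Continuous (fun y => (pdl l ψ y) ^ 2) := (pdl_contDiff hψc l).continuous.pow 2
    have hsupp : HasCompactSupport (fun y => (pdl l ψ y) ^ 2) :=
      (pdl_hasCompactSupport hψs l).mono (fun x hx hfx => hx (by simp [hfx]))
    have e1 := Measure.integral_isAddLeftInvariant_eq_smul_of_hasCompactSupport volume ν hcont hsupp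
    have e2 : ∫ y, (pdl l ψ y) ^ 2 ∂ν = ∫ x, (pdl l ψ (L x)) ^ 2 ∂μ :=
      integral_map L.continuous.aemeasurable hcont.aestronglyMeasurable
    have e : ∀ x, (pdl l ψ (L x)) ^ 2 = ‖sup2D b l φ x‖ ^ 2 := by
      intro x
      rw [hψ, sup2_pdl_eq b L hLb φ l]
      simp
    rw [e1, integral_smul_nnreal_measure, e2]
    simp only [e]
    rw [mul_pow, Real.sq_sqrt c.coe_nonneg, NNReal.smul_def, smul_eq_mul]
    exact mul_le_mul_of_nonneg_left h1 c.coe_nonneg
  have hfin := sq_le_of_pdl_bound hψc hψs hbound (L x)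
  have hψx : ψ (L x) = φ x := by simp [hψ]
  rw [hψx] at hfin
  have e2 : (2:ℝ) ^ m * (Real.sqrt c * M) ^ 2 = (Real.sqrt (2 ^ m * c) * M) ^ 2 := by
    rw [mul_pow, mul_pow, Real.sq_sqrt c.coe_nonneg, Real.sq_sqrt (by positivity)]
    ring
  rw [e2] at hfin
  exact abs_le_of_sq_le_sq hfin (by positivity)

theorem sup_le_of_hkLe_test (μ : Measure E) [μ.IsAddHaarMeasure] :
    ∃ C : ℝ, 0 ≤ C ∧ ∀ (φ : E → ℝ) (M : ℝ), 0 ≤ M → ContDiff ℝ ∞ φ → HasCompactSupport φ →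
      HkLe μ univ (Module.finrank ℝ E) φ M → ∀ x, |φ x| ≤ C * M := by
  obtain ⟨b, hb⟩ := sup2_exists_basis E
  have := sup2_aux b hb μ
  rwa [Fintype.card_fin] at this

theorem sup_le_of_hkLe_scalar (μ : Measure E) [μ.IsAddHaarMeasure] :
    ∃ C : ℝ, 0 ≤ C ∧ ∀ (φ : E → ℝ) (M : ℝ), 0 ≤ M → ContDiff ℝ ∞ φ →
      HkLe μ univ (Module.finrank ℝ E) φ M → ∀ x, |φ x| ≤ C * M := by
  obtain ⟨C, hC, hT⟩ := sup_le_of_hkLe_test μ
  obtain ⟨χ, hχ, hχ1, -, -⟩ := exists_cutoff_ball (0 : E) one_pos one_lt_two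
  set m := Module.finrank ℝ E with hm
  obtain ⟨Λ, hΛ, hχk⟩ := hχ.exists_ckLe m
  refine ⟨C * (2 ^ m * Λ), by positivity, ?_⟩
  intro φ M hM hφ hk x₁
  set χ₁ : E → ℝ := fun x => χ (x + (-x₁)) with hχ₁
  have hχ₁c : ContDiff ℝ ∞ χ₁ := hχ.smooth.comp (contDiff_id.add contDiff_const)
  have hχ₁k : CkLe univ m χ₁ Λ := hχk.translate (-x₁)
  have hχ₁s : HasCompactSupport χ₁ :=
    hχ.compact.comp_homeomorph (Homeomorph.addRight (-x₁))
  have h1 : HkLe μ univ m (fun x => χ₁ x • φ x) (2 ^ m * Λ * M) :=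
    hk.smul_smooth isOpen_univ hχ₁c.contDiffOn hχ₁k hΛ hM
  have h2 := hT (fun x => χ₁ x • φ x) (2 ^ m * Λ * M) (by positivity) (hχ₁c.smul hφ)
    hχ₁s.smul_right h1 x₁
  have h3 : χ₁ x₁ = 1 := by
    simp only [hχ₁, add_neg_cancel]
    exact hχ1 0 (by simp)
  rw [h3, one_smul] at h2
  calc |φ x₁| ≤ C * (2 ^ m * Λ * M) := h2
    _ = _ := by ring

/-- **sup estimate for smooth `H^m` functions.** -/
theorem sup_le_of_hkLe (μ : Measure E) [μ.IsAddHaarMeasure]
    (F : Type*) [NormedAddCommGroup F] [NormedSpace ℝ F] [FiniteDimensional ℝ F] :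
    ∃ C : ℝ, 0 ≤ C ∧ ∀ (φ : E → F) (M : ℝ), 0 ≤ M → ContDiff ℝ ∞ φ →
      HkLe μ univ (Module.finrank ℝ E) φ M → ∀ x, ‖φ x‖ ≤ C * M := by
  obtain ⟨C, hC, hT⟩ := sup_le_of_hkLe_scalar μ
  refine ⟨C, hC, ?_⟩
  intro φ M hM hφ hk x
  obtain ⟨ℓ, hℓ, hℓx⟩ := exists_dual_vector'' ℝ (φ x)
  have h1 : HkLe μ univ (Module.finrank ℝ E) (fun y => ℓ (φ y)) M :=
    (hk.clm ℓ).mono (by nlinarith [norm_nonneg ℓ])
  have h2 := hT (fun y => ℓ (φ y)) M hM (ℓ.contDiff.comp hφ) h1 x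
  rw [hℓx] at h2
  simpa using h2

end Claimed.Agent.Lib.Sob
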