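import Claimed.Agent.Lib.Sob.Defs

/-!
# `Lib/Sob/Test`: test functions and cutoffs (leaf SOB-Test)

Elementary closure properties of `IsTest` (scalar) and `IsTestV` (vector valued test functions), integrability
against locally integrable functions, existence of cutoffs.
Mathlib: `HasCompactSupport.mul_left/right`, `tsupport_mul_subset_left`, `tsupport_fderiv_subset`,
`HasCompactSupport.fderiv`, `ContDiff.fderiv_right`, `contDiff_of_contDiffOn_union_of_isOpen` or
`contDiff_iff_contDiffAt` + `notMem_tsupport_iff_eventuallyEq` (for "smooth on `U` times test on `U` is globally smooth"),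
`exists_contDiff_tsupport_subset`, `exists_contMDiff_support_eq...` / `exists_smooth_one_nhds_of_subset_interior`
(`IsCompact`/`IsClosed` versions: `exists_contDiff_one_nhds_of_interior`?  search `ContDiffBump`, for a ball simply use a
`ContDiffBump x₀` with `rIn = (r+R)/2 - ...`), `LocallyIntegrableOn.integrableOn_compact_subset`,
`Continuous.bounded_above_of_compact_support`, `HasCompactSupport.iteratedFDeriv`.
PLAN: in the order of the file.  Do not change statements; you may add lemmas (prefix `test_`).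
-/

set_option autoImplicit false
set_option maxSynthPendingDepth 6
set_option linter.unusedSectionVars false
set_option linter.unusedVariables false
open scoped ContDiff Topology
open MeasureTheory Set Filter Metric

namespace Claimed.Agent.Lib.Sob

variable {E : Type*} [NormedAddCommGroup E] [NormedSpace ℝ E] [MeasurableSpace E]
variable {F : Type*} [NormedAddCommGroup F] [NormedSpace ℝ F]
variable {F' : Type*} [NormedAddCommGroup F'] [NormedSpace ℝ F']

/-- vector valued test functions on `U`. -/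
structure IsTestV (U : Set E) (Ψ : E → F) : Prop where
  smooth : ContDiff ℝ ∞ Ψ
  compact : HasCompactSupport Ψ
  supp : tsupport Ψ ⊆ U

variable {U V : Set E} {φ ψ : E → ℝ} {Ψ : E → F}

/-- support of a bilinear expression. -/
theorem test_support_bilin {G₁ G₂ G₃ : Type*} [NormedAddCommGroup G₁] [NormedSpace ℝ G₁] [NormedAddCommGroup G₂]
    [NormedSpace ℝ G₂] [NormedAddCommGroup G₃] [NormedSpace ℝ G₃] (B : G₁ →L[ℝ] G₂ →L[ℝ] G₃) (a : E → G₁)
    (b : E → G₂) : Function.support (fun x => B (a x) (b x)) ⊆ Function.support a := by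
  intro x hx hax
  apply hx
  show B (a x) (b x) = 0
  rw [show a x = 0 from hax, map_zero, _root_.zero_apply]

/-- a test function paired with a function which is smooth on `U`. -/
theorem test_bilin {G₁ G₂ G₃ : Type*} [NormedAddCommGroup G₁] [NormedSpace ℝ G₁] [NormedAddCommGroup G₂]
    [NormedSpace ℝ G₂] [NormedAddCommGroup G₃] [NormedSpace ℝ G₃] (B : G₁ →L[ℝ] G₂ →L[ℝ] G₃) (hU : IsOpen U)
    {a : E → G₁} {b : E → G₂} (ha : IsTestV U a) (hb : ContDiffOn ℝ ∞ b U) :
    IsTestV U (fun x => B (a x) (b x)) := by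
  refine ⟨?_, ha.compact.mono (test_support_bilin B a b), (closure_mono (test_support_bilin B a b)).trans ha.supp⟩
  rw [contDiff_iff_contDiffAt]
  intro x
  by_cases hx : x ∈ U
  · exact ((B.contDiff.comp ha.smooth).contDiffAt).clm_apply (hb.contDiffAt (hU.mem_nhds hx))
  · have h0 : a =ᶠ[𝓝 x] 0 := notMem_tsupport_iff_eventuallyEq.1 fun h => hx (ha.supp h)
    have h1 : (fun x => B (a x) (b x)) =ᶠ[𝓝 x] fun _ => 0 := by
      filter_upwards [h0] with y hy
      rw [hy, Pi.zero_apply, map_zero, _root_.zero_apply]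
    exact contDiffAt_const.congr_of_eventuallyEq h1

/-- a test function paired with a globally smooth function. -/
theorem test_bilin' {G₁ G₂ G₃ : Type*} [NormedAddCommGroup G₁] [NormedSpace ℝ G₁] [NormedAddCommGroup G₂]
    [NormedSpace ℝ G₂] [NormedAddCommGroup G₃] [NormedSpace ℝ G₃] (B : G₁ →L[ℝ] G₂ →L[ℝ] G₃)
    {a : E → G₁} {b : E → G₂} (ha : IsTestV U a) (hb : ContDiff ℝ ∞ b) :
    IsTestV U (fun x => B (a x) (b x)) :=
  ⟨(B.contDiff.comp ha.smooth).clm_apply hb, ha.compact.mono (test_support_bilin B a b),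
    (closure_mono (test_support_bilin B a b)).trans ha.supp⟩

theorem isTest_iff_isTestV : IsTest U φ ↔ IsTestV U φ :=
  ⟨fun h => ⟨h.1, h.2, h.3⟩, fun h => ⟨h.1, h.2, h.3⟩⟩

theorem IsTest.mono (h : IsTest U φ) (hUV : U ⊆ V) : IsTest V φ :=
  ⟨h.1, h.2, h.3.trans hUV⟩

theorem isTest_zero : IsTest U (fun _ : E => (0 : ℝ)) := by
  refine ⟨contDiff_const, HasCompactSupport.zero, ?_⟩
  have : tsupport (fun _ : E => (0 : ℝ)) = ∅ := by simp [tsupport]
  rw [this]
  exact empty_subset _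

theorem IsTest.add (h₁ : IsTest U φ) (h₂ : IsTest U ψ) : IsTest U (fun x => φ x + ψ x) := by
  have hs : Function.support (fun x => φ x + ψ x) ⊆ Function.support φ ∪ Function.support ψ :=
    Function.support_add φ ψ
  refine ⟨h₁.1.add h₂.1, h₁.2.add h₂.2, ?_⟩
  refine (closure_mono hs).trans ?_
  rw [closure_union]
  exact union_subset h₁.3 h₂.3

theorem IsTest.sub (h₁ : IsTest U φ) (h₂ : IsTest U ψ) : IsTest U (fun x => φ x - ψ x) := by
  have hs : Function.support (fun x => φ x - ψ x) ⊆ Function.support φ ∪ Function.support ψ :=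
    Function.support_sub φ ψ
  have hc : HasCompactSupport (fun x => φ x - ψ x) := by
    refine IsCompact.of_isClosed_subset (h₁.2.isCompact.union h₂.2.isCompact) (isClosed_tsupport _) ?_
    refine (closure_mono hs).trans ?_
    rw [closure_union]
    rfl
  refine ⟨h₁.1.sub h₂.1, hc, ?_⟩
  refine (closure_mono hs).trans ?_
  rw [closure_union]
  exact union_subset h₁.3 h₂.3

theorem IsTest.neg (h : IsTest U φ) : IsTest U (fun x => - φ x) := by
  have hs : Function.support (fun x => - φ x) = Function.support φ := Function.support_neg φ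
  refine ⟨h.1.neg, ?_, ?_⟩
  · unfold HasCompactSupport tsupport
    rw [hs]
    exact h.2
  · unfold tsupport
    rw [hs]
    exact h.3

theorem IsTest.const_mul (h : IsTest U φ) (c : ℝ) : IsTest U (fun x => c * φ x) :=
  ⟨contDiff_const.mul h.1, h.2.mul_left, (tsupport_mul_subset_right (f := fun _ => c) (g := φ)).trans h.3⟩

theorem IsTest.mul (h : IsTest U φ) (hψ : ContDiff ℝ ∞ ψ) : IsTest U (fun x => φ x * ψ x) :=
  ⟨h.1.mul hψ, h.2.mul_right, (tsupport_mul_subset_left (f := φ) (g := ψ)).trans h.3⟩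

/-- the second factor only has to be smooth on `U`. -/
theorem IsTest.mul_of_contDiffOn (hU : IsOpen U) (h : IsTest U φ) (hψ : ContDiffOn ℝ ∞ ψ U) :
    IsTest U (fun x => φ x * ψ x) :=
  isTest_iff_isTestV.2 (test_bilin (ContinuousLinearMap.lsmul ℝ ℝ : ℝ →L[ℝ] ℝ →L[ℝ] ℝ) hU
    (isTest_iff_isTestV.1 h) hψ)

theorem IsTest.smul_of_contDiffOn (hU : IsOpen U) (h : IsTest U φ) (hΨ : ContDiffOn ℝ ∞ Ψ U) :
    IsTestV U (fun x => φ x • Ψ x) :=
  test_bilin (ContinuousLinearMap.lsmul ℝ ℝ : ℝ →L[ℝ] F →L[ℝ] F) hU (isTest_iff_isTestV.1 h) hΨ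

theorem IsTest.fderiv_apply (h : IsTest U φ) (v : E) : IsTest U (fun x => fderiv ℝ φ x v) :=
  ⟨(h.1.fderiv_right (m := ∞) (by simp)).clm_apply contDiff_const, h.2.fderiv_apply (𝕜 := ℝ) v,
    (tsupport_fderiv_apply_subset ℝ v).trans h.3⟩

theorem IsTest.isTestV_fderiv (h : IsTest U φ) : IsTestV U (fderiv ℝ φ) :=
  ⟨h.1.fderiv_right (m := ∞) (by simp), h.2.fderiv (𝕜 := ℝ), (tsupport_fderiv_subset ℝ).trans h.3⟩

theorem IsTest.translate (h : IsTest univ φ) (a : E) : IsTest univ (fun x => φ (x + a)) :=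
  ⟨h.1.comp (contDiff_id.add contDiff_const), h.2.comp_homeomorph (Homeomorph.addRight a), subset_univ _⟩

theorem IsTest.fderiv_translate (h : IsTest univ φ) (a x : E) :
    fderiv ℝ (fun y => φ (y + a)) x = fderiv ℝ φ (x + a) :=
  fderiv_comp_add_right a

theorem IsTestV.mono (h : IsTestV U Ψ) (hUV : U ⊆ V) : IsTestV V Ψ :=
  ⟨h.1, h.2, h.3.trans hUV⟩

theorem IsTestV.clm (h : IsTestV U Ψ) (L : F →L[ℝ] F') : IsTestV U (fun x => L (Ψ x)) :=
  ⟨L.contDiff.comp h.1, h.2.comp_left (map_zero L), (tsupport_comp_subset (map_zero L) Ψ).trans h.3⟩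

theorem IsTestV.isTest_clm (h : IsTestV U Ψ) (ℓ : F →L[ℝ] ℝ) : IsTest U (fun x => ℓ (Ψ x)) :=
  isTest_iff_isTestV.2 (h.clm ℓ)

theorem IsTestV.fderiv_apply (h : IsTestV U Ψ) (v : E) : IsTestV U (fun x => fderiv ℝ Ψ x v) :=
  ⟨(h.1.fderiv_right (m := ∞) (by simp)).clm_apply contDiff_const, h.2.fderiv_apply (𝕜 := ℝ) v,
    (tsupport_fderiv_apply_subset ℝ v).trans h.3⟩

theorem IsTestV.smul (h : IsTestV U Ψ) (hφ : ContDiff ℝ ∞ φ) : IsTestV U (fun x => φ x • Ψ x) :=
  test_bilin' ((ContinuousLinearMap.lsmul ℝ ℝ : ℝ →L[ℝ] F →L[ℝ] F).flip) h hφ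

/-- `B` smooth on `U`, `Ψ` a test function on `U`: `x ↦ B x (Ψ x)` is a test function. -/
theorem IsTestV.clm_apply_of_contDiffOn (hU : IsOpen U) (h : IsTestV U Ψ) {B : E → F →L[ℝ] F'}
    (hB : ContDiffOn ℝ ∞ B U) : IsTestV U (fun x => B x (Ψ x)) :=
  test_bilin (ContinuousLinearMap.apply ℝ F' : F →L[ℝ] (F →L[ℝ] F') →L[ℝ] F') hU h hB

theorem IsTestV.exists_bound (h : IsTestV U Ψ) : ∃ C : ℝ, 0 ≤ C ∧ ∀ x, ‖Ψ x‖ ≤ C := by
  obtain ⟨C, hC⟩ := h.1.continuous.bounded_above_of_compact_support h.2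
  exact ⟨C, (norm_nonneg _).trans (hC 0), hC⟩

theorem IsTestV.exists_ckLe (h : IsTestV U Ψ) (k : ℕ) : ∃ Λ : ℝ, 0 ≤ Λ ∧ CkLe univ k Ψ Λ := by
  have hb : ∀ j : ℕ, ∃ C : ℝ, ∀ x, ‖iteratedFDeriv ℝ j Ψ x‖ ≤ C := fun j =>
    (h.1.continuous_iteratedFDeriv (m := j) (by exact_mod_cast le_top)).bounded_above_of_compact_support
      (h.2.iteratedFDeriv (𝕜 := ℝ) j)
  choose C hC using hb
  refine ⟨∑ j ∈ Finset.range (k + 1), |C j|, Finset.sum_nonneg fun _ _ => abs_nonneg _,
    (h.1.of_le (by exact_mod_cast le_top)).contDiffOn, fun j hj x _ => ?_⟩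
  exact ((hC j x).trans (le_abs_self _)).trans
    (Finset.single_le_sum (f := fun j => |C j|) (fun _ _ => abs_nonneg _) (Finset.mem_range.2 (by omega)))

theorem IsTest.exists_ckLe (h : IsTest U φ) (k : ℕ) : ∃ Λ : ℝ, 0 ≤ Λ ∧ CkLe univ k φ Λ :=
  (isTest_iff_isTestV.1 h).exists_ckLe k

theorem IsTestV.eq_zero_of_notMem (h : IsTestV U Ψ) {x : E} (hx : x ∉ U) : Ψ x = 0 :=
  image_eq_zero_of_notMem_tsupport fun hx' => hx (h.3 hx')

theorem IsTest.eq_zero_of_notMem (h : IsTest U φ) {x : E} (hx : x ∉ U) : φ x = 0 :=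
  image_eq_zero_of_notMem_tsupport fun hx' => hx (h.3 hx')

section Measure

variable [BorelSpace E] [FiniteDimensional ℝ E] {μ : Measure E} [IsFiniteMeasureOnCompacts μ]

theorem IsTestV.memLp (h : IsTestV U Ψ) (p : ENNReal) : MemLp Ψ p μ :=
  h.1.continuous.memLp_of_hasCompactSupport h.2

theorem IsTest.memLp (h : IsTest U φ) (p : ENNReal) : MemLp φ p μ :=
  h.1.continuous.memLp_of_hasCompactSupport h.2

theorem IsTest.memLp_fderiv (h : IsTest U φ) (p : ENNReal) : MemLp (fderiv ℝ φ) p μ :=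
  h.isTestV_fderiv.memLp p

/-- a test function paired with a locally integrable function. -/
theorem test_integrable_bilin {G₁ G₂ G₃ : Type*} [NormedAddCommGroup G₁] [NormedSpace ℝ G₁] [NormedAddCommGroup G₂]
    [NormedSpace ℝ G₂] [NormedAddCommGroup G₃] [NormedSpace ℝ G₃] (B : G₁ →L[ℝ] G₂ →L[ℝ] G₃)
    {a : E → G₁} {u : E → G₂} (ha : IsTestV U a) (hu : LocallyIntegrableOn u U μ) :
    Integrable (fun x => B (a x) (u x)) μ := by
  have := FiniteDimensional.proper_real E
  have hK : IsCompact (tsupport a) := ha.compact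
  have huK : IntegrableOn u (tsupport a) μ := hu.integrableOn_compact_subset ha.supp hK
  obtain ⟨C, hC0, hC⟩ := ha.exists_bound
  rw [← integrableOn_iff_integrable_of_support_subset
    ((test_support_bilin B a u).trans (subset_tsupport a))]
  refine Integrable.mono' (huK.norm.const_mul (‖B‖ * C))
    (B.aestronglyMeasurable_comp₂ ha.smooth.continuous.aestronglyMeasurable huK.1) (ae_of_all _ fun x => ?_)
  exact (B.le_opNorm₂ _ _).trans
    (mul_le_mul_of_nonneg_right (mul_le_mul_of_nonneg_left (hC x) (norm_nonneg _)) (norm_nonneg _))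

theorem IsTest.integrable_smul (hU : IsOpen U) (h : IsTest U φ) {u : E → F}
    (hu : LocallyIntegrableOn u U μ) : Integrable (fun x => φ x • u x) μ :=
  test_integrable_bilin (ContinuousLinearMap.lsmul ℝ ℝ : ℝ →L[ℝ] F →L[ℝ] F) (isTest_iff_isTestV.1 h) hu

theorem IsTestV.integrable_clm_apply (hU : IsOpen U) {T : E → F →L[ℝ] F'} (h : IsTestV U T) {u : E → F}
    (hu : LocallyIntegrableOn u U μ) : Integrable (fun x => T x (u x)) μ :=
  test_integrable_bilin (ContinuousLinearMap.id ℝ (F →L[ℝ] F')) h hu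

theorem IsTestV.integrable_apply_clm (hU : IsOpen U) (h : IsTestV U Ψ) {T : E → F →L[ℝ] F'}
    (hT : LocallyIntegrableOn T U μ) : Integrable (fun x => T x (Ψ x)) μ :=
  test_integrable_bilin (ContinuousLinearMap.apply ℝ F' : F →L[ℝ] (F →L[ℝ] F') →L[ℝ] F') h hT

theorem IsTest.integral_smul_eq_setIntegral (hU : IsOpen U) (h : IsTest U φ) (u : E → F) :
    ∫ x, φ x • u x ∂μ = ∫ x in U, φ x • u x ∂μ :=
  (setIntegral_eq_integral_of_forall_compl_eq_zero fun x hx => by
    rw [h.eq_zero_of_notMem hx, zero_smul]).symm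

/-- only the values on the support matter. -/
theorem IsTest.integral_smul_eq_setIntegral_tsupport (h : IsTest U φ) (u : E → F) :
    ∫ x, φ x • u x ∂μ = ∫ x in tsupport φ, φ x • u x ∂μ :=
  (setIntegral_eq_integral_of_forall_compl_eq_zero fun x hx => by
    rw [image_eq_zero_of_notMem_tsupport hx, zero_smul]).symm

end Measure

section Cutoff

variable [FiniteDimensional ℝ E]

theorem exists_cutoff_ball (x₀ : E) {r R : ℝ} (hr : 0 < r) (hrR : r < R) :
    ∃ χ : E → ℝ, IsTest (ball x₀ R) χ ∧ (∀ x ∈ closedBall x₀ r, χ x = 1) ∧ (∀ x, 0 ≤ χ x ∧ χ x ≤ 1) ∧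
      ∀ x ∈ ball x₀ r, fderiv ℝ χ x = 0 := by
  set f : ContDiffBump x₀ := ⟨r, (r + R) / 2, hr, by linarith⟩ with hf
  refine ⟨f, ⟨f.contDiff, f.hasCompactSupport, ?_⟩, fun x hx => f.one_of_mem_closedBall hx,
    fun x => ⟨f.nonneg, f.le_one⟩, fun x hx => ?_⟩
  · rw [f.tsupport_eq]
    exact closedBall_subset_ball (by show (r + R) / 2 < R; linarith)
  · have h1 : (f : E → ℝ) =ᶠ[𝓝 x] fun _ => 1 := by
      filter_upwards [isOpen_ball.mem_nhds hx] with y hy
      exact f.one_of_mem_closedBall (ball_subset_closedBall hy)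
    rw [h1.fderiv_eq]
    exact fderiv_const_apply 1

theorem exists_cutoff_compact {K : Set E} (hK : IsCompact K) (hU : IsOpen U) (hKU : K ⊆ U) :
    ∃ χ : E → ℝ, IsTest U χ ∧ (∃ W : Set E, IsOpen W ∧ K ⊆ W ∧ ∀ x ∈ W, χ x = 1) ∧
      ∀ x, 0 ≤ χ x ∧ χ x ≤ 1 := by
  have := FiniteDimensional.proper_real E
  obtain ⟨K', hK', hKK', hK'U⟩ := exists_compact_between hK hU hKU
  obtain ⟨f, h1, h0, hf⟩ := exists_contMDiffMap_one_nhds_of_subset_interior (n := ⊤) (modelWithCornersSelf ℝ E) hK.isClosed hKK'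
  have hsupp : Function.support (f : E → ℝ) ⊆ K' := fun x hx => by
    by_contra hxK
    exact hx (h0 x hxK)
  have hts : tsupport (f : E → ℝ) ⊆ K' := closure_minimal hsupp hK'.isClosed
  refine ⟨f, ⟨f.contMDiff.contDiff, hK'.of_isClosed_subset (isClosed_tsupport _) hts, hts.trans hK'U⟩, ?_,
    fun x => hf x⟩
  obtain ⟨W, hW, hKW, hW1⟩ := mem_nhdsSet_iff_exists.1 h1
  exact ⟨W, hW, hKW, fun x hx => hW1 hx⟩

end Cutoff

end Claimed.Agent.Lib.Sob
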