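import Claimed.Agent.Lib.Sob.DQ
import Claimed.Agent.Lib.Sob.Dens

/-!
# `Lib/Sob/WS0`: the `H²` estimate on the whole space by difference quotients (leaf SOB-WS0)

Setting: `A` globally defined, `CkLe univ 1 A Lam` (bounded and Lipschitz), `Elliptic univ A lam`; `v` compactly supported
with weak derivative `Gv ∈ L²`; `∫ Gv (A dφ) = ∫ φ f` for all tests `φ`, `f ∈ L²`.  Then `Gv ∈ H¹` with a bound.
All statements of the imported files are black boxes.

PLAN (`G⁺ x = Gv (x + h • e)`)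
1. `ws0_translated_eq`: test the equation with `x ↦ φ (x - h • e)` (`IsTest.translate`, `IsTest.fderiv_translate`), substitute
   `x ↦ x + h • e` (`integral_add_right_eq_self`), subtract the equation for `φ`, multiply by `h⁻¹`, use
   `G⁺ (A⁺ ξ) - G (A ξ) = (G⁺ - G) (A ξ) + G⁺ ((A⁺ - A) ξ)` and `integral_smul_dq`.
   Integrability: `Gv ∈ L²`, `A` bounded continuous, `dφ ∈ L²` (`L2Le.integrableOn_clm_apply` etc.).
2. `ws0_bound`: Cauchy-Schwarz: `‖dq A‖ ≤ Lam` (`norm_dq_le_of_ckLe`), `‖G⁺‖₂ ≤ M` (`L2Le.translate`),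
   `‖dq (-h) e φ‖₂ ≤ ‖dφ e‖₂ ≤ ‖dφ‖₂` (`l2n_dq_test_le`, `l2n_fderiv_apply_le`).
3. `ws0_dq_bound`: `w = dq h e v` is compactly supported (`exists_compact_dq`) with weak derivative `dq h e Gv`
   (`HasWeakFDeriv.hasWeakFDeriv_dq`); `bound_test_H1` with `T x = (dq h e Gv x).comp (A x)` gives
   `∫ (dq Gv) (A (dq Gv)) ≤ (Lam + 1) M ‖dq Gv‖₂`; ellipticity gives `lam ‖dq Gv‖₂² ≤` the left side (`l2n_sq`);
   divide.
4. `ws0_scalar`: `exists_const_weakDeriv_of_dq_bound` for the `E →L[ℝ] ℝ`-valued function `Gv`.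
5. `ws0`: for `ℓ : F →L[ℝ] ℝ` the function `ℓ ∘ v` solves the scalar problem with `ℓ ∘ f` (`HasWeakFDeriv.clm`,
   `ContinuousLinearMap.integral_comp_comm`); step 3 for the coordinates `ℓ = coord i` of a basis of `F` gives the bound for
   `dq h e Gv = ∑ i, (coord i ∘ dq h e Gv) ⊗ e i`, then step 4 for `E →L[ℝ] F`.
~600 lines.  Statements verbatim.
-/

set_option autoImplicit false
set_option maxSynthPendingDepth 6
set_option linter.unusedSectionVars false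
open scoped ContDiff Topology
open MeasureTheory Set Filter Metric

namespace Claimed.Agent.Lib.Sob

variable {E : Type*} [NormedAddCommGroup E] [NormedSpace ℝ E] [FiniteDimensional ℝ E]
  [MeasurableSpace E] [BorelSpace E]
variable {F : Type*} [NormedAddCommGroup F] [NormedSpace ℝ F] [FiniteDimensional ℝ F]
variable {μ : Measure E} [μ.IsAddHaarMeasure]

theorem ws0_l2Le_apply {B : E → (E →L[ℝ] ℝ) →L[ℝ] E} {Λ : ℝ} (hBc : Continuous B)
    (hBb : ∀ x, ‖B x‖ ≤ Λ) {φ : E → ℝ} (hφ : IsTest univ φ) :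
    L2Le μ univ (fun x => B x (fderiv ℝ φ x)) (Λ * l2n μ univ (fderiv ℝ φ)) := by
  have hΛ : 0 ≤ Λ := (norm_nonneg _).trans (hBb 0)
  have h1 : L2Le μ univ (fderiv ℝ φ) _ := l2Le_l2n ((hφ.memLp_fderiv 2).restrict univ)
  exact h1.clm_apply hΛ hBc.aestronglyMeasurable (ae_of_all _ hBb)

theorem ws0_integrable {G' : E → E →L[ℝ] F} {B : E → (E →L[ℝ] ℝ) →L[ℝ] E} {Λ : ℝ}
    (hG : MemLp G' 2 μ) (hBc : Continuous B) (hBb : ∀ x, ‖B x‖ ≤ Λ) {φ : E → ℝ}
    (hφ : IsTest univ φ) : Integrable (fun x => G' x (B x (fderiv ℝ φ x))) μ := by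
  have h3 : L2Le μ univ G' _ := l2Le_l2n (hG.restrict univ)
  exact integrableOn_univ.1 (h3.integrableOn_clm_apply (ws0_l2Le_apply hBc hBb hφ))

theorem ws0_translated_eq {A : E → (E →L[ℝ] ℝ) →L[ℝ] E} {Gv : E → E →L[ℝ] F} {f : E → F} {Lam : ℝ}
    (hA : CkLe univ 1 A Lam) (hG : MemLp Gv 2 μ) (hf : MemLp f 2 μ)
    (hsol : IsWeakSol μ univ A Gv f 0) (h : ℝ) (e : E) {φ : E → ℝ} (hφ : IsTest univ φ) :
    ∫ x, (dq h e Gv x) (A x (fderiv ℝ φ x)) ∂μ =
      - ∫ x, Gv (x + h • e) ((dq h e A x) (fderiv ℝ φ x)) ∂μ - ∫ x, dq (-h) e φ x • f x ∂μ := by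
  have hAc : Continuous A := continuousOn_univ.1 hA.contDiffOn.continuousOn
  have hAb : ∀ x, ‖A x‖ ≤ Lam := fun x => hA.bound (mem_univ x)
  have hAc' : Continuous (fun x => A (x + h • e)) := hAc.comp (by fun_prop)
  have hG' : MemLp (fun x => Gv (x + h • e)) 2 μ := memLp_translate hG _
  have i1 : Integrable (fun x => Gv (x + h • e) (A (x + h • e) (fderiv ℝ φ x))) μ :=
    ws0_integrable hG' hAc' (fun x => hAb _) hφ
  have i2 : Integrable (fun x => Gv (x + h • e) (A x (fderiv ℝ φ x))) μ :=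
    ws0_integrable hG' hAc hAb hφ
  have i3 : Integrable (fun x => Gv x (A x (fderiv ℝ φ x))) μ := ws0_integrable hG hAc hAb hφ
  have hφ2 : MemLp φ 2 μ := hφ.memLp 2
  have j1 := dq_integrable_smul (memLp_translate hφ2 ((-h) • e)) hf
  have j2 := dq_integrable_smul hφ2 hf
  -- the two equations
  have eq0 : ∫ x, Gv x (A x (fderiv ℝ φ x)) ∂μ = ∫ x, φ x • f x ∂μ := by
    have := hsol φ hφ
    simpa using this
  have eq1 : ∫ x, Gv (x + h • e) (A (x + h • e) (fderiv ℝ φ x)) ∂μ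
      = ∫ x, φ (x + (-h) • e) • f x ∂μ := by
    have := hsol _ (hφ.translate ((-h) • e))
    simp only [Pi.zero_apply, zero_apply, integral_zero, add_zero] at this
    rw [← this, ← integral_add_right_eq_self
      (fun x => Gv x (A x (fderiv ℝ (fun y => φ (y + (-h) • e)) x))) (h • e)]
    refine integral_congr_ae (ae_of_all _ fun x => ?_)
    simp only
    rw [hφ.fderiv_translate]
    congr 3
    rw [neg_smul]; abel
  have e1 : ∫ x, (dq h e Gv x) (A x (fderiv ℝ φ x)) ∂μ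
      = h⁻¹ • ((∫ x, Gv (x + h • e) (A x (fderiv ℝ φ x)) ∂μ)
        - ∫ x, Gv x (A x (fderiv ℝ φ x)) ∂μ) := by
    rw [← integral_sub i2 i3, ← integral_smul]
    refine integral_congr_ae (ae_of_all _ fun x => ?_)
    simp only [dq, FunLike.coe_smul, Pi.smul_apply, sub_apply]
  have e2 : ∫ x, Gv (x + h • e) ((dq h e A x) (fderiv ℝ φ x)) ∂μ
      = h⁻¹ • ((∫ x, Gv (x + h • e) (A (x + h • e) (fderiv ℝ φ x)) ∂μ)
        - ∫ x, Gv (x + h • e) (A x (fderiv ℝ φ x)) ∂μ) := by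
    rw [← integral_sub i1 i2, ← integral_smul]
    refine integral_congr_ae (ae_of_all _ fun x => ?_)
    simp only [dq, FunLike.coe_smul, Pi.smul_apply, sub_apply, map_smul, map_sub]
  have e3 : ∫ x, dq (-h) e φ x • f x ∂μ
      = (-h)⁻¹ • ((∫ x, φ (x + (-h) • e) • f x ∂μ) - ∫ x, φ x • f x ∂μ) := by
    rw [← integral_sub j1 j2, ← integral_smul]
    refine integral_congr_ae (ae_of_all _ fun x => ?_)
    simp only [dq, smul_eq_mul]
    rw [mul_smul, sub_smul]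
  rw [e1, e2, e3, eq0, eq1, inv_neg]
  generalize (∫ x, Gv (x + h • e) (A x (fderiv ℝ φ x)) ∂μ) = a
  generalize (∫ x, φ x • f x ∂μ) = b
  generalize (∫ x, φ (x + (-h) • e) • f x ∂μ) = c
  module

theorem ws0_bound {A : E → (E →L[ℝ] ℝ) →L[ℝ] E} {Gv : E → E →L[ℝ] ℝ} {f : E → ℝ} {Lam M : ℝ}
    (hM : 0 ≤ M) (hA : CkLe univ 1 A Lam) (hG : L2Le μ univ Gv M) (hf : L2Le μ univ f M)
    (hsol : IsWeakSol μ univ A Gv f 0) {h : ℝ} (hh : h ≠ 0) {e : E} (he : ‖e‖ ≤ 1) {φ : E → ℝ}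
    (hφ : IsTest univ φ) :
    |∫ x, (dq h e Gv x) (A x (fderiv ℝ φ x)) ∂μ| ≤ (Lam + 1) * M * l2n μ univ (fderiv ℝ φ) := by
  have hLam : 0 ≤ Lam := (norm_nonneg _).trans (hA.bound (mem_univ (0 : E)))
  have hG2 : MemLp Gv 2 μ := by have := hG.memLp; rwa [Measure.restrict_univ] at this
  have hf2 : MemLp f 2 μ := by have := hf.memLp; rwa [Measure.restrict_univ] at this
  have hAc : Continuous A := continuousOn_univ.1 hA.contDiffOn.continuousOn
  rw [ws0_translated_eq hA hG2 hf2 hsol h e hφ]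
  set N := l2n μ univ (fderiv ℝ φ) with hN
  have hN0 : 0 ≤ N := l2n_nonneg
  have hdqc : Continuous (dq h e A) := by
    unfold dq
    fun_prop
  have a1 : ‖∫ x, Gv (x + h • e) ((dq h e A x) (fderiv ℝ φ x)) ∂μ‖ ≤ M * (Lam * N) := by
    have h1 := (hG.translate (h • e)).norm_setIntegral_clm_apply_le
      (ws0_l2Le_apply (μ := μ) hdqc (fun x => norm_dq_le_of_ckLe hA hh he hLam x) hφ) hM
      (by positivity)
    rwa [setIntegral_univ] at h1
  have a2 : ‖∫ x, dq (-h) e φ x • f x ∂μ‖ ≤ N * M := by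
    have hm : MemLp (dq (-h) e φ) 2 (μ.restrict univ) := (dq_memLp (hφ.memLp 2) _ _).restrict _
    have h0 : L2Le μ univ (dq (-h) e φ) N :=
      (l2Le_l2n hm).mono ((l2n_dq_test_le hφ (neg_ne_zero.2 hh) e).trans (l2n_fderiv_apply_le hφ he))
    have h1 := h0.norm_setIntegral_smul_le hf hN0 hM
    rwa [setIntegral_univ] at h1
  rw [Real.norm_eq_abs] at a1 a2
  calc |(-∫ x, Gv (x + h • e) ((dq h e A x) (fderiv ℝ φ x)) ∂μ) - ∫ x, dq (-h) e φ x • f x ∂μ|
      ≤ |∫ x, Gv (x + h • e) ((dq h e A x) (fderiv ℝ φ x)) ∂μ| + |∫ x, dq (-h) e φ x • f x ∂μ| := by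
        have := abs_sub (-∫ x, Gv (x + h • e) ((dq h e A x) (fderiv ℝ φ x)) ∂μ)
          (∫ x, dq (-h) e φ x • f x ∂μ)
        rwa [abs_neg] at this
    _ ≤ M * (Lam * N) + N * M := add_le_add a1 a2
    _ = (Lam + 1) * M * N := by ring

theorem ws0_dq_bound {A : E → (E →L[ℝ] ℝ) →L[ℝ] E} {v : E → ℝ} {Gv : E → E →L[ℝ] ℝ} {f : E → ℝ}
    {lam Lam M : ℝ} (hlam : 0 < lam) (hM : 0 ≤ M) (hA : CkLe univ 1 A Lam) (hell : Elliptic univ A lam)
    {K : Set E} (hK : IsCompact K) (hv0 : ∀ x ∉ K, v x = 0) (hv : HasWeakFDeriv μ univ v Gv)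
    (hv2 : MemLp v 2 μ) (hG : L2Le μ univ Gv M) (hf : L2Le μ univ f M)
    (hsol : IsWeakSol μ univ A Gv f 0) {h : ℝ} (hh : h ≠ 0) {e : E} (he : ‖e‖ ≤ 1) :
    L2Le μ univ (dq h e Gv) ((Lam + 1) / lam * M) := by
  have hLam : 0 ≤ Lam := (norm_nonneg _).trans (hA.bound (mem_univ (0 : E)))
  have hG2 : MemLp Gv 2 μ := by have := hG.memLp; rwa [Measure.restrict_univ] at this
  have hAc : Continuous A := continuousOn_univ.1 hA.contDiffOn.continuousOn
  have hAb : ∀ x, ‖A x‖ ≤ Lam := fun x => hA.bound (mem_univ x)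
  obtain ⟨K', hK'c, hK'0⟩ := exists_compact_dq (F := ℝ) hK h e
  set Gw := dq h e Gv with hGw
  have hGw2 : MemLp Gw 2 μ := dq_memLp hG2 h e
  have hGwL : L2Le μ univ Gw (l2n μ univ Gw) := l2Le_l2n (hGw2.restrict univ)
  set N := l2n μ univ Gw with hN
  have hN0 : 0 ≤ N := l2n_nonneg
  -- the operator `Gw ∘ A`
  have hTL : L2Le μ univ (fun x => (Gw x).comp (A x)) (Lam * N) := by
    have hB : Continuous (fun x => (ContinuousLinearMap.compL ℝ (E →L[ℝ] ℝ) E ℝ).flip (A x)) :=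
      ((ContinuousLinearMap.compL ℝ (E →L[ℝ] ℝ) E ℝ).flip).continuous.comp hAc
    refine hGwL.clm_apply (B := fun x => (ContinuousLinearMap.compL ℝ (E →L[ℝ] ℝ) E ℝ).flip (A x))
      hLam hB.aestronglyMeasurable (ae_of_all _ fun x => ?_)
    refine ContinuousLinearMap.opNorm_le_bound _ hLam fun S => ?_
    simp only [ContinuousLinearMap.flip_apply, ContinuousLinearMap.compL_apply]
    calc ‖S.comp (A x)‖ ≤ ‖S‖ * ‖A x‖ := S.opNorm_comp_le _
      _ ≤ ‖S‖ * Lam := by gcongr; exact hAb x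
      _ = Lam * ‖S‖ := mul_comm _ _
  have hT2 : MemLp (fun x => (Gw x).comp (A x)) 2 μ := by
    have := hTL.memLp; rwa [Measure.restrict_univ] at this
  have hb := bound_test_H1 hT2 (K₀ := (Lam + 1) * M)
    (fun φ hφ => ws0_bound hM hA hG hf hsol hh he hφ) hK'c (hK'0 v hv0)
    (hv.hasWeakFDeriv_dq h e) (dq_memLp hv2 h e) hGw2
  have hint : Integrable (fun x => ((Gw x).comp (A x)) (Gw x)) μ :=
    integrableOn_univ.1 (hTL.integrableOn_clm_apply hGwL)
  have hsq : Integrable (fun x => ‖Gw x‖ ^ 2) μ :=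
    integrableOn_univ.1 (MemLp_two_integrable_sq (hGw2.restrict univ))
  have hlow : lam * N ^ 2 ≤ ∫ x, ((Gw x).comp (A x)) (Gw x) ∂μ := by
    rw [hN, l2n_sq (hGw2.restrict univ), setIntegral_univ, ← integral_const_mul]
    exact integral_mono (hsq.const_mul _) hint fun x => hell x (mem_univ x) (Gw x)
  have hup : lam * N ^ 2 ≤ (Lam + 1) * M * N := hlow.trans ((le_abs_self _).trans hb)
  refine hGwL.mono ?_
  rcases hN0.eq_or_lt with h0 | hpos
  · rw [← h0]; positivity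
  · rw [div_mul_eq_mul_div, le_div_iff₀ hlam]
    have : (lam * N) * N ≤ ((Lam + 1) * M) * N := by nlinarith
    have := le_of_mul_le_mul_right this hpos
    linarith

theorem ws0_scalar (μ : Measure E) [μ.IsAddHaarMeasure] {lam Lam : ℝ} (hlam : 0 < lam) :
    ∃ C : ℝ, 0 ≤ C ∧ ∀ (A : E → (E →L[ℝ] ℝ) →L[ℝ] E) (v : E → ℝ) (Gv : E → E →L[ℝ] ℝ) (f : E → ℝ)
      (M : ℝ) (K : Set E), 0 ≤ M → CkLe univ 1 A Lam → Elliptic univ A lam → IsCompact K →
      (∀ x ∉ K, v x = 0) → HasWeakFDeriv μ univ v Gv → MemLp v 2 μ → L2Le μ univ Gv M → L2Le μ univ f M →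
      IsWeakSol μ univ A Gv f 0 → HkLe μ univ 1 Gv (C * M) := by
  obtain ⟨c, hc, H⟩ := exists_const_weakDeriv_of_dq_bound μ (E →L[ℝ] ℝ)
  refine ⟨1 + c * ((|Lam| + 1) / lam), by positivity, ?_⟩
  intro A v Gv f M K hM hA hell hK hv0 hv hv2 hG hf hsol
  have hLam : 0 ≤ Lam := (norm_nonneg _).trans (hA.bound (mem_univ (0 : E)))
  rw [abs_of_nonneg hLam]
  have hG2 : MemLp Gv 2 μ := by have := hG.memLp; rwa [Measure.restrict_univ] at this
  have hq : 0 ≤ c * ((Lam + 1) / lam) * M := by positivity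
  refine ⟨hG.mono (by nlinarith), fun w hw => ?_⟩
  obtain ⟨g, hg1, hg2⟩ := H Gv w ((Lam + 1) / lam * M) hG2 (by positivity) fun h h0 _ =>
    ws0_dq_bound hlam hM hA hell hK hv0 hv hv2 hG hf hsol h0.ne' hw
  exact ⟨g, hg1, hg2.mono (by nlinarith)⟩

/-- **`H²` estimate on the whole space.** -/
theorem ws0 (μ : Measure E) [μ.IsAddHaarMeasure]
    (F : Type*) [NormedAddCommGroup F] [NormedSpace ℝ F] [FiniteDimensional ℝ F]
    {lam Lam : ℝ} (hlam : 0 < lam) :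
    ∃ C : ℝ, 0 ≤ C ∧ ∀ (A : E → (E →L[ℝ] ℝ) →L[ℝ] E) (v : E → F) (Gv : E → E →L[ℝ] F) (f : E → F)
      (M : ℝ) (K : Set E), 0 ≤ M → CkLe univ 1 A Lam → Elliptic univ A lam → IsCompact K →
      (∀ x ∉ K, v x = 0) → HasWeakFDeriv μ univ v Gv → MemLp v 2 μ → L2Le μ univ Gv M → L2Le μ univ f M →
      IsWeakSol μ univ A Gv f 0 → HkLe μ univ 1 Gv (C * M) := by
  classical
  obtain ⟨C0, hC0, H⟩ := ws0_scalar μ (lam := lam) (Lam := Lam) hlam
  set b := Module.finBasis ℝ F with hb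
  let ci : Fin (Module.finrank ℝ F) → F →L[ℝ] ℝ := fun i => LinearMap.toContinuousLinearMap (b.coord i)
  let Ci : Fin (Module.finrank ℝ F) → (E →L[ℝ] F) →L[ℝ] (E →L[ℝ] ℝ) := fun i =>
    ContinuousLinearMap.compL ℝ E F ℝ (ci i)
  let Ri : Fin (Module.finrank ℝ F) → (E →L[ℝ] ℝ) →L[ℝ] (E →L[ℝ] F) := fun i =>
    (ContinuousLinearMap.smulRightL ℝ E F).flip (b i)
  let mi : Fin (Module.finrank ℝ F) → ℝ := fun i => max ‖Ci i‖ ‖ci i‖
  have hmi : ∀ i, 0 ≤ mi i := fun i => le_max_of_le_left (norm_nonneg _)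
  refine ⟨∑ i, ‖Ri i‖ * (C0 * mi i), Finset.sum_nonneg fun i _ => by have := hmi i; positivity, ?_⟩
  intro A v Gv f M K hM hA hell hK hv0 hv hv2 hG hf hsol
  have hG2 : MemLp Gv 2 μ := by have := hG.memLp; rwa [Measure.restrict_univ] at this
  have hf2 : MemLp f 2 μ := by have := hf.memLp; rwa [Measure.restrict_univ] at this
  have hAc : Continuous A := continuousOn_univ.1 hA.contDiffOn.continuousOn
  have hAb : ∀ x, ‖A x‖ ≤ Lam := fun x => hA.bound (mem_univ x)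
  have hcomp : ∀ i, HkLe μ univ 1 (fun x => Ci i (Gv x)) (C0 * (mi i * M)) := by
    intro i
    refine H A (fun x => ci i (v x)) (fun x => Ci i (Gv x)) (fun x => ci i (f x)) (mi i * M) K
      (mul_nonneg (hmi i) hM) hA hell hK (fun x hx => by simp [hv0 x hx]) (hv.clm (ci i))
      ((ci i).comp_memLp' hv2)
      ((hG.clm (Ci i)).mono (mul_le_mul_of_nonneg_right (le_max_left _ _) hM))
      ((hf.clm (ci i)).mono (mul_le_mul_of_nonneg_right (le_max_right _ _) hM)) ?_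
    intro φ hφ
    have h0 := hsol φ hφ
    simp only [Pi.zero_apply, zero_apply, integral_zero, add_zero] at h0 ⊢
    have e1 : ∫ x, (Ci i (Gv x)) (A x (fderiv ℝ φ x)) ∂μ
        = ci i (∫ x, Gv x (A x (fderiv ℝ φ x)) ∂μ) := by
      rw [← ContinuousLinearMap.integral_comp_comm _ (ws0_integrable hG2 hAc hAb hφ)]
      rfl
    have e2 : ∫ x, φ x • ci i (f x) ∂μ = ci i (∫ x, φ x • f x ∂μ) := by
      rw [← ContinuousLinearMap.integral_comp_comm _ (dq_integrable_smul (hφ.memLp 2) hf2)]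
      refine integral_congr_ae (ae_of_all _ fun x => ?_)
      simp only [map_smul]
    rw [e1, e2, h0]
  have hsum := HkLe.sum isOpen_univ Finset.univ (fun i _ => (hcomp i).clm (Ri i))
    (fun i _ => by have := hmi i; positivity)
  have e : (fun x => ∑ i, Ri i (Ci i (Gv x))) = Gv := by
    funext x
    ext y
    simp only [sum_apply]
    simp [Ri, Ci, ci]
  rw [e] at hsum
  have e2 : ∑ i, ‖Ri i‖ * (C0 * (mi i * M)) = (∑ i, ‖Ri i‖ * (C0 * mi i)) * M := by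
    rw [Finset.sum_mul]
    exact Finset.sum_congr rfl fun i _ => by ring
  rw [e2] at hsum
  exact hsum

end Claimed.Agent.Lib.Sob
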