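import Claimed.Agent.Lib.Sob.L2
import Claimed.Agent.Lib.Sob.Test

/-!
# `Lib/Sob/Weak`: calculus of weak derivatives (leaf SOB-Weak)

`HasWeakDeriv μ U v u g`: `u, g` locally integrable on `U` and `∫ (dφ v) • u = - ∫ φ • g` for all tests `φ` on `U`.
You may use every statement of `L2.lean`, `Test.lean` as a black box.

HINTS
* linearity: `integral_add`, `integral_smul`, integrability from `IsTest.integrable_smul` (apply it to the test
  function `IsTest.fderiv_apply`).
* `unique`: `IsOpen.ae_eq_zero_of_integral_contDiff_smul_eq_zero` (Mathlib.Analysis.Distribution.AEEqOfIntegralContDiff).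
* `hasWeakDeriv_of_contDiffOn`: `φ • u` is globally `C¹` with compact support (`IsTest.smul_of_contDiffOn` is stated for
  smooth `u`; redo the two lines for `C¹`), and `∫ fderiv (φ • u) x v = 0`
  (`integral_fderiv_eq_zero`-type lemma: see `Mathlib/Analysis/Calculus/LineDeriv/IntegrationByParts.lean`,
  `integral_bilinear_hasLineDerivAt_right_eq_neg_left_of_integrable`, or apply continuous functionals + the scalar
  `integral_mul_fderiv_eq_neg_fderiv_mul_of_integrable`).
* `test_clm`: expand `T = ∑ i, (coord i ∘ T) • L i` in a basis `L i` of the finite dimensional space `F →L[ℝ] F'`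
  (`Module.finBasis`), each coefficient is a scalar test function (`IsTestV.isTest_clm`), pull `L i` out of the integral
  (`ContinuousLinearMap.integral_comp_comm`).
* `test_apply`: `test_clm` for the function `T` and the test operator `x ↦ ContinuousLinearMap.apply ℝ F' (Ψ x)`.
* `clm_apply`, `clm_apply_univ`: `test_clm` with `φ • B`.
* `translate`: `integral_add_right_eq_self` and `IsTest.translate`.
* `comm`: see the computation in the docstring; `second_derivative_symmetric` / `ContDiffAt.isSymmSndFDerivAt`.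
Do not change statements; you may add lemmas (prefix `weak_`).  ~600 lines.
-/

set_option autoImplicit false
set_option maxSynthPendingDepth 6
open scoped ContDiff Topology
open MeasureTheory Set Filter Metric

namespace Claimed.Agent.Lib.Sob

variable {E : Type*} [NormedAddCommGroup E] [NormedSpace ℝ E] [FiniteDimensional ℝ E]
  [MeasurableSpace E] [BorelSpace E]
variable {F : Type*} [NormedAddCommGroup F] [NormedSpace ℝ F] [FiniteDimensional ℝ F]
variable {F' : Type*} [NormedAddCommGroup F'] [NormedSpace ℝ F'] [FiniteDimensional ℝ F']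
variable {μ : Measure E} [μ.IsAddHaarMeasure]
variable {U V : Set E} {v w : E} {u u' g g' g₁ g₂ : E → F}

theorem HasWeakDeriv.locInt_left (h : HasWeakDeriv μ U v u g) : LocallyIntegrableOn u U μ := h.1

theorem HasWeakDeriv.locInt_right (h : HasWeakDeriv μ U v u g) : LocallyIntegrableOn g U μ := h.2.1

theorem HasWeakDeriv.integral_eq (h : HasWeakDeriv μ U v u g) {φ : E → ℝ} (hφ : IsTest U φ) :
    ∫ x, (fderiv ℝ φ x v) • u x ∂μ = - ∫ x, φ x • g x ∂μ := h.2.2 φ hφ

/-! ### linearity -/

/-- integrability of a test function times a locally integrable function (`U` arbitrary). -/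
theorem weak_integrable_smul {φ : E → ℝ} (h : IsTest U φ) (hu : LocallyIntegrableOn u U μ) :
    Integrable (fun x => φ x • u x) μ := by
  have hK : IntegrableOn u (tsupport φ) μ := hu.integrableOn_compact_subset h.supp h.compact
  have h1 : IntegrableOn (fun x => φ x • u x) (tsupport φ) μ :=
    hK.continuousOn_smul h.smooth.continuous.continuousOn h.compact
  refine (integrableOn_iff_integrable_of_support_subset fun x hx => ?_).1 h1
  by_contra hx'
  exact hx (by simp only [image_eq_zero_of_notMem_tsupport hx', zero_smul])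

theorem weak_integrable_fderiv_smul {φ : E → ℝ} (h : IsTest U φ) (hu : LocallyIntegrableOn u U μ) (v : E) :
    Integrable (fun x => (fderiv ℝ φ x v) • u x) μ :=
  weak_integrable_smul (h.fderiv_apply v) hu

theorem hasWeakDeriv_zero : HasWeakDeriv μ U v (fun _ => (0 : F)) (fun _ => (0 : F)) := by
  refine ⟨locallyIntegrableOn_zero, locallyIntegrableOn_zero, fun φ _ => ?_⟩
  simp

theorem HasWeakDeriv.add (hU : IsOpen U) (h₁ : HasWeakDeriv μ U v u g) (h₂ : HasWeakDeriv μ U v u' g') :
    HasWeakDeriv μ U v (fun x => u x + u' x) (fun x => g x + g' x) := by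
  refine ⟨h₁.1.add h₂.1, h₁.2.1.add h₂.2.1, fun φ hφ => ?_⟩
  simp only [smul_add]
  rw [integral_add (weak_integrable_fderiv_smul hφ h₁.1 v) (weak_integrable_fderiv_smul hφ h₂.1 v),
    integral_add (weak_integrable_smul hφ h₁.2.1) (weak_integrable_smul hφ h₂.2.1), h₁.2.2 φ hφ, h₂.2.2 φ hφ]
  abel

theorem HasWeakDeriv.sub (hU : IsOpen U) (h₁ : HasWeakDeriv μ U v u g) (h₂ : HasWeakDeriv μ U v u' g') :
    HasWeakDeriv μ U v (fun x => u x - u' x) (fun x => g x - g' x) := by
  refine ⟨h₁.1.sub h₂.1, h₁.2.1.sub h₂.2.1, fun φ hφ => ?_⟩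
  simp only [smul_sub]
  rw [integral_sub (weak_integrable_fderiv_smul hφ h₁.1 v) (weak_integrable_fderiv_smul hφ h₂.1 v),
    integral_sub (weak_integrable_smul hφ h₁.2.1) (weak_integrable_smul hφ h₂.2.1), h₁.2.2 φ hφ, h₂.2.2 φ hφ]
  abel

theorem HasWeakDeriv.neg (h : HasWeakDeriv μ U v u g) :
    HasWeakDeriv μ U v (fun x => - u x) (fun x => - g x) := by
  refine ⟨h.1.neg, h.2.1.neg, fun φ hφ => ?_⟩
  simp only [smul_neg]
  rw [integral_neg, integral_neg, h.2.2 φ hφ]

theorem HasWeakDeriv.const_smul (h : HasWeakDeriv μ U v u g) (c : ℝ) :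
    HasWeakDeriv μ U v (fun x => c • u x) (fun x => c • g x) := by
  refine ⟨h.1.smul c, h.2.1.smul c, fun φ hφ => ?_⟩
  simp only [smul_comm _ c]
  rw [integral_smul, integral_smul, h.2.2 φ hφ, smul_neg]

theorem HasWeakDeriv.sum (hU : IsOpen U) {ι : Type*} (s : Finset ι) {a b : ι → E → F}
    (h : ∀ i ∈ s, HasWeakDeriv μ U v (a i) (b i)) :
    HasWeakDeriv μ U v (fun x => ∑ i ∈ s, a i x) (fun x => ∑ i ∈ s, b i x) := by
  classical
  induction s using Finset.induction_on with
  | empty => simpa using hasWeakDeriv_zero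
  | insert i s hi ih =>
    simp only [Finset.sum_insert hi]
    exact (h i (Finset.mem_insert_self i s)).add hU (ih fun j hj => h j (Finset.mem_insert_of_mem hj))

theorem weak_locInt_clm (hu : LocallyIntegrableOn u U μ) (L : F →L[ℝ] F') :
    LocallyIntegrableOn (fun x => L (u x)) U μ := fun x hx => by
  obtain ⟨s, hs, h⟩ := hu x hx
  exact ⟨s, hs, L.integrable_comp h⟩

theorem HasWeakDeriv.clm (h : HasWeakDeriv μ U v u g) (L : F →L[ℝ] F') :
    HasWeakDeriv μ U v (fun x => L (u x)) (fun x => L (g x)) := by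
  refine ⟨weak_locInt_clm h.1 L, weak_locInt_clm h.2.1 L, fun φ hφ => ?_⟩
  simp only [← map_smul]
  rw [L.integral_comp_comm (weak_integrable_fderiv_smul hφ h.1 v), L.integral_comp_comm (weak_integrable_smul hφ h.2.1),
    h.2.2 φ hφ, map_neg]

/-! ### linearity in the direction -/

theorem HasWeakDeriv.add_dir (hU : IsOpen U) (h₁ : HasWeakDeriv μ U v u g₁) (h₂ : HasWeakDeriv μ U w u g₂) :
    HasWeakDeriv μ U (v + w) u (fun x => g₁ x + g₂ x) := by
  refine ⟨h₁.1, h₁.2.1.add h₂.2.1, fun φ hφ => ?_⟩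
  simp only [map_add, add_smul, smul_add]
  rw [integral_add (weak_integrable_fderiv_smul hφ h₁.1 v) (weak_integrable_fderiv_smul hφ h₁.1 w),
    integral_add (weak_integrable_smul hφ h₁.2.1) (weak_integrable_smul hφ h₂.2.1), h₁.2.2 φ hφ, h₂.2.2 φ hφ]
  abel

theorem HasWeakDeriv.smul_dir (h : HasWeakDeriv μ U v u g) (c : ℝ) :
    HasWeakDeriv μ U (c • v) u (fun x => c • g x) := by
  refine ⟨h.1, h.2.1.smul c, fun φ hφ => ?_⟩
  simp only [map_smul, smul_assoc, smul_comm _ c]
  rw [integral_smul, integral_smul, h.2.2 φ hφ, smul_neg]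

theorem hasWeakDeriv_zero_dir (hu : LocallyIntegrableOn u U μ) :
    HasWeakDeriv μ U 0 u (fun _ => (0 : F)) := by
  refine ⟨hu, locallyIntegrableOn_zero, fun φ _ => ?_⟩
  simp

theorem HasWeakDeriv.sum_dir (hU : IsOpen U) {ι : Type*} (s : Finset ι) {e : ι → E} {b : ι → E → F}
    (hu : LocallyIntegrableOn u U μ) (h : ∀ i ∈ s, HasWeakDeriv μ U (e i) u (b i)) :
    HasWeakDeriv μ U (∑ i ∈ s, e i) u (fun x => ∑ i ∈ s, b i x) := by
  classical
  induction s using Finset.induction_on with
  | empty => simpa using hasWeakDeriv_zero_dir hu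
  | insert i s hi ih =>
    simp only [Finset.sum_insert hi]
    exact (h i (Finset.mem_insert_self i s)).add_dir hU (ih fun j hj => h j (Finset.mem_insert_of_mem hj))

/-! ### localisation, congruence, uniqueness -/

theorem HasWeakDeriv.mono (h : HasWeakDeriv μ U v u g) (hV : V ⊆ U) : HasWeakDeriv μ V v u g := by
  exact ⟨h.1.mono_set hV, h.2.1.mono_set hV, fun φ hφ => h.2.2 φ (hφ.mono hV)⟩

theorem weak_locInt_congr (hu : LocallyIntegrableOn u U μ) (h : ∀ᵐ x ∂(μ.restrict U), u x = u' x) :
    LocallyIntegrableOn u' U μ := fun x hx => by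
  obtain ⟨s, hs, hi⟩ := hu x hx
  refine ⟨s ∩ U, Filter.inter_mem hs self_mem_nhdsWithin, ?_⟩
  exact (hi.mono_set inter_subset_left).congr (ae_restrict_of_ae_restrict_of_subset inter_subset_right h)

theorem HasWeakDeriv.congr_ae (hU : IsOpen U) (h : HasWeakDeriv μ U v u g)
    (hu : ∀ᵐ x ∂(μ.restrict U), u x = u' x) (hg : ∀ᵐ x ∂(μ.restrict U), g x = g' x) :
    HasWeakDeriv μ U v u' g' := by
  have hu' := (ae_restrict_iff' hU.measurableSet).1 hu
  have hg' := (ae_restrict_iff' hU.measurableSet).1 hg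
  refine ⟨weak_locInt_congr h.1 hu, weak_locInt_congr h.2.1 hg, fun φ hφ => ?_⟩
  have e1 : ∫ x, (fderiv ℝ φ x v) • u' x ∂μ = ∫ x, (fderiv ℝ φ x v) • u x ∂μ := by
    refine integral_congr_ae ?_
    filter_upwards [hu'] with x hx
    by_cases hxU : x ∈ U
    · rw [hx hxU]
    · rw [(hφ.fderiv_apply v).eq_zero_of_notMem hxU, zero_smul, zero_smul]
  have e2 : ∫ x, φ x • g' x ∂μ = ∫ x, φ x • g x ∂μ := by
    refine integral_congr_ae ?_
    filter_upwards [hg'] with x hx
    by_cases hxU : x ∈ U
    · rw [hx hxU]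
    · rw [hφ.eq_zero_of_notMem hxU, zero_smul, zero_smul]
  rw [e1, e2, h.2.2 φ hφ]

theorem HasWeakDeriv.unique (hU : IsOpen U) (h₁ : HasWeakDeriv μ U v u g₁) (h₂ : HasWeakDeriv μ U v u g₂) :
    ∀ᵐ x ∂(μ.restrict U), g₁ x = g₂ x := by
  have key := hU.ae_eq_zero_of_integral_contDiff_smul_eq_zero (μ := μ) (f := fun x => g₁ x - g₂ x)
    (h₁.2.1.sub h₂.2.1) (fun φ h1 h2 h3 => by
      have hφ : IsTest U φ := ⟨h1, h2, h3⟩
      simp only [smul_sub]
      rw [integral_sub (weak_integrable_smul hφ h₁.2.1) (weak_integrable_smul hφ h₂.2.1)]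
      have a := h₁.2.2 φ hφ
      have b := h₂.2.2 φ hφ
      rw [a] at b
      rw [neg_inj.1 b, sub_self])
  rw [ae_restrict_iff' hU.measurableSet]
  filter_upwards [key] with x hx hxU
  exact sub_eq_zero.1 (hx hxU)

/-! ### classical derivatives -/

theorem hasWeakDeriv_of_contDiffOn (hU : IsOpen U) (hu : ContDiffOn ℝ 1 u U) (v : E) :
    HasWeakDeriv μ U v u (fun x => fderiv ℝ u x v) := by
  have c1 : ContinuousOn u U := hu.continuousOn
  have c2 : ContinuousOn (fun x => fderiv ℝ u x v) U :=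
    (hu.continuousOn_fderiv_of_isOpen hU le_rfl).clm_apply continuousOn_const
  have l1 : LocallyIntegrableOn u U μ := c1.locallyIntegrableOn hU.measurableSet
  have l2 : LocallyIntegrableOn (fun x => fderiv ℝ u x v) U μ := c2.locallyIntegrableOn hU.measurableSet
  refine ⟨l1, l2, fun φ hφ => ?_⟩
  have key := integral_smul_fderiv_eq_neg_fderiv_smul_of_integrable (μ := μ) (f := φ) (g := u) (v := v)
    (weak_integrable_fderiv_smul hφ l1 v) (weak_integrable_smul hφ l2) (weak_integrable_smul hφ l1)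
    (fun x _ => hφ.smooth.differentiable (by simp) x)
    (fun x hx => (hu.differentiableOn one_ne_zero).differentiableAt (hU.mem_nhds (hφ.supp hx)))
  rw [key, neg_neg]

/-! ### vector valued test functions, product rules -/

theorem HasWeakDeriv.test_clm (hU : IsOpen U) (h : HasWeakDeriv μ U v u g) {T : E → F →L[ℝ] F'}
    (hT : IsTestV U T) : ∫ x, (fderiv ℝ T x v) (u x) ∂μ = - ∫ x, T x (g x) ∂μ := by
  classical
  set b := Module.finBasis ℝ (F →L[ℝ] F') with hb
  set ℓ : Fin (Module.finrank ℝ (F →L[ℝ] F')) → (F →L[ℝ] F') →L[ℝ] ℝ :=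
    fun i => LinearMap.toContinuousLinearMap (b.coord i) with hℓ
  have hexp : ∀ S : F →L[ℝ] F', S = ∑ i, ℓ i S • b i := fun S => (b.sum_repr S).symm
  have hφ : ∀ i, IsTest U (fun x => ℓ i (T x)) := fun i => hT.isTest_clm (ℓ i)
  have hd : ∀ i x, fderiv ℝ (fun y => ℓ i (T y)) x v = ℓ i (fderiv ℝ T x v) := by
    intro i x
    have := ((ℓ i).hasFDerivAt.comp x (hT.smooth.differentiable (by simp) x).hasFDerivAt).fderiv
    have e : (fun y => ℓ i (T y)) = (ℓ i) ∘ T := rfl
    rw [e, this]
    rfl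
  have e1 : ∀ x, (fderiv ℝ T x v) (u x) = ∑ i, (fderiv ℝ (fun y => ℓ i (T y)) x v) • (b i) (u x) := by
    intro x
    conv_lhs => rw [hexp (fderiv ℝ T x v)]
    simp only [ContinuousLinearMap.sum_apply, ContinuousLinearMap.smul_apply, hd]
  have e2 : ∀ x, T x (g x) = ∑ i, ℓ i (T x) • (b i) (g x) := by
    intro x
    conv_lhs => rw [hexp (T x)]
    simp only [ContinuousLinearMap.sum_apply, ContinuousLinearMap.smul_apply]
  simp only [e1, e2]
  rw [integral_finsetSum _ fun i _ => weak_integrable_fderiv_smul (hφ i) (weak_locInt_clm h.1 (b i)) v,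
    integral_finsetSum _ fun i _ => weak_integrable_smul (hφ i) (weak_locInt_clm h.2.1 (b i)),
    ← Finset.sum_neg_distrib]
  exact Finset.sum_congr rfl fun i _ => (h.clm (b i)).integral_eq (hφ i)

theorem HasWeakDeriv.test_apply (hU : IsOpen U) {T T' : E → F →L[ℝ] F'} (h : HasWeakDeriv μ U v T T')
    {Ψ : E → F} (hΨ : IsTestV U Ψ) : ∫ x, T x (fderiv ℝ Ψ x v) ∂μ = - ∫ x, T' x (Ψ x) ∂μ := by
  have hS : IsTestV U (fun x => ContinuousLinearMap.apply ℝ F' (Ψ x)) := hΨ.clm (ContinuousLinearMap.apply ℝ F')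
  have key := h.test_clm hU hS
  have hd : ∀ x, fderiv ℝ (fun y => ContinuousLinearMap.apply ℝ F' (Ψ y)) x v
      = ContinuousLinearMap.apply ℝ F' (fderiv ℝ Ψ x v) := by
    intro x
    have := ((ContinuousLinearMap.apply ℝ F').hasFDerivAt.comp x
      (hΨ.smooth.differentiable (by simp) x).hasFDerivAt).fderiv
    have e : (fun y => ContinuousLinearMap.apply ℝ F' (Ψ y)) = (ContinuousLinearMap.apply ℝ F') ∘ Ψ := rfl
    rw [e, this]
    rfl
  simp only [hd, ContinuousLinearMap.apply_apply] at key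
  exact key

theorem weak_locInt_clm_apply (hU : IsOpen U) {B : E → F →L[ℝ] F'} (hB : ContinuousOn B U)
    (hu : LocallyIntegrableOn u U μ) : LocallyIntegrableOn (fun x => B x (u x)) U μ := by
  refine (locallyIntegrableOn_iff hU.isLocallyClosed).2 fun k hk hkc => ?_
  have hi : IntegrableOn u k μ := hu.integrableOn_compact_subset hk hkc
  obtain ⟨C, hC⟩ := hkc.exists_bound_of_continuousOn (hB.mono hk)
  have hm : AEStronglyMeasurable (fun x => B x (u x)) (μ.restrict k) :=
    (ContinuousLinearMap.id ℝ (F →L[ℝ] F')).aestronglyMeasurable_comp₂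
      ((hB.mono hk).aestronglyMeasurable hkc.measurableSet) hi.aestronglyMeasurable
  refine (hi.norm.const_mul C).mono' hm ?_
  refine ae_restrict_of_forall_mem hkc.measurableSet fun x hx => ?_
  exact ((B x).le_opNorm (u x)).trans (mul_le_mul_of_nonneg_right (hC x hx) (norm_nonneg _))

/-- product rule with a coefficient which is smooth on `U`. -/
theorem HasWeakDeriv.clm_apply (hU : IsOpen U) (h : HasWeakDeriv μ U v u g) {B : E → F →L[ℝ] F'}
    (hB : ContDiffOn ℝ ∞ B U) :
    HasWeakDeriv μ U v (fun x => B x (u x)) (fun x => (fderiv ℝ B x v) (u x) + B x (g x)) := by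
  have cB : ContinuousOn B U := hB.continuousOn
  have cB' : ContinuousOn (fun x => fderiv ℝ B x v) U :=
    (hB.continuousOn_fderiv_of_isOpen hU (by simp)).clm_apply continuousOn_const
  have l1 := weak_locInt_clm_apply hU cB h.1
  have l2 := weak_locInt_clm_apply hU cB' h.1
  have l3 := weak_locInt_clm_apply hU cB h.2.1
  refine ⟨l1, l2.add l3, fun φ hφ => ?_⟩
  have hT : IsTestV U (fun x => φ x • B x) := hφ.smul_of_contDiffOn hU hB
  have key := h.test_clm hU hT
  have hd : ∀ x, fderiv ℝ (fun y => φ y • B y) x v = (fderiv ℝ φ x v) • B x + φ x • fderiv ℝ B x v := by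
    intro x
    by_cases hx : x ∈ U
    · have h1 : DifferentiableAt ℝ φ x := hφ.smooth.differentiable (by simp) x
      have h2 : DifferentiableAt ℝ B x := (hB.differentiableOn (by simp)).differentiableAt (hU.mem_nhds hx)
      rw [fderiv_fun_smul h1 h2]
      simp only [ContinuousLinearMap.add_apply, ContinuousLinearMap.smul_apply,
        ContinuousLinearMap.smulRight_apply]
      abel
    · rw [(hT.fderiv_apply v).eq_zero_of_notMem hx, (hφ.fderiv_apply v).eq_zero_of_notMem hx,
        hφ.eq_zero_of_notMem hx, zero_smul, zero_smul, add_zero]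
  simp only [hd, ContinuousLinearMap.add_apply, ContinuousLinearMap.smul_apply] at key
  rw [integral_add (weak_integrable_fderiv_smul hφ l1 v) (weak_integrable_smul hφ l2)] at key
  simp only [smul_add]
  rw [integral_add (weak_integrable_smul hφ l2) (weak_integrable_smul hφ l3), neg_add, ← key]
  abel

/-- product rule with a compactly supported coefficient: the product lives on the whole space. -/
theorem HasWeakDeriv.clm_apply_univ (hU : IsOpen U) (h : HasWeakDeriv μ U v u g) {B : E → F →L[ℝ] F'}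
    (hB : IsTestV U B) :
    HasWeakDeriv μ univ v (fun x => B x (u x)) (fun x => (fderiv ℝ B x v) (u x) + B x (g x)) := by
  have hB' : IsTestV U (fun x => fderiv ℝ B x v) := hB.fderiv_apply v
  have i1 := hB.integrable_clm_apply (μ := μ) hU h.1
  have i2 := hB'.integrable_clm_apply (μ := μ) hU h.1
  have i3 := hB.integrable_clm_apply (μ := μ) hU h.2.1
  refine ⟨i1.locallyIntegrable.locallyIntegrableOn _, (i2.add i3).locallyIntegrable.locallyIntegrableOn _,
    fun φ hφ => ?_⟩
  have hT : IsTestV U (fun x => φ x • B x) := hB.smul hφ.smooth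
  have key := h.test_clm hU hT
  have hd : ∀ x, fderiv ℝ (fun y => φ y • B y) x v = (fderiv ℝ φ x v) • B x + φ x • fderiv ℝ B x v := by
    intro x
    have h1 : DifferentiableAt ℝ φ x := hφ.smooth.differentiable (by simp) x
    have h2 : DifferentiableAt ℝ B x := hB.smooth.differentiable (by simp) x
    rw [fderiv_fun_smul h1 h2]
    simp only [ContinuousLinearMap.add_apply, ContinuousLinearMap.smul_apply,
      ContinuousLinearMap.smulRight_apply]
    abel
  simp only [hd, ContinuousLinearMap.add_apply, ContinuousLinearMap.smul_apply] at key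
  have j1 := weak_integrable_fderiv_smul hφ (i1.locallyIntegrable.locallyIntegrableOn univ) v
  have j2 := weak_integrable_smul hφ (i2.locallyIntegrable.locallyIntegrableOn univ)
  have j3 := weak_integrable_smul hφ (i3.locallyIntegrable.locallyIntegrableOn univ)
  rw [integral_add j1 j2] at key
  simp only [smul_add]
  rw [integral_add j2 j3, neg_add, ← key]
  abel

theorem HasWeakDeriv.smul_smooth (hU : IsOpen U) (h : HasWeakDeriv μ U v u g) {χ : E → ℝ}
    (hχ : ContDiffOn ℝ ∞ χ U) :
    HasWeakDeriv μ U v (fun x => χ x • u x) (fun x => (fderiv ℝ χ x v) • u x + χ x • g x) := by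
  have hB : ContDiffOn ℝ ∞ (fun x => χ x • ContinuousLinearMap.id ℝ F) U := hχ.smul contDiffOn_const
  refine (h.clm_apply hU hB).congr_ae hU (Filter.Eventually.of_forall fun x => by simp)
    (ae_restrict_of_forall_mem hU.measurableSet fun x hx => ?_)
  have h1 : DifferentiableAt ℝ χ x := (hχ.differentiableOn (by simp)).differentiableAt (hU.mem_nhds hx)
  rw [fderiv_fun_smul h1 (differentiableAt_const _)]
  simp

theorem HasWeakDeriv.smul_test_univ (hU : IsOpen U) (h : HasWeakDeriv μ U v u g) {χ : E → ℝ}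
    (hχ : IsTest U χ) :
    HasWeakDeriv μ univ v (fun x => χ x • u x) (fun x => (fderiv ℝ χ x v) • u x + χ x • g x) := by
  have hB : IsTestV U (fun x => χ x • ContinuousLinearMap.id ℝ F) := hχ.smul_of_contDiffOn hU contDiffOn_const
  refine (h.clm_apply_univ hU hB).congr_ae isOpen_univ (Filter.Eventually.of_forall fun x => by simp)
    (Filter.Eventually.of_forall fun x => ?_)
  have h1 : DifferentiableAt ℝ χ x := hχ.smooth.differentiable (by simp) x
  rw [fderiv_fun_smul h1 (differentiableAt_const _)]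
  simp

/-! ### translations -/

theorem weak_locInt_translate (hu : LocallyIntegrableOn u univ μ) (a : E) :
    LocallyIntegrableOn (fun x => u (x + a)) univ μ := by
  refine (locallyIntegrableOn_iff isOpen_univ.isLocallyClosed).2 fun k _ hkc => ?_
  have hk' : IsCompact ((fun x => x + a) '' k) := hkc.image (continuous_add_right a)
  have hi : IntegrableOn u ((fun x => x + a) '' k) μ := hu.integrableOn_compact_subset (subset_univ _) hk'
  have := ((measurePreserving_add_right μ a).integrableOn_comp_preimage (measurableEmbedding_addRight a)).2 hi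
  rwa [Set.preimage_image_eq _ (add_left_injective a)] at this

theorem HasWeakDeriv.translate (h : HasWeakDeriv μ univ v u g) (a : E) :
    HasWeakDeriv μ univ v (fun x => u (x + a)) (fun x => g (x + a)) := by
  refine ⟨weak_locInt_translate h.1 a, weak_locInt_translate h.2.1 a, fun φ hφ => ?_⟩
  have hψ : IsTest univ (fun y => φ (y + -a)) := hφ.translate (-a)
  have key := h.2.2 _ hψ
  simp only [hφ.fderiv_translate] at key
  have e1 : ∫ x, (fderiv ℝ φ x v) • u (x + a) ∂μ = ∫ y, (fderiv ℝ φ (y + -a) v) • u y ∂μ := by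
    rw [← integral_add_right_eq_self (fun y => (fderiv ℝ φ (y + -a) v) • u y) a]
    simp
  have e2 : ∫ x, φ x • g (x + a) ∂μ = ∫ y, φ (y + -a) • g y ∂μ := by
    rw [← integral_add_right_eq_self (fun y => φ (y + -a) • g y) a]
    simp
  rw [e1, e2, key]

/-! ### commutation -/

/-- `∂_v u = g₁`, `∂_w u = g₂`, `∂_w g₁ = g₁₂` imply `∂_v g₂ = g₁₂`.
Proof: for a test `φ`: `∫ ∂_vφ • g₂ = - ∫ ∂_w∂_vφ • u = - ∫ ∂_v∂_wφ • u = ∫ ∂_wφ • g₁ = - ∫ φ • g₁₂`. -/
theorem HasWeakDeriv.comm {g₁₂ : E → F} (h₁ : HasWeakDeriv μ U v u g₁) (h₂ : HasWeakDeriv μ U w u g₂)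
    (h₁₂ : HasWeakDeriv μ U w g₁ g₁₂) : HasWeakDeriv μ U v g₂ g₁₂ := by
  refine ⟨h₂.2.1, h₁₂.2.1, fun φ hφ => ?_⟩
  have a1 := h₂.2.2 _ (hφ.fderiv_apply v)
  have a2 := h₁.2.2 _ (hφ.fderiv_apply w)
  have a3 := h₁₂.2.2 _ hφ
  have hs : ∀ x, fderiv ℝ (fun y => fderiv ℝ φ y v) x w = fderiv ℝ (fun y => fderiv ℝ φ y w) x v := by
    intro x
    have hd : DifferentiableAt ℝ (fderiv ℝ φ) x :=
      ((hφ.smooth.fderiv_right (m := 1) (WithTop.coe_le_coe.2 le_top)).differentiable one_ne_zero) x
    rw [fderiv_clm_apply hd (differentiableAt_const _), fderiv_clm_apply hd (differentiableAt_const _)]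
    simp only [fderiv_fun_const, Pi.zero_apply, ContinuousLinearMap.comp_zero, zero_add,
      ContinuousLinearMap.flip_apply]
    exact (hφ.smooth.contDiffAt.isSymmSndFDerivAt (by simp; exact WithTop.coe_le_coe.2 le_top)) w v
  simp only [hs] at a1
  rw [a2, a3, neg_neg] at a1
  rw [← neg_inj, ← a1, neg_neg]

/-! ### the full weak derivative -/

variable {G G₁ G₂ : E → E →L[ℝ] F}

theorem HasWeakFDeriv.locInt (h : HasWeakFDeriv μ U u G) : LocallyIntegrableOn u U μ := (h 0).1

theorem weak_locInt_sum {ι : Type*} (s : Finset ι) {a : ι → E → F}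
    (h : ∀ i ∈ s, LocallyIntegrableOn (a i) U μ) : LocallyIntegrableOn (fun x => ∑ i ∈ s, a i x) U μ := by
  classical
  induction s using Finset.induction_on with
  | empty => simpa using locallyIntegrableOn_zero
  | insert i s hi ih =>
    simp only [Finset.sum_insert hi]
    exact (h i (Finset.mem_insert_self i s)).add (ih fun j hj => h j (Finset.mem_insert_of_mem hj))

/-- the continuous coordinate functionals of the standard basis of `E`. -/
noncomputable def weakCoord (i : Fin (Module.finrank ℝ E)) : E →L[ℝ] ℝ :=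
  LinearMap.toContinuousLinearMap ((Module.finBasis ℝ E).coord i)

/-- `y ↦ (coord i) ⊗ y`. -/
noncomputable def weakL (i : Fin (Module.finrank ℝ E)) : F →L[ℝ] E →L[ℝ] F :=
  ContinuousLinearMap.smulRightL ℝ E F (weakCoord i)

theorem weakL_apply (i : Fin (Module.finrank ℝ E)) (y : F) (v : E) :
    weakL i y v = weakCoord i v • y := rfl

theorem weak_sum_coord (v : E) : ∑ i, weakCoord i v • Module.finBasis ℝ E i = v :=
  (Module.finBasis ℝ E).sum_repr v

theorem weak_expand (S : E →L[ℝ] F) : S = ∑ i, weakL i (S (Module.finBasis ℝ E i)) := by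
  ext v
  simp only [ContinuousLinearMap.sum_apply, weakL_apply]
  conv_lhs => rw [← weak_sum_coord v]
  simp only [map_sum, map_smul]

theorem HasWeakFDeriv.locInt_fderiv (h : HasWeakFDeriv μ U u G) : LocallyIntegrableOn G U μ := by
  have e : G = fun x => ∑ i, weakL (F := F) i (G x (Module.finBasis ℝ E i)) := by
    funext x
    exact weak_expand (G x)
  rw [e]
  exact weak_locInt_sum _ fun i _ => weak_locInt_clm (h _).2.1 _

theorem HasWeakFDeriv.mono (h : HasWeakFDeriv μ U u G) (hV : V ⊆ U) : HasWeakFDeriv μ V u G :=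
  fun v => (h v).mono hV

theorem HasWeakFDeriv.congr_ae (hU : IsOpen U) (h : HasWeakFDeriv μ U u G)
    (hu : ∀ᵐ x ∂(μ.restrict U), u x = u' x) (hG : ∀ᵐ x ∂(μ.restrict U), G x = G₁ x) :
    HasWeakFDeriv μ U u' G₁ := by
  exact fun v => (h v).congr_ae hU hu (hG.mono fun x hx => by rw [hx])

theorem HasWeakFDeriv.unique (hU : IsOpen U) (h₁ : HasWeakFDeriv μ U u G₁) (h₂ : HasWeakFDeriv μ U u G₂) :
    ∀ᵐ x ∂(μ.restrict U), G₁ x = G₂ x := by
  have key : ∀ᵐ x ∂(μ.restrict U), ∀ i, G₁ x (Module.finBasis ℝ E i) = G₂ x (Module.finBasis ℝ E i) :=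
    ae_all_iff.2 fun i => (h₁ _).unique hU (h₂ _)
  filter_upwards [key] with x hx
  rw [weak_expand (G₁ x), weak_expand (G₂ x)]
  simp only [hx]

theorem HasWeakFDeriv.add (hU : IsOpen U) (h₁ : HasWeakFDeriv μ U u G₁) (h₂ : HasWeakFDeriv μ U u' G₂) :
    HasWeakFDeriv μ U (fun x => u x + u' x) (fun x => G₁ x + G₂ x) := by
  exact fun v => (h₁ v).add hU (h₂ v)

theorem HasWeakFDeriv.sub (hU : IsOpen U) (h₁ : HasWeakFDeriv μ U u G₁) (h₂ : HasWeakFDeriv μ U u' G₂) :
    HasWeakFDeriv μ U (fun x => u x - u' x) (fun x => G₁ x - G₂ x) := by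
  exact fun v => (h₁ v).sub hU (h₂ v)

theorem HasWeakFDeriv.const_smul (h : HasWeakFDeriv μ U u G) (c : ℝ) :
    HasWeakFDeriv μ U (fun x => c • u x) (fun x => c • G x) := by
  exact fun v => (h v).const_smul c

theorem HasWeakFDeriv.clm (h : HasWeakFDeriv μ U u G) (L : F →L[ℝ] F') :
    HasWeakFDeriv μ U (fun x => L (u x)) (fun x => L.comp (G x)) := by
  exact fun v => (h v).clm L

theorem HasWeakFDeriv.translate (h : HasWeakFDeriv μ univ u G) (a : E) :
    HasWeakFDeriv μ univ (fun x => u (x + a)) (fun x => G (x + a)) :=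
  fun v => (h v).translate a

/-- directional weak derivatives in all directions (a basis would suffice) give a full weak derivative. -/
theorem exists_hasWeakFDeriv (hU : IsOpen U) (h : ∀ v : E, ∃ g : E → F, HasWeakDeriv μ U v u g) :
    ∃ G : E → E →L[ℝ] F, HasWeakFDeriv μ U u G := by
  choose γ hγ using h
  refine ⟨fun x => ∑ i, weakL i (γ (Module.finBasis ℝ E i) x), fun v => ?_⟩
  have h1 := HasWeakDeriv.sum_dir hU Finset.univ (e := fun i => weakCoord i v • Module.finBasis ℝ E i)
    (b := fun i x => weakCoord i v • γ (Module.finBasis ℝ E i) x) (hγ 0).1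
    (fun i _ => (hγ (Module.finBasis ℝ E i)).smul_dir (weakCoord i v))
  rw [weak_sum_coord] at h1
  simpa only [ContinuousLinearMap.sum_apply, weakL_apply] using h1

theorem hasWeakFDeriv_of_contDiffOn' (hU : IsOpen U) (hu : ContDiffOn ℝ 1 u U) :
    HasWeakFDeriv μ U u (fderiv ℝ u) :=
  fun v => hasWeakDeriv_of_contDiffOn hU hu v

/-- cutoff: `χ u` on the whole space. -/
theorem HasWeakFDeriv.smul_test_univ (hU : IsOpen U) (h : HasWeakFDeriv μ U u G) {χ : E → ℝ}
    (hχ : IsTest U χ) :
    HasWeakFDeriv μ univ (fun x => χ x • u x) (fun x => (fderiv ℝ χ x).smulRight (u x) + χ x • G x) := by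
  intro v
  simpa only [ContinuousLinearMap.add_apply, ContinuousLinearMap.smulRight_apply,
    ContinuousLinearMap.smul_apply] using (h v).smul_test_univ hU hχ

/-- if `G = du` has the weak derivative `G'` in the direction `v`, then `G'` is the full weak derivative of
`∂_v u = G · v` (commutation of weak derivatives). -/
theorem HasWeakFDeriv.of_deriv {G' : E → E →L[ℝ] F} (h : HasWeakFDeriv μ U u G)
    (h' : HasWeakDeriv μ U v G G') : HasWeakFDeriv μ U (fun x => G x v) G' := by
  intro w
  exact (h w).comm (h v) (h'.clm (ContinuousLinearMap.apply ℝ F w))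

/-! ### limits -/

theorem hasWeakDeriv_of_tendsto (hU : IsOpen U) {un gn : ℕ → E → F}
    (h : ∀ n, HasWeakDeriv μ U v (un n) (gn n)) (hu : L2Loc μ U u) (hg : L2Loc μ U g)
    (hun : ∀ n, L2Loc μ U (un n)) (hgn : ∀ n, L2Loc μ U (gn n))
    (h1 : ∀ K : Set E, IsCompact K → K ⊆ U →
      Tendsto (fun n => eLpNorm (fun x => un n x - u x) 2 (μ.restrict K)) atTop (𝓝 0))
    (h2 : ∀ K : Set E, IsCompact K → K ⊆ U →
      Tendsto (fun n => eLpNorm (fun x => gn n x - g x) 2 (μ.restrict K)) atTop (𝓝 0)) :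
    HasWeakDeriv μ U v u g := by
  refine ⟨hu.locallyIntegrableOn hU, hg.locallyIntegrableOn hU, fun φ hφ => ?_⟩
  have key : ∀ {ψ : E → ℝ} (hψ : IsTest U ψ) {wn : ℕ → E → F} {w : E → F} (hw : L2Loc μ U w)
      (hwn : ∀ n, L2Loc μ U (wn n))
      (hl : ∀ K : Set E, IsCompact K → K ⊆ U →
        Tendsto (fun n => eLpNorm (fun x => wn n x - w x) 2 (μ.restrict K)) atTop (𝓝 0)),
      Tendsto (fun n => ∫ x, ψ x • wn n x ∂μ) atTop (𝓝 (∫ x, ψ x • w x ∂μ)) := by
    intro ψ hψ wn w hw hwn hl
    rw [hψ.integral_smul_eq_setIntegral_tsupport (μ := μ) w]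
    refine Tendsto.congr (fun n => (hψ.integral_smul_eq_setIntegral_tsupport (μ := μ) (wn n)).symm) ?_
    have hT : MemLp (fun x => ψ x • ContinuousLinearMap.id ℝ F) 2 (μ.restrict (tsupport ψ)) :=
      ((hψ.smul_of_contDiffOn hU (Ψ := fun _ => ContinuousLinearMap.id ℝ F) contDiffOn_const).memLp 2).restrict _
    have := tendsto_setIntegral_clm_apply hT (fun n => hwn n _ hψ.compact hψ.supp) (hw _ hψ.compact hψ.supp)
      (hl _ hψ.compact hψ.supp)
    simpa only [ContinuousLinearMap.smul_apply, ContinuousLinearMap.id_apply] using this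
  have l1 := key (hφ.fderiv_apply v) hu hun h1
  have l2 := (key hφ hg hgn h2).neg
  exact tendsto_nhds_unique (l1.congr fun n => (h n).2.2 φ hφ) l2

end Claimed.Agent.Lib.Sob
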